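import Vale.Agent.P297.H637.T8Poly

/-!
The abstract part of the other side: from a family of cycles that is canonical only modulo
relations to the conclusion.
-/

set_option linter.unusedSectionVars false

open IntermediateField Polynomial WeierstrassCurve WeierstrassCurve.Affine

namespace Vale.Agent.P297.H637

open Vale.Agent.P297 Vale.Agent.P297.Gen Vale.Agent.P297.H839 Vale.Agent.P297.H600
open Vale.Agent.P297.H729 Vale.Agent.P297.Z3 Vale.Agent.P297.G4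

section

variable {N : Type} [Field N] [Algebra ℂ N]

/-- An element of a field outside finitely many fields. -/
theorem exists_outside (L : IntermediateField ℂ N) {n : ℕ}
    (M : Fin n → IntermediateField ℂ N) (h : ∀ i, ¬ L ≤ M i) : ∃ μ ∈ L, ∀ i, μ ∉ M i := by
  by_contra hcon
  push Not at hcon
  let p : Fin n → Subspace ℂ L := fun i =>
    (Subalgebra.toSubmodule (M i).toSubalgebra).comap L.val.toLinearMap
  have hcov : ⋃ i, (p i : Set L) = Set.univ := by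
    rw [Set.eq_univ_iff_forall]
    rintro ⟨μ, hμ⟩
    obtain ⟨i, hi⟩ := hcon μ hμ
    exact Set.mem_iUnion.2 ⟨i, hi⟩
  obtain ⟨i, hi⟩ := Subspace.exists_eq_top_of_iUnion_eq_univ hcov
  apply h i
  intro μ hμ
  have h1 : (⟨μ, hμ⟩ : L) ∈ p i := by
    rw [hi]
    trivial
  exact h1

/-- the quartic of the family at `s` -/
noncomputable abbrev cP (P : Fin 5 → ℂ[X]) (s : N) : Fin 5 → N := fun i => aeval (lv s) (P i)

/-- A generic point of the family of quartics. -/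
structure GenT (P : Fin 5 → ℂ[X]) (s X Y : N) : Prop where
  tr : Transcendental ℂ s
  notMem : X ∉ cl0 ({s} : Set N)
  eq : Y ^ 2 = qv (cP P s) X

theorem GenT.s_ne {P : Fin 5 → ℂ[X]} {s X Y : N} (h : GenT P s X Y) : s ≠ 0 := by
  rintro rfl
  exact h.tr isAlgebraic_zero

variable [IsAlgClosed N]

theorem genT_inv {P : Fin 5 → ℂ[X]} {s X Y : N} (h : GenT P s X Y) : GenT P s⁻¹ X Y := by
  refine ⟨?_, ?_, ?_⟩
  · intro h0
    apply h.tr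
    have h1 := h0.inv
    rwa [inv_inv] at h1
  · rw [cl0_inv (s := s) (Or.inr rfl)]
    exact h.notMem
  · have h1 := h.eq
    have h2 : cP P s⁻¹ = cP P s := by
      funext i
      simp only [cP, lv_inv h.s_ne]
    rw [h2]
    exact h1

/-- a field over which `N` is algebraic is not contained in a small closed field -/
theorem not_le_of (h4 : Algebra.trdeg ℂ N = 4) (L : IntermediateField ℂ N)
    (hLa : Algebra.IsAlgebraic L N) (a b c : N) (M : IntermediateField ℂ N)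
    (hM : M ≤ cl0 {a, b, c}) : ¬ L ≤ M := by
  intro h
  obtain ⟨t, ht⟩ := exists_notMem3 h4 a b c
  apply ht
  apply closed_cl0
  have h1 : L ≤ cl0 {a, b, c} := h.trans hM
  obtain ⟨p, hp0, hp⟩ := hLa.isAlgebraic t
  refine isAlgebraic_of_coeff (p := p.map (algebraMap L N)) ?_ ?_ ?_
  · intro n
    rw [coeff_map]
    exact h1 (p.coeff n).2
  · exact (Polynomial.map_ne_zero_iff (algebraMap L N).injective).2 hp0
  · rw [Polynomial.eval_map]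
    exact hp

variable {K : Type} [Field K] [Algebra ℂ K]

/-- Cycles that are canonical modulo relations have the property `Star`. -/
theorem star_of_param (h4 : Algebra.trdeg ℂ N = 4) {𝓡 : AddSubgroup ((K →ₐ[ℂ] N) →₀ ℤ)}
    (hst : stableRelations K N ≤ 𝓡) {c : Fin 5 → N} {s : N}
    {B : N → N → N → ((K →ₐ[ℂ] N) →₀ ℤ)} (n : ℤ)
    (Z : N → N → N → N → N → ((K →ₐ[ℂ] N) →₀ ℤ))
    (hZ : ∀ (g : N ≃ₐ[ℂ] N) (e X Y μ₁ μ₂ : N),
      act g.toAlgHom (Z e X Y μ₁ μ₂) = Z (g e) (g X) (g Y) (g μ₁) (g μ₂))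
    (hZB : ∀ e X Y, (e = s ∨ e = s⁻¹) ∧ X ∉ cl0 {s} ∧ Y ^ 2 = qv c X → ∀ μ₁ μ₂,
      μ₁ ∉ cl0 {e, X} → μ₂ ∉ cl0 {e, X, μ₁} → n • B e X Y - Z e X Y μ₁ μ₂ ∈ 𝓡) :
    Star c s B (𝓡.comap (zsmulAddGroupHom n)) := by
  intro L hL hLa m e X Y hgen hperm
  obtain ⟨μ₁, hμ₁, h1⟩ := exists_outside L (fun i => cl0 {e i, X i}) fun i =>
    not_le_of h4 L hLa (e i) (X i) (X i) _ (cl0_le (closed_cl0 _) (by
      rintro _ (rfl | rfl)
      · exact subset_cl0 _ (by simp)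
      · exact subset_cl0 _ (by simp)))
  obtain ⟨μ₂, hμ₂, h2⟩ := exists_outside L (fun i => cl0 {e i, X i, μ₁}) fun i =>
    not_le_of h4 L hLa (e i) (X i) μ₁ _ le_rfl
  have h3 : ∑ i, Z (e i) (X i) (Y i) μ₁ μ₂ ∈ 𝓡 := by
    apply hst
    refine stable_of_fixed L hL hLa _ fun g hg => ?_
    obtain ⟨σ, hσ⟩ := hperm g hg
    rw [map_sum]
    have h4 : ∀ i, act g.toAlgHom (Z (e i) (X i) (Y i) μ₁ μ₂) =
        Z (e (σ i)) (X (σ i)) (Y (σ i)) μ₁ μ₂ := by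
      intro i
      rw [hZ, (hσ i).1, (hσ i).2.1, (hσ i).2.2, hg μ₁ hμ₁, hg μ₂ hμ₂]
    simp only [h4]
    exact Equiv.sum_comp σ (fun i => Z (e i) (X i) (Y i) μ₁ μ₂)
  have h4 : ∑ i, (n • B (e i) (X i) (Y i) - Z (e i) (X i) (Y i) μ₁ μ₂) ∈ 𝓡 :=
    sum_mem fun i _ => hZB _ _ _ (hgen i) μ₁ μ₂ (h1 i) (h2 i)
  have h5 := AddSubgroup.add_mem _ h4 h3
  rw [← Finset.sum_add_distrib] at h5
  simp only [sub_add_cancel] at h5
  rw [← Finset.smul_sum] at h5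
  exact h5

/-- **The abstract other side.** `𝒬` is the set of pairs (lift of a point of the double cover,
generic line of the ruling), `Ψ` the cycle on the line. -/
theorem kabs (h4 : Algebra.trdeg ℂ N = 4) {p q : ℂ[X]} (hp : p.natDegree ≤ 4)
    (hq : q.natDegree ≤ 6) (hdisc : 4 * p ^ 3 ≠ q ^ 2)
    (hnt : ∀ α β a b : ℂ, ¬ (p = C α * (C a * X + C b) ^ 4 ∧ q = C β * (C a * X + C b) ^ 6))
    {P : Fin 5 → ℂ[X]} (hI : qI P = (X * (X - 4)) ^ 2 * p) (hJ : qJ P = (X * (X - 4)) ^ 3 * q)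
    {𝓡 : AddSubgroup ((K →ₐ[ℂ] N) →₀ ℤ)} (hst : stableRelations K N ≤ 𝓡)
    {𝒬 : Type} (ts tX tY : 𝒬 → N) (Ψ : 𝒬 → ((K →ₐ[ℂ] N) →₀ ℤ))
    (hgen : ∀ q, GenT P (ts q) (tX q) (tY q))
    (A1 : ∀ q q', ts q = ts q' → tX q = tX q' → tY q = tY q' → Ψ q - Ψ q' ∈ 𝓡)
    (A2 : ∀ q, ∃ q', ts q' = (ts q)⁻¹ ∧ tX q' = tX q ∧ tY q' = tY q ∧ Ψ q + Ψ q' ∈ 𝓡)
    (n : ℕ) (Z : N → N → N → N → N → ((K →ₐ[ℂ] N) →₀ ℤ))
    (hZ : ∀ (g : N ≃ₐ[ℂ] N) (e X Y μ₁ μ₂ : N),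
      act g.toAlgHom (Z e X Y μ₁ μ₂) = Z (g e) (g X) (g Y) (g μ₁) (g μ₂))
    (A5 : ∀ s X Y, GenT P s X Y → ∀ μ₁ μ₂, μ₁ ∉ cl0 {s, X} → μ₂ ∉ cl0 {s, X, μ₁} →
      ∃ k : Fin n → 𝒬, (∀ i, ts (k i) = s ∧ tX (k i) = X ∧ tY (k i) = Y) ∧
        Z s X Y μ₁ μ₂ = ∑ i, Ψ (k i)) (q₀ : 𝒬) :
    (16 * n : ℤ) • Ψ q₀ ∈ 𝓡 := by
  classical
  let B : N → N → N → ((K →ₐ[ℂ] N) →₀ ℤ) := fun s X Y =>
    if h : ∃ q, ts q = s ∧ tX q = X ∧ tY q = Y then Ψ h.choose else 0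
  have hB : ∀ q s X Y, ts q = s → tX q = X → tY q = Y → B s X Y - Ψ q ∈ 𝓡 := by
    intro q s X Y h1 h2 h3
    have h : ∃ q, ts q = s ∧ tX q = X ∧ tY q = Y := ⟨q, h1, h2, h3⟩
    have h0 : B s X Y = Ψ h.choose := dif_pos h
    rw [h0]
    obtain ⟨e1, e2, e3⟩ := h.choose_spec
    exact A1 _ _ (e1.trans h1.symm) (e2.trans h2.symm) (e3.trans h3.symm)
  obtain ⟨s, hs⟩ : ∃ s, s = ts q₀ := ⟨_, rfl⟩
  obtain ⟨x, hx⟩ : ∃ x, x = tX q₀ := ⟨_, rfl⟩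
  obtain ⟨y, hy⟩ : ∃ y, y = tY q₀ := ⟨_, rfl⟩
  have hg : GenT P s x y := by
    rw [hs, hx, hy]
    exact hgen q₀
  have hstar : Star (cP P s) s B (𝓡.comap (zsmulAddGroupHom (n : ℤ))) := by
    refine star_of_param h4 hst (n : ℤ) Z hZ ?_
    rintro e x' y' ⟨he, hx', hy'⟩ μ₁ μ₂ h1 h2
    have hge : GenT P e x' y' := by
      have h3 : GenT P s x' y' := ⟨hg.tr, hx', hy'⟩
      rcases he with rfl | rfl
      · exact h3
      · exact genT_inv h3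
    obtain ⟨k, hk, hZk⟩ := A5 e x' y' hge μ₁ μ₂ h1 h2
    have h5 : (n : ℤ) • B e x' y' - Z e x' y' μ₁ μ₂ = ∑ i : Fin n, (B e x' y' - Ψ (k i)) := by
      rw [hZk, Finset.sum_sub_distrib, Finset.sum_const, Finset.card_univ, Fintype.card_fin,
        natCast_zsmul]
    rw [h5]
    exact sum_mem fun i _ => hB (k i) _ _ _ (hk i).1 (hk i).2.1 (hk i).2.2
  have h1 := tside_family h4 hp hq hdisc hnt hI hJ hstar hg.tr hg.notMem hg.eq
  have h2 : (n : ℤ) • ((8 : ℤ) • (B s x y - B s⁻¹ x y)) ∈ 𝓡 := h1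
  obtain ⟨q', e1, e2, e3, h3⟩ := A2 q₀
  have h4 := hB q₀ s x y hs.symm hx.symm hy.symm
  have h5 := hB q' s⁻¹ x y (by rw [e1, hs]) (by rw [e2, hx]) (by rw [e3, hy])
  have h6 : (16 * n : ℤ) • Ψ q₀ = (n : ℤ) • ((8 : ℤ) • (B s x y - B s⁻¹ x y)) -
      (8 * n : ℤ) • (B s x y - Ψ q₀) + (8 * n : ℤ) • (B s⁻¹ x y - Ψ q') +
      (8 * n : ℤ) • (Ψ q₀ + Ψ q') := by
    module
  rw [h6]
  exact AddSubgroup.add_mem _ (AddSubgroup.add_mem _ (AddSubgroup.sub_mem _ h2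
    (AddSubgroup.zsmul_mem _ h4 _)) (AddSubgroup.zsmul_mem _ h5 _))
    (AddSubgroup.zsmul_mem _ h3 _)

end

end Vale.Agent.P297.H637
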