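import Vale.Agent.P297.H777.Octic

/-!
The cycle of the points of the octic on a line of a ruling of a quadric of the web, over a line of
the plane.
-/

set_option linter.unusedSectionVars false

namespace Vale.Agent.P297.C8

section

variable {N : Type} [Field N] [Algebra ℂ N]

/-- The member of the web of conics that contains the line `(y⁻¹, x, 1)`. -/
def lam (x y : N) : Fin 4 → N :=
  ![1, (x + x⁻¹) / 2, (y + y⁻¹) / 2, (x * y + (x * y)⁻¹) / 2]

/-- The line `m` of the plane, `x = m₂ / m₃`, `y = m₃ / m₁`. -/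
def mv (x y : N) : Fin 3 → N := ![y⁻¹, x, 1]

/-- The symmetric matrix of the quadric. -/
noncomputable def MM (Q : Web) (x y : N) : Matrix (Fin 4) (Fin 4) N :=
  fun a b => ∑ i, lam x y i * algebraMap ℂ N (Q i a b)

/-- The bilinear form of the quadric. -/
noncomputable def MB (Q : Web) (x y : N) (o o' : Fin 4 → N) : N :=
  ∑ i, lam x y i * qb Q o o' i

/-- The vectors `z`, `u` span an isotropic plane of the ruling `w`, where `w² = det`; or they are
dependent. (Here `z` and `u` are isotropic; the form of this condition with a determinant.) -/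
def RulB (Q : Web) (x y w : N) (z u : Fin 4 → N) : Prop :=
  ∀ d e : Fin 4 → N, MB Q x y z d * MB Q x y u e - MB Q x y z e * MB Q x y u d =
    w * Matrix.det ![z, u, d, e]

/-- The conic `λ` is the product of the lines `m` and `m⁻¹`. -/
theorem lam_ee {x y : N} (hx : x ≠ 0) (hy : y ≠ 0) [CharZero N] (v : Fin 3 → N) :
    (∑ i, lam x y i * ee v i) =
      (∑ i, mv x y i * v i) * (∑ i, mv x⁻¹ y⁻¹ i * v i) := by
  simp only [Fin.sum_univ_four, Fin.sum_univ_three, ee_zero, ee_one, ee_two, ee_three]
  simp only [lam, mv, Matrix.cons_val_zero, Matrix.cons_val_one, Matrix.cons_val_two,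
    Matrix.cons_val_three, Matrix.head_cons, Matrix.tail_cons, Matrix.cons_val]
  field_simp
  ring

theorem lam_inv (x y : N) : lam x⁻¹ y⁻¹ = lam x y := by
  unfold lam
  rw [inv_inv, inv_inv, ← mul_inv, inv_inv, add_comm x⁻¹ x, add_comm y⁻¹ y,
    add_comm (x * y)⁻¹ (x * y)]

theorem MB_inv (Q : Web) (x y : N) : MB Q x⁻¹ y⁻¹ = MB Q x y := by
  unfold MB
  rw [lam_inv]

end

end Vale.Agent.P297.C8
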