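import Vale.Agent.P297.H637.Rel3
import Vale.Agent.P297.H637.KAbs

/-!
Block D: the cycles on the generic lines of the rulings are torsion modulo the relations.
-/

set_option linter.unusedSectionVars false
set_option linter.unusedSimpArgs false
set_option linter.style.haveILetI false

namespace Vale.Agent.P297.H637

open Matrix IntermediateField Polynomial
open Vale.Agent.P297.C8 Vale.Agent.P297.H72 Vale.Agent.P297.H600
open Vale.Agent.P297 Vale.Agent.P297.Gen Vale.Agent.P297.Z3 Vale.Agent.P297.G4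
open Vale.Agent.P297.H729 Vale.Agent.P297.H839

/-- Restriction of the points of a field to a subfield (this is `C8.resK`). -/
noncomputable def resD {K K₁ N : Type} [Field K] [Algebra ℂ K] [Field K₁] [Algebra ℂ K₁] [Field N]
    [Algebra ℂ N] (ι : K →ₐ[ℂ] K₁) : ((K₁ →ₐ[ℂ] N) →₀ ℤ) →+ ((K →ₐ[ℂ] N) →₀ ℤ) :=
  Finsupp.mapDomain.addMonoidHom (fun ψ : K₁ →ₐ[ℂ] N => ψ.comp ι)

theorem resD_apply {K K₁ N : Type} [Field K] [Algebra ℂ K] [Field K₁] [Algebra ℂ K₁] [Field N]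
    [Algebra ℂ N] (ι : K →ₐ[ℂ] K₁) (v : (K₁ →ₐ[ℂ] N) →₀ ℤ) :
    resD ι v = Finsupp.mapDomain (fun ψ : K₁ →ₐ[ℂ] N => ψ.comp ι) v := rfl

/-- The coordinates of the twin: functions `TS`, `TX`, `TY` of the line `(x, y)` of the plane and of
the ruling `w` of the quadric. -/
structure Twin (Q : Web) (P : Fin 5 → ℂ[X]) {N : Type} [Field N] [Algebra ℂ N] [IsAlgClosed N]
    (TS TX : N → N → N) (TY : N → N → N → N) : Prop where
  gen : ∀ {x y w : N}, AlgebraicIndependent ℂ ![x, y] → w ^ 2 = (MM Q x y).det →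
    GenT P (TS x y) (TX x y) (TY x y w)
  inv : ∀ {x y : N}, AlgebraicIndependent ℂ ![x, y] → ∀ w : N,
    TS x⁻¹ y⁻¹ = (TS x y)⁻¹ ∧ TX x⁻¹ y⁻¹ = TX x y ∧ TY x⁻¹ y⁻¹ w = TY x y w
  map : ∀ (g : N ≃ₐ[ℂ] N) (x y w : N), g (TS x y) = TS (g x) (g y) ∧
    g (TX x y) = TX (g x) (g y) ∧ g (TY x y w) = TY (g x) (g y) (g w)
  zero : ∀ x y : N, TY x y 0 = 0
  alg : ∀ {x y : N}, AlgebraicIndependent ℂ ![x, y] →
    x ∈ cl0 {TS x y, TX x y} ∧ y ∈ cl0 {TS x y, TX x y}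
  lifts : ∀ {s X Y : N}, GenT P s X Y → ∃ k : Fin 4 → N × N × N, Function.Injective k ∧
    ∀ x y w : N, (AlgebraicIndependent ℂ ![x, y] ∧ w ^ 2 = (MM Q x y).det ∧ TS x y = s ∧
      TX x y = X ∧ TY x y w = Y) ↔ ∃ i, (x, y, w) = k i

section

variable {N : Type} [Field N] [Algebra ℂ N] [IsAlgClosed N]

/-- the pencil of quartics is not zero -/
theorem GenT.Y_ne {p q : ℂ[X]} (hdisc : 4 * p ^ 3 ≠ q ^ 2) {P : Fin 5 → ℂ[X]}
    (hI : qI P = (X * (X - 4)) ^ 2 * p) (hJ : qJ P = (X * (X - 4)) ^ 3 * q) {s a Y : N}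
    (h : GenT P s a Y) : Y ≠ 0 := by
  haveI : CharZero N := charZero_of_injective_algebraMap (algebraMap ℂ N).injective
  intro hY
  have h1 := h.eq
  rw [hY, zero_pow two_ne_zero] at h1
  have hs := h.s_ne
  have ms : s ∈ cl0 ({s} : Set N) := subset_cl0 _ rfl
  have ml : lv s ∈ cl0 ({s} : Set N) := by
    unfold lv
    exact div_mem (pow_mem (add_mem (one_mem _) ms) 2) ms
  have h0 : ∀ i, cP P s i = 0 := by
    by_contra hcon
    push Not at hcon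
    apply h.notMem
    refine G4.root_mem (closed_cl0 _) (c := cP P s) (fun i => ?_) hcon h1.symm
    change aeval (lv s) (P i) ∈ cl0 ({s} : Set N)
    rw [aeval_eq_sum_range]
    exact sum_mem fun n _ => by
      rw [Algebra.smul_def]
      exact mul_mem ((cl0 ({s} : Set N)).algebraMap_mem _) (pow_mem ml n)
  have hlt : Transcendental ℂ (lv s) := lv_tr h.tr
  have hP : ∀ i, P i = 0 := fun i => (transcendental_iff.1 hlt) (P i) (h0 i)
  have hI0 : qI P = 0 := by simp [qI, hP]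
  have hJ0 : qJ P = 0 := by simp [qJ, hP]
  have hX : (X * (X - 4) : ℂ[X]) ≠ 0 := by
    refine mul_ne_zero X_ne_zero ?_
    have : (4 : ℂ[X]) = C 4 := (map_ofNat C 4).symm
    rw [this]
    exact X_sub_C_ne_zero 4
  have hp : p = 0 := by
    rw [hI0] at hI
    exact (mul_eq_zero.1 hI.symm).resolve_left (pow_ne_zero 2 hX)
  have hq : q = 0 := by
    rw [hJ0] at hJ
    exact (mul_eq_zero.1 hJ.symm).resolve_left (pow_ne_zero 3 hX)
  apply hdisc
  rw [hp, hq]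
  ring

variable {K K₁ : Type} [Field K] [Algebra ℂ K] [Field K₁] [Algebra ℂ K₁]
  {Q : Web} {P : Fin 5 → ℂ[X]} {TS TX : N → N → N} {TY : N → N → N → N}

theorem act_resD (ι : K →ₐ[ℂ] K₁) (g : N →ₐ[ℂ] N) (v : (K₁ →ₐ[ℂ] N) →₀ ℤ) :
    act g (resD ι v) = resD ι (Finsupp.mapDomain (fun φ : K₁ →ₐ[ℂ] N => g.comp φ) v) := by
  rw [act_apply, resD_apply, resD_apply, ← Finsupp.mapDomain_comp, ← Finsupp.mapDomain_comp]
  rfl

/-- The vector with two given coordinates. -/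
def zv (μ₁ μ₂ a : N) : Fin 4 → N := ![1, μ₁, μ₂, a]

/-- The lifts of a point of the twin, and the points of the quadric with two given coordinates. -/
def ZSet (Q : Web) (TS TX : N → N → N) (TY : N → N → N → N) (s X Y μ₁ μ₂ : N) :
    Set (N × N × N × N) :=
  {q | (AlgebraicIndependent ℂ ![q.1, q.2.1] ∧ q.2.2.1 ^ 2 = (MM Q q.1 q.2.1).det ∧
    TS q.1 q.2.1 = s ∧ TX q.1 q.2.1 = X ∧ TY q.1 q.2.1 q.2.2.1 = Y) ∧
    zv μ₁ μ₂ q.2.2.2 ⬝ᵥ (MM Q q.1 q.2.1).mulVec (zv μ₁ μ₂ q.2.2.2) = 0}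

/-- The sum of the cycles. -/
noncomputable def ZZ (Q : Web) (TS TX : N → N → N) (TY : N → N → N → N) (c : Fin 4 → K₁)
    (ι : K →ₐ[ℂ] K₁) (s X Y μ₁ μ₂ : N) : (K →ₐ[ℂ] N) →₀ ℤ :=
  ∑ᶠ q ∈ ZSet Q TS TX TY s X Y μ₁ μ₂,
    resD ι (R1.Psi Q c q.1 q.2.1 q.2.2.1 (zv μ₁ μ₂ q.2.2.2))

/-- the action of an automorphism -/
def e4 (g : N ≃ₐ[ℂ] N) (q : N × N × N × N) : N × N × N × N :=
  (g q.1, g q.2.1, g q.2.2.1, g q.2.2.2)

theorem e4_symm (g : N ≃ₐ[ℂ] N) (q : N × N × N × N) : e4 g (e4 g.symm q) = q := by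
  obtain ⟨a, b, c, d⟩ := q
  simp [e4]

theorem e4_inj (g : N ≃ₐ[ℂ] N) : Function.Injective (e4 g) := by
  intro q q' h
  have h1 := congrArg (e4 g.symm) h
  have h2 := e4_symm g.symm
  rw [AlgEquiv.symm_symm] at h2
  rwa [h2, h2] at h1

theorem map_zv (g : N ≃ₐ[ℂ] N) (μ₁ μ₂ a : N) :
    (fun j => g (zv μ₁ μ₂ a j)) = zv (g μ₁) (g μ₂) (g a) := by
  funext j
  fin_cases j <;> simp [zv]

theorem map_iso (g : N ≃ₐ[ℂ] N) (x y : N) (z : Fin 4 → N) :
    g (z ⬝ᵥ (MM Q x y).mulVec z) =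
      (fun j => g (z j)) ⬝ᵥ (MM Q (g x) (g y)).mulVec (fun j => g (z j)) := by
  have h1 := R1.map_MM Q g.toAlgHom x y
  have h2 : ∀ i j, g (MM Q x y i j) = MM Q (g x) (g y) i j := fun i j =>
    congrFun (congrFun h1 i) j
  simp only [dotProduct, mulVec, map_sum, map_mul, h2]

theorem map_det (g : N ≃ₐ[ℂ] N) (x y : N) : g (MM Q x y).det = (MM Q (g x) (g y)).det := by
  have h1 := R1.map_MM Q g.toAlgHom x y
  rw [← show (MM Q x y).map g.toAlgHom = MM Q (g x) (g y) from h1]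
  exact AlgHom.map_det g.toAlgHom _

theorem map_ind (g : N ≃ₐ[ℂ] N) {x y : N} (h : AlgebraicIndependent ℂ ![x, y]) :
    AlgebraicIndependent ℂ ![g x, g y] := by
  have h1 := h.map' (f := g.toAlgHom) g.injective
  have h2 : (g.toAlgHom ∘ ![x, y]) = ![g x, g y] := by
    funext i
    fin_cases i <;> rfl
  rwa [h2] at h1

theorem ZSet_map (tw : Twin Q P TS TX TY) (g : N ≃ₐ[ℂ] N) {s X Y μ₁ μ₂ : N}
    {q : N × N × N × N} (hq : q ∈ ZSet Q TS TX TY s X Y μ₁ μ₂) :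
    e4 g q ∈ ZSet Q TS TX TY (g s) (g X) (g Y) (g μ₁) (g μ₂) := by
  obtain ⟨⟨h1, h2, h3, h4, h5⟩, h6⟩ := hq
  obtain ⟨m1, m2, m3⟩ := tw.map g q.1 q.2.1 q.2.2.1
  refine ⟨⟨map_ind g h1, ?_, ?_, ?_, ?_⟩, ?_⟩
  · change (g q.2.2.1) ^ 2 = _
    rw [← map_pow, h2, map_det]
    rfl
  · exact m1.symm.trans (congrArg g h3)
  · exact m2.symm.trans (congrArg g h4)
  · exact m3.symm.trans (congrArg g h5)
  · have h7 := congrArg g h6
    rw [map_iso, map_zv, map_zero] at h7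
    exact h7

theorem ZSet_image (tw : Twin Q P TS TX TY) (g : N ≃ₐ[ℂ] N) (s X Y μ₁ μ₂ : N) :
    e4 g '' ZSet Q TS TX TY s X Y μ₁ μ₂ =
      ZSet Q TS TX TY (g s) (g X) (g Y) (g μ₁) (g μ₂) := by
  ext q
  constructor
  · rintro ⟨q, hq, rfl⟩
    exact ZSet_map tw g hq
  · intro hq
    refine ⟨e4 g.symm q, ?_, e4_symm g q⟩
    have h1 := ZSet_map tw g.symm hq
    simp only [AlgEquiv.symm_apply_apply] at h1
    exact h1

theorem act_ZZ (tw : Twin Q P TS TX TY) {c : Fin 4 → K₁} (hc : C8.IsFF Q c) (ι : K →ₐ[ℂ] K₁)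
    (g : N ≃ₐ[ℂ] N) (s X Y μ₁ μ₂ : N) :
    act g.toAlgHom (ZZ Q TS TX TY c ι s X Y μ₁ μ₂) =
      ZZ Q TS TX TY c ι (g s) (g X) (g Y) (g μ₁) (g μ₂) := by
  have hinj : Function.Injective (fun φ : K →ₐ[ℂ] N => g.toAlgHom.comp φ) := by
    intro φ ψ h
    apply AlgHom.ext
    intro k
    exact g.injective (congrArg (fun θ : K →ₐ[ℂ] N => θ k) h)
  have h2 : Function.Injective (act (K := K) g.toAlgHom) := Finsupp.mapDomain_injective hinj
  unfold ZZ
  rw [← ZSet_image tw g, finsum_mem_image (e4_inj g).injOn,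
    AddMonoidHom.map_finsum_of_injective _ h2]
  refine finsum_congr fun q => ?_
  rw [AddMonoidHom.map_finsum_of_injective _ h2]
  refine finsum_congr fun _ => ?_
  rw [act_resD, R1.map_Psi hc, map_zv]
  rfl

theorem cl0_pair_le (tw : Twin Q P TS TX TY) {x y : N} (h : AlgebraicIndependent ℂ ![x, y])
    {S : Set N} (h1 : TS x y ∈ cl0 S) (h2 : TX x y ∈ cl0 S) : x ∈ cl0 S ∧ y ∈ cl0 S := by
  have hle : cl0 {TS x y, TX x y} ≤ cl0 S := by
    refine cl0_le (closed_cl0 _) ?_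
    rintro _ (rfl | rfl)
    · exact h1
    · exact h2
  exact ⟨hle (tw.alg h).1, hle (tw.alg h).2⟩

theorem gq_inv (h4 : Algebra.trdeg ℂ N = 4) {x y w : N} {z : Fin 4 → N} (h : GQ Q x y w z) :
    GQ Q x⁻¹ y⁻¹ w z where
  gen :=
    { one := h.gen.one
      iso := by
        rw [MM_inv]
        exact h.gen.iso
      ind := by
        refine ind_of_all h4 fun t => ?_
        refine cl0_le (closed_cl0 _) ?_ (all_of_ind h4 h.gen.ind t)
        rintro _ ⟨i, rfl⟩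
        have m : ∀ i, (![x⁻¹, y⁻¹, z 1, z 2] : Fin 4 → N) i ∈
            cl0 (Set.range (![x⁻¹, y⁻¹, z 1, z 2] : Fin 4 → N)) :=
          fun i => subset_cl0 _ ⟨i, rfl⟩
        fin_cases i
        · have h1 := inv_mem (m 0)
          change (x⁻¹)⁻¹ ∈ _ at h1
          rw [inv_inv] at h1
          exact h1
        · have h1 := inv_mem (m 1)
          change (y⁻¹)⁻¹ ∈ _ at h1
          rw [inv_inv] at h1
          exact h1
        · exact m 2
        · exact m 3 }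
  det := by
    rw [MM_inv]
    exact h.det
  ne := h.ne

/-- The pairs (lift of a point of the double cover, generic point of the quadric). -/
def QT (Q : Web) (N : Type) [Field N] [Algebra ℂ N] : Type :=
  {q : N × N × N × (Fin 4 → N) // GQ Q q.1 q.2.1 q.2.2.1 q.2.2.2}

/-- **Block D.** -/
theorem blockD_aux (hQ : ∀ i, (Q i).IsSymm) (hfin : ∀ o : Fin 4 → ℂ, qq Q o = 0 → o = 0)
    (hirr : Irreducible (octic Q)) (h4 : Algebra.trdeg ℂ N = 4) {p q : ℂ[X]}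
    (hp : p.natDegree ≤ 4) (hq : q.natDegree ≤ 6) (hdisc : 4 * p ^ 3 ≠ q ^ 2)
    (hnt : ∀ α β a b : ℂ, ¬ (p = C α * (C a * X + C b) ^ 4 ∧ q = C β * (C a * X + C b) ^ 6))
    (hI : qI P = (X * (X - 4)) ^ 2 * p) (hJ : qJ P = (X * (X - 4)) ^ 3 * q)
    (tw : Twin Q P TS TX TY) {c : Fin 4 → K₁} (hc : C8.IsFF Q c) (ι : K →ₐ[ℂ] K₁) {m : ℤ}
    (h2r : ∀ {x y : N}, AlgebraicIndependent ℂ ![x, y] → (MM Q x y).det ≠ 0 →
      ∀ μ₁ μ₂ : N, μ₁ ∉ cl0 {x, y} → μ₂ ∉ cl0 {x, y, μ₁} → ∃ a b : N, a ≠ b ∧ ∀ t,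
        (zv μ₁ μ₂ t ⬝ᵥ (MM Q x y).mulVec (zv μ₁ μ₂ t) = 0 ↔ t = a ∨ t = b))
    (hH : ∀ {x y w : N} {z : Fin 4 → N} {x' y' w' : N}, GQ Q x y w z →
      AlgebraicIndependent ℂ ![x', y'] → w' ^ 2 = (MM Q x' y').det → TS x' y' = TS x y →
      TX x' y' = TX x y → TY x' y' w' = TY x y w → ∃ z', GQ Q x' y' w' z' ∧
        resD ι (R1.Psi Q c x' y' w' z') = resD ι (R1.Psi Q c x y w z))
    {x y w : N} {z : Fin 4 → N} (h : GQ Q x y w z) :
    (128 : ℤ) • resD ι (R1.Psi Q c x y w z) ∈ H72.Rel m K N := by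
  classical
  have hres : ∀ {v : (K₁ →ₐ[ℂ] N) →₀ ℤ}, v ∈ H72.Rel m K₁ N → resD ι v ∈ H72.Rel m K N :=
    fun hv => Rel.precomp ι hv
  have hmain := kabs (K := K) (N := N) h4 hp hq hdisc hnt hI hJ (𝓡 := H72.Rel m K N)
    (fun v hv => Rel.of_stable hv) (𝒬 := QT Q N) (fun q => TS q.1.1 q.1.2.1)
    (fun q => TX q.1.1 q.1.2.1) (fun q => TY q.1.1 q.1.2.1 q.1.2.2.1)
    (fun q => resD ι (R1.Psi Q c q.1.1 q.1.2.1 q.1.2.2.1 q.1.2.2.2))
    (fun q => tw.gen q.2.gen.xy q.2.det) ?_ ?_ (4 * 2) (ZZ Q TS TX TY c ι)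
    (act_ZZ tw hc ι) ?_ ⟨(x, y, w, z), h⟩
  · have h1 : ((16 * (4 * 2 : ℕ) : ℤ)) = 128 := by norm_num
    rw [h1] at hmain
    exact hmain
  · -- (A1)
    intro a b e1 e2 e3
    obtain ⟨z', hz', e4⟩ := hH a.2 b.2.gen.xy b.2.det e1.symm e2.symm e3.symm
    have h5 := R1.Psi_const (m := m) h4 hQ hc b.2.det b.2.ne hz'.gen b.2.gen
    have h6 := hres h5
    rw [map_sub, e4] at h6
    exact h6
  · -- (A2)
    intro a
    obtain ⟨e1, e2, e3⟩ := tw.inv a.2.gen.xy a.1.2.2.1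
    refine ⟨⟨(a.1.1⁻¹, a.1.2.1⁻¹, a.1.2.2.1, a.1.2.2.2), gq_inv h4 a.2⟩, e1, e2, e3, ?_⟩
    have h5 := hres (a.2.rel3 hQ hfin hirr h4 hc (m := m))
    rw [map_add] at h5
    exact h5
  · -- (A5)
    intro s a Y hg μ₁ μ₂ h1 h2
    obtain ⟨k, hk, hk'⟩ := tw.lifts hg
    have hkk : ∀ i, AlgebraicIndependent ℂ ![(k i).1, (k i).2.1] ∧
        (k i).2.2 ^ 2 = (MM Q (k i).1 (k i).2.1).det ∧ TS (k i).1 (k i).2.1 = s ∧
        TX (k i).1 (k i).2.1 = a ∧ TY (k i).1 (k i).2.1 (k i).2.2 = Y := fun i =>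
      (hk' _ _ _).2 ⟨i, rfl⟩
    have hw0 : ∀ i, (k i).2.2 ≠ 0 := by
      intro i h0
      have h3 := (hkk i).2.2.2.2
      rw [h0, tw.zero] at h3
      exact hg.Y_ne hdisc hI hJ h3.symm
    have hdet : ∀ i, (MM Q (k i).1 (k i).2.1).det ≠ 0 := by
      intro i
      rw [← (hkk i).2.1]
      exact pow_ne_zero 2 (hw0 i)
    have hle : ∀ i, cl0 {(k i).1, (k i).2.1} ≤ cl0 {s, a} := by
      intro i
      obtain ⟨e1, e2, e3, e4, e5⟩ := hkk i
      obtain ⟨e6, e7⟩ := cl0_pair_le tw e1 (S := {s, a}) (by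
        rw [e3]
        exact subset_cl0 _ (by simp)) (by
        rw [e4]
        exact subset_cl0 _ (by simp))
      refine cl0_le (closed_cl0 _) ?_
      rintro _ (rfl | rfl)
      · exact e6
      · exact e7
    have hle' : ∀ i, cl0 {(k i).1, (k i).2.1, μ₁} ≤ cl0 {s, a, μ₁} := by
      intro i
      have h3 : cl0 ({s, a} : Set N) ≤ cl0 {s, a, μ₁} := by
        refine cl0_le (closed_cl0 _) ?_
        rintro _ (rfl | rfl)
        · exact subset_cl0 _ (by simp)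
        · exact subset_cl0 _ (by simp)
      refine cl0_le (closed_cl0 _) ?_
      rintro _ (rfl | rfl | rfl)
      · exact h3 (hle i (subset_cl0 _ (by simp)))
      · exact h3 (hle i (subset_cl0 _ (by simp)))
      · exact subset_cl0 _ (by simp)
    have hμ₁ : ∀ i, μ₁ ∉ cl0 {(k i).1, (k i).2.1} := fun i h0 => h1 (hle i h0)
    have hμ₂ : ∀ i, μ₂ ∉ cl0 {(k i).1, (k i).2.1, μ₁} := fun i h0 => h2 (hle' i h0)
    choose u v huv ht using fun i => h2r (hkk i).1 (hdet i) μ₁ μ₂ (hμ₁ i) (hμ₂ i)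
    let r : Fin 4 → Fin 2 → N := fun i => ![u i, v i]
    have hr : ∀ i t, (zv μ₁ μ₂ t ⬝ᵥ (MM Q (k i).1 (k i).2.1).mulVec (zv μ₁ μ₂ t) = 0 ↔
        ∃ j, t = r i j) := by
      intro i t
      rw [ht]
      constructor
      · rintro (h0 | h0)
        · exact ⟨0, h0⟩
        · exact ⟨1, h0⟩
      · rintro ⟨j, hj⟩
        fin_cases j
        · exact Or.inl hj
        · exact Or.inr hj
    have hrinj : ∀ i, Function.Injective (r i) := by
      intro i j j' hjj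
      fin_cases j <;> fin_cases j'
      · rfl
      · exact absurd hjj (huv i)
      · exact absurd hjj.symm (huv i)
      · rfl
    have hgq : ∀ i j, GQ Q (k i).1 (k i).2.1 (k i).2.2 (zv μ₁ μ₂ (r i j)) := by
      intro i j
      refine ⟨⟨rfl, (hr i _).2 ⟨j, rfl⟩, ?_⟩, (hkk i).2.1, hw0 i⟩
      change AlgebraicIndependent ℂ ![(k i).1, (k i).2.1, μ₁, μ₂]
      refine indep_four (hkk i).1 (hμ₁ i) fun h0 => hμ₂ i ?_
      refine clo_le (closed_cl0 _) (cl0_le (closed_cl0 _) ?_) ?_ h0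
      · rintro _ (rfl | rfl)
        · exact subset_cl0 _ (by simp)
        · exact subset_cl0 _ (by simp)
      · rintro _ rfl
        exact subset_cl0 _ (by simp)
    let κ : Fin (4 * 2) → QT Q N := fun l =>
      ⟨((k (finProdFinEquiv.symm l).1).1, (k (finProdFinEquiv.symm l).1).2.1,
        (k (finProdFinEquiv.symm l).1).2.2,
        zv μ₁ μ₂ (r (finProdFinEquiv.symm l).1 (finProdFinEquiv.symm l).2)), hgq _ _⟩
    refine ⟨κ, fun l => ?_, ?_⟩
    · obtain ⟨e1, e2, e3, e4, e5⟩ := hkk (finProdFinEquiv.symm l).1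
      exact ⟨e3, e4, e5⟩
    · let f : Fin 4 × Fin 2 → N × N × N × N := fun l =>
        ((k l.1).1, (k l.1).2.1, (k l.1).2.2, r l.1 l.2)
      have hf : Function.Injective f := by
        rintro ⟨i, j⟩ ⟨i', j'⟩ hij
        simp only [f, Prod.mk.injEq] at hij
        obtain ⟨e1, e2, e3, e4⟩ := hij
        have e5 : k i = k i' := Prod.ext e1 (Prod.ext e2 e3)
        obtain rfl := hk e5
        exact Prod.ext rfl (hrinj i e4)
      have hset : ZSet Q TS TX TY s a Y μ₁ μ₂ = Set.range f := by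
        ext ⟨x, y, w, t⟩
        constructor
        · rintro ⟨e1, e2⟩
          obtain ⟨i, hi⟩ := (hk' x y w).1 e1
          have hx : x = (k i).1 := congrArg (fun q => q.1) hi
          have hy : y = (k i).2.1 := congrArg (fun q => q.2.1) hi
          have hw : w = (k i).2.2 := congrArg (fun q => q.2.2) hi
          subst hx hy hw
          obtain ⟨j, hj⟩ := (hr i t).1 e2
          exact ⟨(i, j), by rw [hj]⟩
        · rintro ⟨⟨i, j⟩, hij⟩
          simp only [f, Prod.mk.injEq] at hij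
          obtain ⟨rfl, rfl, rfl, rfl⟩ := hij
          exact ⟨hkk i, (hr i _).2 ⟨j, rfl⟩⟩
      unfold ZZ
      rw [hset, finsum_mem_range hf, finsum_eq_sum_of_fintype,
        ← finProdFinEquiv.symm.sum_comp]

end

end Vale.Agent.P297.H637
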