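import Vale.Agent.P297.H637.GenPts
import Vale.Agent.P297.H521.PsiConst

/-!
The eight points of the octic on a generic line of a ruling, and relation (3).
-/

set_option linter.unusedSectionVars false
set_option linter.unusedSimpArgs false
set_option linter.style.haveILetI false

namespace Vale.Agent.P297.H637

open Matrix IntermediateField Polynomial
open Vale.Agent.P297.C8 Vale.Agent.P297.H72
open Vale.Agent.P297 Vale.Agent.P297.Gen Vale.Agent.P297.Z3 Vale.Agent.P297.G4
open Vale.Agent.P297.H729 Vale.Agent.P297.H839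

section

variable {N : Type} [Field N] [Algebra ℂ N] {Q : Web} {x y w : N} {z u D : Fin 4 → N}

theorem MM_inv (Q : Web) (x y : N) : MM Q x⁻¹ y⁻¹ = MM Q x y := by
  unfold MM
  rw [lam_inv]

theorem map_gst {R A : Type} [CommRing R] [Algebra ℂ R] [CommRing A] [Algebra ℂ A]
    (g : R →ₐ[ℂ] A) (y : Fin 4 → R) (i : Fin 4) : g (gst y i) = gst (fun j => g (y j)) i := by
  have h2 : g 2 = 2 := map_ofNat g 2
  fin_cases i <;> simp [gst, h2]

/-- The restriction of the octic to a line. -/
noncomputable def fL (Q : Web) (z D : Fin 4 → N) : N[X] :=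
  st (qq Q (fun j => C (z j) + X * C (D j) : Fin 4 → N[X]))

theorem eval_fL (z D : Fin 4 → N) (t : N) :
    (fL Q z D).eval t = st (qq Q (fun j => z j + t * D j)) := by
  have h1 := map_st_qq Q ((aeval t : N[X] →ₐ[N] N).restrictScalars ℂ)
    (fun j => C (z j) + X * C (D j))
  have h2 : ((aeval t : N[X] →ₐ[N] N).restrictScalars ℂ) (fL Q z D) = (fL Q z D).eval t :=
    Polynomial.coe_aeval_eq_eval t ▸ rfl
  rw [← h2, fL, h1]
  congr 2
  funext j
  change aeval t (C (z j) + X * C (D j)) = z j + t * D j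
  simp
  ring

theorem eval_derivative_fL (hQ : ∀ i, (Q i).IsSymm) (z D : Fin 4 → N) (t : N) :
    (derivative (fL Q z D)).eval t =
      2 * ∑ i, gst (qq Q (fun j => z j + t * D j)) i * qb Q (fun j => z j + t * D j) D i := by
  let δ : Derivation ℤ N[X] N[X] := (Polynomial.derivative' (R := N)).restrictScalars ℤ
  have hδ : ∀ f : N[X], δ f = derivative f := fun _ => rfl
  let Z : Fin 4 → N[X] := fun j => C (z j) + X * C (D j)
  have hδZ : ∀ j, δ (Z j) = C (D j) := by
    intro j
    rw [hδ]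
    simp [Z]
  have hqq : ∀ i, δ (qq Q Z i) = 2 * qb Q Z (fun j => C (D j)) i := by
    intro i
    have h1 : δ (qq Q Z i) = qb Q Z (fun j => C (D j)) i + qb Q (fun j => C (D j)) Z i := by
      rw [qq_apply, map_sum, qb_apply, qb_apply, ← Finset.sum_add_distrib]
      refine Finset.sum_congr rfl fun a _ => ?_
      rw [map_sum, ← Finset.sum_add_distrib]
      refine Finset.sum_congr rfl fun b _ => ?_
      have hc : δ (algebraMap ℂ N[X] (Q i a b)) = 0 := by
        rw [hδ]
        exact derivative_C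
      rw [δ.leibniz, hc, δ.leibniz, hδZ, hδZ]
      simp only [smul_eq_mul]
      ring
    rw [h1, qb_comm hQ (fun j => C (D j)) Z]
    ring
  have h1 : derivative (fL Q z D) = ∑ i, gst (qq Q Z) i * (2 * qb Q Z (fun j => C (D j)) i) := by
    exact (der_st δ (qq Q Z)).trans (Finset.sum_congr rfl fun i _ =>
      congrArg (fun t => gst (qq Q Z) i * t) (hqq i))
  let g : N[X] →ₐ[ℂ] N := (aeval t : N[X] →ₐ[N] N).restrictScalars ℂ
  have hg : ∀ f : N[X], f.eval t = g f := fun f => by
    change _ = aeval t f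
    rw [Polynomial.coe_aeval_eq_eval]
  have hgZ : (fun j => g (Z j)) = fun j => z j + t * D j := by
    funext j
    rw [← hg]
    simp [Z]
    ring
  have hgD : (fun j => g (C (D j))) = D := by
    funext j
    rw [← hg, eval_C]
  rw [hg, h1, map_sum, Finset.mul_sum]
  refine Finset.sum_congr rfl fun i _ => ?_
  rw [map_mul, map_mul, map_gst, map_ofNat, map_qb, hgD, hgZ]
  have h3 : (fun j => g (qq Q Z j)) = qq Q (fun j => z j + t * D j) := by
    rw [map_qq', hgZ]
  rw [h3]
  ring

theorem natDegree_fL (hD : st (qq Q D) ≠ 0) : (fL Q z D).natDegree = 8 := by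
  have h1 := octic_lineP Q z D
  have h2 : fL Q z D = H777.lineP (octic Q) z D := h1.symm
  have h3 : (fL Q z D).coeff 8 = st (qq Q D) := by
    rw [h2, coeff_lineP (octic_homogeneous Q), aeval_octic]
  refine le_antisymm ?_ (le_natDegree_of_ne_zero (by rwa [h3]))
  rw [h2]
  exact H777.natDegree_lineP_le _ _ _ (octic_homogeneous Q).totalDegree_le

variable [IsAlgClosed N]
variable (hQ : ∀ i, (Q i).IsSymm) (hfin : ∀ o : Fin 4 → ℂ, qq Q o = 0 → o = 0)
  (hirr : Irreducible (octic Q)) (h4 : Algebra.trdeg ℂ N = 4)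

include hQ hfin hirr h4

/-- The point at infinity of the line is not on the octic. -/
theorem GQ.top (h : GQ Q x y w z) (hD0 : D 0 = 0) (hD : D ≠ 0) (hR : Rul (MM Q x y) w z D) :
    st (qq Q D) ≠ 0 := fun h0 => (h.genW hQ hfin hirr h4 hD hR h0).ne hD0

omit hfin hirr h4 in
/-- A point of the octic on the quadric lies over one of the two lines of the plane. -/
theorem GQ.prod (h : GQ Q x y w z) {o : Fin 4 → N} (h1 : st (qq Q o) = 0)
    (e2 : Rul (MM Q x y) w z o) :
    (∑ i, mv x y i * vy (qq Q o) i) * (∑ i, mv x⁻¹ y⁻¹ i * vy (qq Q o) i) = 0 := by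
  haveI : CharZero N := charZero_of_injective_algebraMap (algebraMap ℂ N).injective
  have hMB : MB Q x y o o = 0 := by
    rw [← MM_mulVec]
    have h5 := h.iso_right hQ e2
    rw [dotProduct_comm] at h5
    exact h5
  rw [← lam_ee h.x_ne h.y_ne, ee_vy h1]
  have h3 : ∑ i, lam x y i * ((2 * (qq Q o 1 * qq Q o 2 * qq Q o 3)) • qq Q o) i =
      (2 * (qq Q o 1 * qq Q o 2 * qq Q o 3)) * MB Q x y o o := by
    rw [MB, Finset.mul_sum]
    refine Finset.sum_congr rfl fun i _ => ?_
    simp only [Pi.smul_apply, smul_eq_mul]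
    change _ = _ * (lam x y i * qq Q o i)
    ring
  rw [h3, hMB, mul_zero]

/-- The points of the line. -/
theorem GQ.pt_line (h : GQ Q x y w z) (hD0 : D 0 = 0) (hD : D ≠ 0)
    (hR : Rul (MM Q x y) w z D) (t : N) : (fun j => z j + t * D j) 0 = 1 ∧
      Rul (MM Q x y) w z (fun j => z j + t * D j) := by
  haveI : CharZero N := charZero_of_injective_algebraMap (algebraMap ℂ N).injective
  have hline := Rul.line two_ne_zero (MM_isSymm hQ x y) h.det_ne h.ne h.gen.one hD0 hD hR
  refine ⟨by simp [h.gen.one, hD0], (hline _).2 ⟨t, ?_⟩⟩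
  have h1 : z 0 + t * D 0 = 1 := by simp [h.gen.one, hD0]
  change _ = (z 0 + t * D 0) • z + t • D
  rw [h1, one_smul]
  rfl

theorem GQ.fL_ne (h : GQ Q x y w z) (hD0 : D 0 = 0) (hD : D ≠ 0)
    (hR : Rul (MM Q x y) w z D) : fL Q z D ≠ 0 := by
  intro h0
  have hdeg := natDegree_fL (z := z) (h.top hQ hfin hirr h4 hD0 hD hR)
  rw [h0] at hdeg
  simp at hdeg

/-- The restriction of the octic to the line has simple roots. -/
theorem GQ.nodup (h : GQ Q x y w z) (hD0 : D 0 = 0) (hD : D ≠ 0)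
    (hR : Rul (MM Q x y) w z D) : (fL Q z D).roots.Nodup := by
  classical
  haveI : CharZero N := charZero_of_injective_algebraMap (algebraMap ℂ N).injective
  have hf0 := h.fL_ne hQ hfin hirr h4 hD0 hD hR
  have hroot : ∀ t, (fL Q z D).IsRoot t → ¬ (derivative (fL Q z D)).IsRoot t := by
    intro t h1 h2
    rw [IsRoot, eval_fL] at h1
    rw [IsRoot, eval_derivative_fL hQ] at h2
    obtain ⟨e1, e2⟩ := h.pt_line hQ hfin hirr h4 hD0 hD hR t
    set o : Fin 4 → N := fun j => z j + t * D j with ho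
    have ho0 : o ≠ 0 := by
      intro h0
      rw [h0] at e1
      exact zero_ne_one e1
    have hg := h.genW hQ hfin hirr h4 ho0 e2 h1
    have hdbl := (mul_eq_zero.1 h2).resolve_left two_ne_zero
    have hoD : Rul (MM Q x y) w o D := by
      have e4 : o = z + t • D := rfl
      rw [e4]
      exact hR.add_left ((Rul.self (MM Q x y) w D).smul_left t)
    have hprod := h.prod hQ h1 e2
    have hq := hg.qq_ne hQ hfin hirr
    obtain ⟨c, hc, hcF⟩ := dbl hQ (F := cl0 {x, y}) (closed_cl0 _)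
      (subset_cl0 _ (by simp)) (subset_cl0 _ (by simp)) h.x_ne h.y_ne h.det h.ne e1 hD0 hD hoD h1
      (hg.jac_ne hQ hfin hirr) (mul_ne_zero (mul_ne_zero (hq 1) (hq 2)) (hq 3)) (by
        rcases mul_eq_zero.1 hprod with h5 | h5
        · exact Or.inl ⟨h5, fun h6 => h.not_both hQ hfin hirr h4 e1 e2 h1 h5 h6⟩
        · exact Or.inr ⟨h5, fun h6 => h.not_both hQ hfin hirr h4 e1 e2 h1 h6 h5⟩) hdbl
    refine h.not_rational hQ h4 (a := x) (b := y) (u := c • D) (subset_cl0 _ (by simp))
      (subset_cl0 _ (by simp)) (fun i => hcF i) ?_ (hR.smul c)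
    intro h0
    exact hD ((smul_eq_zero.1 h0).resolve_left hc)
  rw [Multiset.nodup_iff_count_le_one]
  intro t
  rw [count_roots]
  by_contra hcon
  push Not at hcon
  obtain ⟨h1, h2⟩ := (one_lt_rootMultiplicity_iff_isRoot hf0).1 hcon
  exact hroot t h1 h2

/-- The eight points on the line. -/
theorem GQ.eight (h : GQ Q x y w z) (hD0 : D 0 = 0) (hD : D ≠ 0)
    (hR : Rul (MM Q x y) w z D) : ∃ t : Fin 8 → N, Function.Injective t ∧
      (∀ i, GenW Q (fun j => z j + t i * D j)) ∧
      {o | o 0 = 1 ∧ st (qq Q o) = 0 ∧ Rul (MM Q x y) w z o} =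
        Set.range fun i j => z j + t i * D j := by
  classical
  haveI : CharZero N := charZero_of_injective_algebraMap (algebraMap ℂ N).injective
  have htop := h.top hQ hfin hirr h4 hD0 hD hR
  have hline := Rul.line two_ne_zero (MM_isSymm hQ x y) h.det_ne h.ne h.gen.one hD0 hD hR
  have hdeg := natDegree_fL (z := z) htop
  have hf0 := h.fL_ne hQ hfin hirr h4 hD0 hD hR
  have hpt := h.pt_line hQ hfin hirr h4 hD0 hD hR
  have hnodup := h.nodup hQ hfin hirr h4 hD0 hD hR
  have hcard : (fL Q z D).roots.toFinset.card = 8 := by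
    rw [Multiset.toFinset_card_of_nodup hnodup, ← hdeg]
    exact (IsAlgClosed.splits _).natDegree_eq_card_roots.symm
  let e := (Finset.equivFinOfCardEq hcard).symm
  have hte : ∀ t : N, t ∈ (fL Q z D).roots.toFinset ↔
      st (qq Q (fun j => z j + t * D j)) = 0 := by
    intro t
    rw [Multiset.mem_toFinset, mem_roots hf0, IsRoot, eval_fL]
  refine ⟨fun i => (e i : N), fun i i' hi => e.injective (Subtype.ext hi), ?_, ?_⟩
  · intro i
    have h1 := (hte (e i)).1 (e i).2
    obtain ⟨e1, e2⟩ := hpt (e i)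
    refine h.genW hQ hfin hirr h4 ?_ e2 h1
    intro h0
    rw [h0] at e1
    exact zero_ne_one e1
  · ext o
    constructor
    · rintro ⟨h1, h2, h3⟩
      obtain ⟨t, ht⟩ := (hline o).1 h3
      rw [h1, one_smul] at ht
      have h5 : o = fun j => z j + t * D j := ht
      rw [h5] at h2
      refine ⟨e.symm ⟨t, (hte t).2 h2⟩, ?_⟩
      simp only [Equiv.apply_symm_apply]
      exact h5.symm
    · rintro ⟨i, rfl⟩
      obtain ⟨e1, e2⟩ := hpt (e i)
      exact ⟨e1, (hte (e i)).1 (e i).2, e2⟩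

/-- **Relation (3).** -/
theorem GQ.rel3 {K : Type} [Field K] [Algebra ℂ K] {c : Fin 4 → K} (hc : C8.IsFF Q c) {m : ℤ}
    (h : GQ Q x y w z) : R1.Psi Q c x y w z + R1.Psi Q c x⁻¹ y⁻¹ w z ∈ Rel m K N := by
  classical
  haveI : CharZero N := charZero_of_injective_algebraMap (algebraMap ℂ N).injective
  obtain ⟨D, hD0, hD, hR⟩ := exists_dir (MM_isSymm hQ x y) h.det h.ne h.gen.one h.iso
  obtain ⟨t, ht, hg, hset⟩ := h.eight hQ hfin hirr h4 hD0 hD hR
  have htop := h.top hQ hfin hirr h4 hD0 hD hR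
  have h8 := line8 (m := m) hc z D htop t ht hg
  let f : Fin 8 → Fin 4 → N := fun i j => z j + t i * D j
  have hf : Function.Injective f := by
    intro i i' hi
    obtain ⟨k, hk⟩ : ∃ k, D k ≠ 0 := by
      by_contra hcon
      push Not at hcon
      exact hD (funext hcon)
    apply ht
    have h1 : z k + t i * D k = z k + t i' * D k := congrFun hi k
    exact mul_right_cancel₀ hk (add_left_cancel h1)
  have hfin' : (Set.range f).Finite := Set.finite_range f
  have hun : R1.PtSet Q x y w z ∪ R1.PtSet Q x⁻¹ y⁻¹ w z = Set.range f := by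
    rw [← hset]
    ext o
    constructor
    · rintro (⟨e1, e2, e3, e4⟩ | ⟨e1, e2, e3, e4⟩)
      · exact ⟨e1, e2, e4⟩
      · rw [MM_inv] at e4
        exact ⟨e1, e2, e4⟩
    · rintro ⟨e1, e2, e4⟩
      rcases mul_eq_zero.1 (h.prod hQ e2 e4) with e3 | e3
      · exact Or.inl ⟨e1, e2, e3, e4⟩
      · refine Or.inr ⟨e1, e2, e3, ?_⟩
        rw [MM_inv]
        exact e4
  have hdisj : Disjoint (R1.PtSet Q x y w z) (R1.PtSet Q x⁻¹ y⁻¹ w z) := by
    rw [Set.disjoint_left]
    rintro o ⟨e1, e2, e3, e4⟩ ⟨-, -, e5, -⟩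
    exact h.not_both hQ hfin hirr h4 e1 e4 e2 e3 e5
  have h1 : R1.Psi Q c x y w z + R1.Psi Q c x⁻¹ y⁻¹ w z = ∑ i, C8.pt c (f i) := by
    unfold R1.Psi
    rw [← finsum_mem_union hdisj (hfin'.subset (hun ▸ Set.subset_union_left))
      (hfin'.subset (hun ▸ Set.subset_union_right)), hun, finsum_mem_range hf,
      finsum_eq_sum_of_fintype]
  rw [h1]
  exact h8

end

end Vale.Agent.P297.H637
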