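import Vale.Agent.P297.H637.ZSum

/-!
The determinant of the generic quadric of the web is not zero.
-/

set_option linter.unusedSectionVars false
set_option linter.style.haveILetI false

namespace Vale.Agent.P297.H637

open Matrix IntermediateField Polynomial
open Vale.Agent.P297.C8
open Vale.Agent.P297 Vale.Agent.P297.G4

/-- The generic quadric of a web with a twin is nonsingular. -/
theorem Twin.det_ne {Q : Web} {P : Fin 5 → ℂ[X]} {N : Type} [Field N] [Algebra ℂ N]
    [IsAlgClosed N] {TS TX : N → N → N} {TY : N → N → N → N} {p q : ℂ[X]}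
    (hdisc : 4 * p ^ 3 ≠ q ^ 2) (hI : qI P = (X * (X - 4)) ^ 2 * p)
    (hJ : qJ P = (X * (X - 4)) ^ 3 * q) (tw : Twin Q P TS TX TY) {a b : N}
    (h : AlgebraicIndependent ℂ ![a, b]) : (MM Q a b).det ≠ 0 := by
  intro h0
  have h1 := (tw.gen (w := 0) h (by rw [h0, zero_pow two_ne_zero])).Y_ne hdisc hI hJ
  exact h1 (tw.zero a b)

/-- Reduction to algebraically closed fields. -/
theorem det_ne_of_closed {Q : Web}
    (H : ∀ (N : Type) [Field N] [Algebra ℂ N] [IsAlgClosed N] (a b : N),
      AlgebraicIndependent ℂ ![a, b] → (MM Q a b).det ≠ 0)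
    (N : Type) [Field N] [Algebra ℂ N] (a b : N) (h : AlgebraicIndependent ℂ ![a, b]) :
    (MM Q a b).det ≠ 0 := by
  let ι : N →ₐ[ℂ] AlgebraicClosure N := IsScalarTower.toAlgHom ℂ N (AlgebraicClosure N)
  have h1 : AlgebraicIndependent ℂ ![ι a, ι b] := by
    have h2 := h.map' (f := ι) ι.toRingHom.injective
    have h3 : (ι ∘ ![a, b]) = ![ι a, ι b] := by
      funext i
      fin_cases i <;> rfl
    rwa [h3] at h2
  intro h0
  apply H (AlgebraicClosure N) (ι a) (ι b) h1
  rw [← R1.map_MM Q ι a b]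
  have h2 := AlgHom.map_det ι (MM Q a b)
  rw [h0, map_zero] at h2
  exact h2.symm

end Vale.Agent.P297.H637
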