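import Vale.Agent.P297.H72.Plc

/-!
Places and roots with multiplicities: the roots of a polynomial specialise to the roots of its
reduction; clusters of roots; specialisation of cycles.
-/

set_option linter.unusedSectionVars false
set_option linter.style.haveILetI false

open Polynomial

namespace Vale.Agent.P297.H637

open Vale.Agent.P297 Vale.Agent.P297.H72

section roots

variable {N N₁ : Type} [Field N] [Field N₁] [Algebra N N₁] (P : Plc N N₁)

/-- The polynomial `F` over `N₁` has the reduction `F₀`. -/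
def PVal (F : N₁[X]) (F₀ : N[X]) : Prop := ∀ n, P.Val (F.coeff n) (F₀.coeff n)

variable {P}

theorem PVal.mul {F G : N₁[X]} {F₀ G₀ : N[X]} (h : PVal P F F₀) (h' : PVal P G G₀) :
    PVal P (F * G) (F₀ * G₀) := by
  intro n
  rw [coeff_mul, coeff_mul]
  exact Plc.Val.sum _ fun x _ => (h x.1).mul (h' x.2)

theorem PVal.add {F G : N₁[X]} {F₀ G₀ : N[X]} (h : PVal P F F₀) (h' : PVal P G G₀) :
    PVal P (F + G) (F₀ + G₀) := by
  intro n
  rw [coeff_add, coeff_add]
  exact (h n).add (h' n)

theorem PVal.neg {F : N₁[X]} {F₀ : N[X]} (h : PVal P F F₀) : PVal P (-F) (-F₀) := by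
  intro n
  rw [coeff_neg, coeff_neg]
  exact (h n).neg

theorem PVal.sub {F G : N₁[X]} {F₀ G₀ : N[X]} (h : PVal P F F₀) (h' : PVal P G G₀) :
    PVal P (F - G) (F₀ - G₀) := by
  intro n
  rw [coeff_sub, coeff_sub]
  exact (h n).sub (h' n)

theorem PVal.C {a : N₁} {a₀ : N} (h : P.Val a a₀) : PVal P (C a) (C a₀) := by
  intro n
  rw [coeff_C, coeff_C]
  split_ifs
  · exact h
  · exact P.val_zero

theorem PVal.X : PVal P (X : N₁[X]) (X : N[X]) := by
  intro n
  rw [coeff_X, coeff_X]
  split_ifs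
  · exact P.val_one
  · exact P.val_zero

theorem PVal.one : PVal P (1 : N₁[X]) (1 : N[X]) := by
  have h := PVal.C (P := P) P.val_one
  rwa [map_one, map_one] at h

theorem PVal.pow {F : N₁[X]} {F₀ : N[X]} (h : PVal P F F₀) (n : ℕ) :
    PVal P (F ^ n) (F₀ ^ n) := by
  induction n with
  | zero => rw [pow_zero, pow_zero]; exact PVal.one
  | succ n ih => rw [pow_succ, pow_succ]; exact ih.mul h

theorem PVal.sum {ι : Type} (s : Finset ι) {F : ι → N₁[X]} {F₀ : ι → N[X]}
    (h : ∀ i ∈ s, PVal P (F i) (F₀ i)) : PVal P (∑ i ∈ s, F i) (∑ i ∈ s, F₀ i) := by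
  intro n
  rw [finsetSum_coeff, finsetSum_coeff]
  exact Plc.Val.sum _ fun i hi => h i hi n

theorem PVal.prod {ι : Type} (s : Finset ι) {F : ι → N₁[X]} {F₀ : ι → N[X]}
    (h : ∀ i ∈ s, PVal P (F i) (F₀ i)) : PVal P (∏ i ∈ s, F i) (∏ i ∈ s, F₀ i) := by
  classical
  induction s using Finset.induction_on with
  | empty => exact PVal.one
  | insert i s hi ih =>
    rw [Finset.prod_insert hi, Finset.prod_insert hi]
    exact (h i (Finset.mem_insert_self _ _)).mul
      (ih fun k hk => h k (Finset.mem_insert_of_mem hk))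

theorem PVal.map (F : N[X]) : PVal P (F.map (algebraMap N N₁)) F := by
  intro n
  rw [coeff_map]
  exact P.val_const _

theorem PVal.unique {F : N₁[X]} {F₀ F₀' : N[X]} (h : PVal P F F₀) (h' : PVal P F F₀') :
    F₀ = F₀' := by
  ext n
  exact (h n).unique (h' n)

theorem PVal.eval {F : N₁[X]} {F₀ : N[X]} (h : PVal P F F₀) {x : N₁} {a : N} (hx : P.Val x a) :
    P.Val (F.eval x) (F₀.eval a) := by
  rw [eval_eq_sum_range' (n := max F.natDegree F₀.natDegree + 1)
    (Nat.lt_succ_of_le (le_max_left _ _)),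
    eval_eq_sum_range' (n := max F.natDegree F₀.natDegree + 1)
    (Nat.lt_succ_of_le (le_max_right _ _))]
  exact Plc.Val.sum _ fun i _ => (h i).mul (hx.pow i)

theorem PVal.comp {F G : N₁[X]} {F₀ G₀ : N[X]} (h : PVal P F F₀) (h' : PVal P G G₀) :
    PVal P (F.comp G) (F₀.comp G₀) := by
  have e1 : F.comp G = ∑ i ∈ Finset.range (max F.natDegree F₀.natDegree + 1),
      Polynomial.C (F.coeff i) * G ^ i := by
    rw [Polynomial.comp, Polynomial.eval₂_eq_sum_range' Polynomial.C
      (n := max F.natDegree F₀.natDegree + 1) (Nat.lt_succ_of_le (le_max_left _ _))]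
  have e2 : F₀.comp G₀ = ∑ i ∈ Finset.range (max F.natDegree F₀.natDegree + 1),
      Polynomial.C (F₀.coeff i) * G₀ ^ i := by
    rw [Polynomial.comp, Polynomial.eval₂_eq_sum_range' Polynomial.C
      (n := max F.natDegree F₀.natDegree + 1) (Nat.lt_succ_of_le (le_max_right _ _))]
  rw [e1, e2]
  exact PVal.sum _ fun i _ => (PVal.C (h i)).mul (h'.pow i)

open Classical in
/-- the value at the place, if it is finite -/
noncomputable def vl (P : Plc N N₁) (r : N₁) : N := if h : ∃ a, P.Val r a then h.choose else 0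

theorem val_vl {r : N₁} (h : ∃ a, P.Val r a) : P.Val r (vl P r) := by
  classical
  unfold vl
  rw [dif_pos h]
  exact h.choose_spec

theorem vl_eq {r : N₁} {a : N} (h : P.Val r a) : vl P r = a := (val_vl ⟨a, h⟩).unique h

theorem pval_prod_X_sub_C (s : Multiset N₁) (hs : ∀ r ∈ s, ∃ a, P.Val r a) :
    PVal P (s.map fun r => X - Polynomial.C r).prod
      ((s.map (vl P)).map fun a => X - Polynomial.C a).prod := by
  induction s using Multiset.induction_on with
  | empty => exact PVal.one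
  | cons r s ih =>
    rw [Multiset.map_cons, Multiset.prod_cons, Multiset.map_cons, Multiset.map_cons,
      Multiset.prod_cons]
    exact (PVal.X.sub (PVal.C (val_vl (hs r (Multiset.mem_cons_self _ _))))).mul
      (ih fun q hq => hs q (Multiset.mem_cons_of_mem hq))

theorem pval_prod_inf (s : Multiset N₁) (hs : ∀ r ∈ s, P.Val r⁻¹ 0) :
    PVal P (s.map fun r => 1 - Polynomial.C r⁻¹ * X).prod 1 := by
  induction s using Multiset.induction_on with
  | empty => exact PVal.one
  | cons r s ih =>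
    rw [Multiset.map_cons, Multiset.prod_cons]
    have h1 := (PVal.one (P := P)).sub
      ((PVal.C (hs r (Multiset.mem_cons_self _ _))).mul PVal.X)
    rw [map_zero, zero_mul, sub_zero] at h1
    have h2 := h1.mul (ih fun q hq => hs q (Multiset.mem_cons_of_mem hq))
    rwa [one_mul] at h2

theorem prod_inf_eq (s : Multiset N₁) (hs : ∀ r ∈ s, r ≠ 0) :
    (s.map fun r => X - Polynomial.C r).prod =
      Polynomial.C (s.map fun r => -r).prod * (s.map fun r => 1 - Polynomial.C r⁻¹ * X).prod := by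
  induction s using Multiset.induction_on with
  | empty => simp
  | cons r s ih =>
    rw [Multiset.map_cons, Multiset.prod_cons, Multiset.map_cons, Multiset.prod_cons,
      Multiset.map_cons, Multiset.prod_cons, ih fun q hq => hs q (Multiset.mem_cons_of_mem hq),
      C_mul]
    have hr := hs r (Multiset.mem_cons_self _ _)
    have h5 : (X - Polynomial.C r : N₁[X]) = Polynomial.C (-r) * (1 - Polynomial.C r⁻¹ * X) := by
      rw [mul_sub, mul_one, ← mul_assoc, ← C_mul, neg_mul, mul_inv_cancel₀ hr]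
      simp only [C_neg, C_1]
      ring
    rw [h5]
    ring

/-- **The roots that are finite at the place specialise to the roots of the reduction, with
multiplicities.** -/
theorem roots_val [IsAlgClosed N₁] {F : N₁[X]} {F₀ : N[X]} (hF : PVal P F F₀) (h0 : F₀ ≠ 0) :
    ∃ A B : Multiset N₁, F.roots = A + B ∧ (∀ r ∈ A, ∃ a, P.Val r a) ∧
      F₀.roots = A.map (vl P) ∧ (∀ r ∈ B, r ≠ 0 ∧ P.Val r⁻¹ 0) ∧
      F₀.natDegree = Multiset.card A := by
  classical
  have hF0 : F ≠ 0 := by
    rintro rfl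
    apply h0
    ext n
    rw [coeff_zero]
    have h1 := hF n
    rw [coeff_zero] at h1
    exact h1.unique P.val_zero
  let A := F.roots.filter fun r => ∃ a, P.Val r a
  let B := F.roots.filter fun r => ¬ ∃ a, P.Val r a
  have hAB : F.roots = A + B := (Multiset.filter_add_not _ _).symm
  have hA : ∀ r ∈ A, ∃ a, P.Val r a := fun r hr => (Multiset.mem_filter.1 hr).2
  have hB : ∀ r ∈ B, r ≠ 0 ∧ P.Val r⁻¹ 0 := by
    intro r hr
    have h1 := (Multiset.mem_filter.1 hr).2
    refine ⟨?_, (P.val_or r).resolve_left h1⟩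
    rintro rfl
    exact h1 ⟨0, P.val_zero⟩
  set GA := (A.map fun r => X - Polynomial.C r).prod with hGA
  set GB := (B.map fun r => 1 - Polynomial.C r⁻¹ * X).prod with hGB
  set GA₀ := ((A.map (vl P)).map fun a => X - Polynomial.C a).prod with hGA₀
  have hGAv : PVal P GA GA₀ := pval_prod_X_sub_C A hA
  have hGBv : PVal P GB 1 := pval_prod_inf B fun r hr => (hB r hr).2
  have hmon : GA₀.Monic := monic_multisetProd_X_sub_C _
  obtain ⟨c, hc⟩ : ∃ c : N₁, F = Polynomial.C c * (GA * GB) := by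
    refine ⟨F.leadingCoeff * (B.map fun r => -r).prod, ?_⟩
    have h1 := (IsAlgClosed.splits F).eq_prod_roots
    rw [hAB, Multiset.map_add, Multiset.prod_add, prod_inf_eq B fun r hr => (hB r hr).1] at h1
    refine h1.trans ?_
    rw [hGA, hGB, C_mul]
    ring
  have hprod : PVal P (GA * GB) GA₀ := by
    have h1 := hGAv.mul hGBv
    rwa [mul_one] at h1
  have hc0 : c ≠ 0 := by
    rintro rfl
    apply hF0
    rw [hc, C_0, zero_mul]
  obtain ⟨c₀, hc₀⟩ : ∃ c₀, P.Val c c₀ := by
    rcases P.val_or c with h1 | h1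
    · exact h1
    · exfalso
      have h2 := (PVal.C h1).mul hF
      have h3 : Polynomial.C c⁻¹ * F = GA * GB := by
        rw [hc, ← mul_assoc, ← C_mul, inv_mul_cancel₀ hc0, C_1, one_mul]
      rw [h3, C_0, zero_mul] at h2
      exact hmon.ne_zero (hprod.unique h2)
  have hF₀ : F₀ = Polynomial.C c₀ * GA₀ := by
    refine hF.unique ?_
    rw [hc]
    exact (PVal.C hc₀).mul hprod
  have hc₀0 : c₀ ≠ 0 := by
    rintro rfl
    apply h0
    rw [hF₀, C_0, zero_mul]
  refine ⟨A, B, hAB, hA, ?_, hB, ?_⟩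
  · rw [hF₀, roots_C_mul _ hc₀0, hGA₀, roots_multiset_prod_X_sub_C]
  · rw [hF₀, natDegree_C_mul hc₀0, hGA₀, natDegree_multiset_prod_X_sub_C_eq_card,
      Multiset.card_map]

theorem rel_map_vl {A : Multiset N₁} (hA : ∀ r ∈ A, ∃ a, P.Val r a) :
    Multiset.Rel P.Val A (A.map (vl P)) := by
  rw [Multiset.rel_map_right]
  exact Multiset.rel_refl_of_refl_on fun r hr => val_vl (hA r hr)

/-- The roots specialise to the roots of the reduction, with multiplicities, if the degree is the
same. -/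
theorem roots_val' [IsAlgClosed N₁] {F : N₁[X]} {F₀ : N[X]} (hF : PVal P F F₀) (h0 : F₀ ≠ 0)
    (hd : F.natDegree = F₀.natDegree) :
    (∀ r ∈ F.roots, ∃ a, P.Val r a) ∧ F₀.roots = F.roots.map (vl P) := by
  obtain ⟨A, B, h1, h2, h3, h4, h5⟩ := roots_val hF h0
  have h6 : Multiset.card F.roots = F.natDegree :=
    (splits_iff_card_roots).1 (IsAlgClosed.splits F)
  have h7 : B = 0 := by
    rw [h1, Multiset.card_add, hd, h5] at h6
    exact Multiset.card_eq_zero.1 (by omega)
  rw [h7, add_zero] at h1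
  rw [h1]
  exact ⟨h2, h3⟩

open Classical in
/-- The roots with value `c`. -/
theorem count_val [IsAlgClosed N₁] {F : N₁[X]} {F₀ : N[X]} (hF : PVal P F F₀) (h0 : F₀ ≠ 0)
    (c : N) : Multiset.card (F.roots.filter fun r => P.Val r c) = F₀.rootMultiplicity c := by
  obtain ⟨A, B, h1, h2, h3, h4, h5⟩ := roots_val hF h0
  have h6 : B.filter (fun r => P.Val r c) = 0 := by
    rw [Multiset.filter_eq_nil]
    intro r hr h7
    obtain ⟨h8, h9⟩ := h4 r hr
    have h10 := h7.mul h9
    rw [mul_inv_cancel₀ h8, mul_zero] at h10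
    exact one_ne_zero (P.val_one.unique h10)
  rw [h1, Multiset.filter_add, h6, add_zero, ← count_roots, h3, Multiset.count_map]
  congr 1
  refine Multiset.filter_congr fun r hr => ?_
  constructor
  · intro h
    exact (vl_eq h).symm
  · intro h
    rw [h]
    exact val_vl (h2 r hr)

open Classical in
/-- **The roots outside of the clusters.** -/
theorem roots_off [IsAlgClosed N₁] {F : N₁[X]} {F₀ : N[X]} (hF : PVal P F F₀) (h0 : F₀ ≠ 0)
    (s : Finset N) :
    Multiset.Rel P.Val (F.roots.filter fun r => ∃ a, a ∉ s ∧ P.Val r a)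
      (F₀.roots.filter fun a => a ∉ s) := by
  obtain ⟨A, B, h1, h2, h3, h4, h5⟩ := roots_val hF h0
  have h6 : B.filter (fun r => ∃ a, a ∉ s ∧ P.Val r a) = 0 := by
    rw [Multiset.filter_eq_nil]
    rintro r hr ⟨a, -, h7⟩
    obtain ⟨h8, h9⟩ := h4 r hr
    have h10 := h7.mul h9
    rw [mul_inv_cancel₀ h8, mul_zero] at h10
    exact one_ne_zero (P.val_one.unique h10)
  rw [h1, Multiset.filter_add, h6, add_zero, h3, Multiset.filter_map]
  have h7 : A.filter (fun r => ∃ a, a ∉ s ∧ P.Val r a) =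
      A.filter ((fun a => a ∉ s) ∘ vl P) := by
    refine Multiset.filter_congr fun r hr => ?_
    constructor
    · rintro ⟨a, ha, h⟩
      change vl P r ∉ s
      rwa [vl_eq h]
    · intro h
      exact ⟨vl P r, h, val_vl (h2 r hr)⟩
  rw [h7]
  exact rel_map_vl fun r hr => h2 r (Multiset.mem_of_mem_filter hr)

end roots

section cluster

variable {N N₁ : Type} [Field N] [Field N₁] [Algebra N N₁] {P : Plc N N₁}

/-- the scaled coordinate -/
noncomputable def scl (c ε : N₁) (r : N₁) : N₁ := (r - c) / ε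

theorem scl_injective {c ε : N₁} (hε : ε ≠ 0) : Function.Injective (scl c ε) := by
  intro r r' h
  unfold scl at h
  have h1 := (div_left_inj' hε).1 h
  exact sub_left_injective h1

theorem scl_eq {c ε : N₁} (hε : ε ≠ 0) (r : N₁) : c + ε * scl c ε r = r := by
  unfold scl
  rw [mul_div_cancel₀ _ hε]
  ring

theorem comp_prod (c : N₁) {ε : N₁} (hε : ε ≠ 0) (s : Multiset N₁) :
    (s.map fun r => X - C r).prod.comp (C c + C ε * X) =
      C (ε ^ Multiset.card s) * ((s.map (scl c ε)).map fun r => X - C r).prod := by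
  induction s using Multiset.induction_on with
  | empty => simp
  | cons r s ih =>
    rw [Multiset.map_cons, Multiset.prod_cons, mul_comp, ih, Multiset.map_cons, Multiset.map_cons,
      Multiset.prod_cons, Multiset.card_cons, pow_succ, C_mul]
    have h1 : (X - C r : N₁[X]).comp (C c + C ε * X) = C ε * (X - C (scl c ε r)) := by
      rw [sub_comp, X_comp, C_comp, mul_sub, ← C_mul]
      have h2 := scl_eq (c := c) hε r
      have h3 : ε * scl c ε r = r - c := eq_sub_of_add_eq' h2
      rw [h3, C_sub]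
      ring
    rw [h1]
    ring

theorem roots_scaled [IsAlgClosed N₁] {F Fc : N₁[X]} {c ε κ : N₁} (hε : ε ≠ 0) (hκ : κ ≠ 0)
    (hF0 : F ≠ 0) (h : F.comp (C c + C ε * X) = C κ * Fc) :
    Fc.roots = F.roots.map (scl c ε) := by
  have h1 := (IsAlgClosed.splits F).eq_prod_roots
  have h2 : C κ * Fc = C (F.leadingCoeff * ε ^ Multiset.card F.roots) *
      ((F.roots.map (scl c ε)).map fun r => X - C r).prod := by
    rw [← h]
    conv_lhs => rw [h1]
    rw [mul_comp, C_comp, comp_prod c hε, C_mul]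
    ring
  have h3 : (C κ * Fc).roots = Fc.roots := roots_C_mul _ hκ
  rw [← h3, h2, roots_C_mul _ (mul_ne_zero (leadingCoeff_ne_zero.2 hF0) (pow_ne_zero _ hε)),
    roots_multiset_prod_X_sub_C]

open Classical in
/-- **A cluster of roots.** The roots of `F` with value `c` at the place, seen in the scaled
coordinate `(r - c) / ε`: those with a finite scaled coordinate specialise to the roots of the
reduction of the scaled polynomial. -/
theorem roots_cluster [IsAlgClosed N₁] {F Fc : N₁[X]} {F₀ Fc₀ : N[X]} (hF : PVal P F F₀)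
    (h0 : F₀ ≠ 0) {c : N} {ε κ : N₁} (hε : P.Val ε 0) (hε0 : ε ≠ 0) (hκ : κ ≠ 0)
    (hFc : PVal P Fc Fc₀) (hc0 : Fc₀ ≠ 0)
    (hcomp : F.comp (C (algebraMap N N₁ c) + C ε * X) = C κ * Fc) :
    ∃ A B : Multiset N₁, (F.roots.filter fun r => P.Val r c) = A + B ∧
      Multiset.Rel (fun r w => P.Val (scl (algebraMap N N₁ c) ε r) w) A Fc₀.roots ∧
      (∀ r ∈ B, P.Val r c ∧ scl (algebraMap N N₁ c) ε r ≠ 0 ∧
        P.Val (scl (algebraMap N N₁ c) ε r)⁻¹ 0) ∧
      F₀.rootMultiplicity c = Fc₀.natDegree + Multiset.card B := by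
  have hF0 : F ≠ 0 := by
    rintro rfl
    apply h0
    ext n
    rw [coeff_zero]
    have h1 := hF n
    rw [coeff_zero] at h1
    exact h1.unique P.val_zero
  set ψ := scl (algebraMap N N₁ c) ε with hψ
  have hψi : Function.Injective ψ := scl_injective hε0
  have hr := roots_scaled hε0 hκ hF0 hcomp
  obtain ⟨A', B', h1, h2, h3, h4, h5⟩ := roots_val hFc hc0
  let A := (F.roots.filter fun r => P.Val r c).filter fun r => ∃ w, P.Val (ψ r) w
  let B := (F.roots.filter fun r => P.Val r c).filter fun r => ¬ ∃ w, P.Val (ψ r) w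
  have hfin : ∀ r, (∃ w, P.Val (ψ r) w) → P.Val r c := by
    rintro r ⟨w, hw⟩
    have h6 := (P.val_const c).add (hε.mul hw)
    rwa [hψ, scl_eq hε0, zero_mul, add_zero] at h6
  have hA : A.map ψ = A' := by
    have h6 : A = F.roots.filter fun r => ∃ w, P.Val (ψ r) w := by
      change (F.roots.filter fun r => P.Val r c).filter (fun r => ∃ w, P.Val (ψ r) w) = _
      rw [Multiset.filter_filter]
      refine Multiset.filter_congr fun r _ => ⟨fun h => h.1, fun h => ⟨h, hfin r h⟩⟩
    have h7 : (Fc.roots.filter fun q => ∃ w, P.Val q w) = A' := by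
      rw [h1, Multiset.filter_add, Multiset.filter_eq_self.2 h2]
      have h8 : B'.filter (fun q => ∃ w, P.Val q w) = 0 := by
        rw [Multiset.filter_eq_nil]
        rintro q hq ⟨w, hw⟩
        obtain ⟨h8, h9⟩ := h4 q hq
        have h10 := hw.mul h9
        rw [mul_inv_cancel₀ h8, mul_zero] at h10
        exact one_ne_zero (P.val_one.unique h10)
      rw [h8, add_zero]
    rw [h6, ← h7, hr, Multiset.filter_map]
    rfl
  refine ⟨A, B, (Multiset.filter_add_not _ _).symm, ?_, ?_, ?_⟩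
  · rw [h3, ← hA, Multiset.map_map, Multiset.rel_map_right]
    refine Multiset.rel_refl_of_refl_on fun r hr => ?_
    exact val_vl (Multiset.mem_filter.1 hr).2
  · intro r hrB
    have h6 := Multiset.mem_filter.1 hrB
    have h7 := h6.2
    refine ⟨(Multiset.mem_filter.1 h6.1).2, ?_, (P.val_or _).resolve_left h7⟩
    intro h8
    exact h7 ⟨0, by rw [h8]; exact P.val_zero⟩
  · rw [← count_val hF h0 c, h5, ← hA, Multiset.card_map, ← Multiset.card_add]
    congr 1
    exact (Multiset.filter_add_not _ _).symm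

open Classical in
/-- **A cluster of roots**, all of them with a finite scaled coordinate. -/
theorem roots_cluster' [IsAlgClosed N₁] {F Fc : N₁[X]} {F₀ Fc₀ : N[X]} (hF : PVal P F F₀)
    (h0 : F₀ ≠ 0) {c : N} {ε κ : N₁} (hε : P.Val ε 0) (hε0 : ε ≠ 0) (hκ : κ ≠ 0)
    (hFc : PVal P Fc Fc₀) (hc0 : Fc₀ ≠ 0)
    (hcomp : F.comp (C (algebraMap N N₁ c) + C ε * X) = C κ * Fc)
    (hdeg : F₀.rootMultiplicity c = Fc₀.natDegree) :
    Multiset.Rel (fun r w => P.Val (scl (algebraMap N N₁ c) ε r) w)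
      (F.roots.filter fun r => P.Val r c) Fc₀.roots := by
  obtain ⟨A, B, h1, h2, -, h3⟩ := roots_cluster hF h0 hε hε0 hκ hFc hc0 hcomp
  have h4 : B = 0 := Multiset.card_eq_zero.1 (by omega)
  rw [h1, h4, add_zero]
  exact h2

open Classical in
/-- The roots, cut into the clusters over `s`, the other finite roots, and the infinite roots. -/
theorem roots_split (F : N₁[X]) (s : Finset N) :
    F.roots = (F.roots.filter fun r => ∃ a, a ∉ s ∧ P.Val r a) +
      ∑ c ∈ s, (F.roots.filter fun r => P.Val r c) + F.roots.filter fun r => ¬ ∃ a, P.Val r a := by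
  induction s using Finset.induction_on with
  | empty =>
    rw [Finset.sum_empty, add_zero]
    have h1 : (F.roots.filter fun r => ∃ a, a ∉ (∅ : Finset N) ∧ P.Val r a) =
        F.roots.filter fun r => ∃ a, P.Val r a := by
      refine Multiset.filter_congr fun r _ => ?_
      simp
    rw [h1]
    exact (Multiset.filter_add_not _ _).symm
  | insert c s hc ih =>
    rw [Finset.sum_insert hc]
    conv_lhs => rw [ih]
    have h1 : (F.roots.filter fun r => ∃ a, a ∉ s ∧ P.Val r a) =
        (F.roots.filter fun r => ∃ a, a ∉ insert c s ∧ P.Val r a) +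
          F.roots.filter fun r => P.Val r c := by
      have h2 := (Multiset.filter_add_not (fun r => P.Val r c)
        (F.roots.filter fun r => ∃ a, a ∉ s ∧ P.Val r a)).symm
      rw [Multiset.filter_filter, Multiset.filter_filter] at h2
      rw [h2, add_comm]
      congr 1
      · refine Multiset.filter_congr fun r _ => ?_
        constructor
        · rintro ⟨h3, a, ha, h4⟩
          refine ⟨a, ?_, h4⟩
          rw [Finset.mem_insert, not_or]
          refine ⟨?_, ha⟩
          rintro rfl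
          exact h3 h4
        · rintro ⟨a, ha, h4⟩
          rw [Finset.mem_insert, not_or] at ha
          exact ⟨fun h5 => ha.1 (h4.unique h5), a, ha.2, h4⟩
      · refine Multiset.filter_congr fun r _ => ?_
        exact ⟨fun h => h.1, fun h => ⟨h, c, hc, h⟩⟩
    rw [h1]
    abel

end cluster

section cyc

variable {K N N₁ : Type} [Field K] [Algebra ℂ K] [Field N] [Algebra ℂ N] [Field N₁] [Algebra ℂ N₁]
  [Algebra N N₁] [IsScalarTower ℂ N N₁]

/-- The pairs (cycle over `N₁`, its specialisation). -/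
noncomputable def SpecC (K : Type) [Field K] [Algebra ℂ K] (P : Plc N N₁) :
    AddSubgroup (((K →ₐ[ℂ] N₁) →₀ ℤ) × ((K →ₐ[ℂ] N) →₀ ℤ)) :=
  AddSubgroup.closure {w | ∃ (φ : K →ₐ[ℂ] N₁) (φ₀ : K →ₐ[ℂ] N), (∀ x, P.Val (φ x) (φ₀ x)) ∧
    w = (Finsupp.single φ 1, Finsupp.single φ₀ 1)}

variable {P : Plc N N₁}

theorem SpecC.single {φ : K →ₐ[ℂ] N₁} {φ₀ : K →ₐ[ℂ] N} (h : ∀ x, P.Val (φ x) (φ₀ x)) :
    ((Finsupp.single φ 1, Finsupp.single φ₀ 1) :
      ((K →ₐ[ℂ] N₁) →₀ ℤ) × ((K →ₐ[ℂ] N) →₀ ℤ)) ∈ SpecC K P :=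
  AddSubgroup.subset_closure ⟨φ, φ₀, h, rfl⟩

theorem SpecC.single_of_gens {φ : K →ₐ[ℂ] N₁} {φ₀ : K →ₐ[ℂ] N} {s : Set K}
    (hs : IntermediateField.adjoin ℂ s = ⊤) (h : ∀ x ∈ s, P.Val (φ x) (φ₀ x)) :
    ((Finsupp.single φ 1, Finsupp.single φ₀ 1) :
      ((K →ₐ[ℂ] N₁) →₀ ℤ) × ((K →ₐ[ℂ] N) →₀ ℤ)) ∈ SpecC K P :=
  SpecC.single (P.val_of_gens hs h)

/-- **Relations specialise.** -/
theorem SpecC.rel {m : ℤ} {v : (K →ₐ[ℂ] N₁) →₀ ℤ} {v₀ : (K →ₐ[ℂ] N) →₀ ℤ}
    (h : (v, v₀) ∈ SpecC K P) (hv : v ∈ Rel m K N₁) : v₀ ∈ Rel m K N := by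
  have key : ∀ w ∈ SpecC K P, ∃ (n : ℕ) (c : Fin n → ℤ) (φ : Fin n → (K →ₐ[ℂ] N₁))
      (φ₀ : Fin n → (K →ₐ[ℂ] N)), (∀ k x, P.Val (φ k x) (φ₀ k x)) ∧
      w.1 = ∑ k, Finsupp.single (φ k) (c k) ∧ w.2 = ∑ k, Finsupp.single (φ₀ k) (c k) := by
    intro w hw
    unfold SpecC at hw
    induction hw using AddSubgroup.closure_induction with
    | mem w hw =>
      obtain ⟨φ, φ₀, h1, rfl⟩ := hw
      exact ⟨1, fun _ => 1, fun _ => φ, fun _ => φ₀, fun _ => h1, by simp, by simp⟩
    | zero => exact ⟨0, Fin.elim0, Fin.elim0, Fin.elim0, fun k => k.elim0, by simp, by simp⟩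
    | add w w' _ _ h1 h2 =>
      obtain ⟨n, c, φ, φ₀, h3, h4, h5⟩ := h1
      obtain ⟨n', c', φ', φ₀', h3', h4', h5'⟩ := h2
      refine ⟨n + n', Fin.append c c', Fin.append φ φ', Fin.append φ₀ φ₀', ?_, ?_, ?_⟩
      · intro k
        refine Fin.addCases (fun i => ?_) (fun i => ?_) k
        · rw [Fin.append_left, Fin.append_left]
          exact h3 i
        · rw [Fin.append_right, Fin.append_right]
          exact h3' i
      · rw [Prod.fst_add, h4, h4', Fin.sum_univ_add]
        simp only [Fin.append_left, Fin.append_right]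
      · rw [Prod.snd_add, h5, h5', Fin.sum_univ_add]
        simp only [Fin.append_left, Fin.append_right]
    | neg w _ h1 =>
      obtain ⟨n, c, φ, φ₀, h3, h4, h5⟩ := h1
      refine ⟨n, fun k => -c k, φ, φ₀, h3, ?_, ?_⟩
      · rw [Prod.fst_neg, h4]
        simp only [Finsupp.single_neg, Finset.sum_neg_distrib]
      · rw [Prod.snd_neg, h5]
        simp only [Finsupp.single_neg, Finset.sum_neg_distrib]
  obtain ⟨n, c, φ, φ₀, h1, h2, h3⟩ := key _ h
  change v = _ at h2
  change v₀ = _ at h3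
  rw [h3]
  refine Rel.of_plc P (s := Set.univ) c φ φ₀ ?_ (fun k x _ => h1 k x) ?_
  · exact IntermediateField.adjoin_univ ℂ K
  · rw [← h2]
    exact hv

/-- Sums over multisets that correspond to each other. -/
theorem SpecC.multiset {α β : Type} {R : α → β → Prop} {f : α → ((K →ₐ[ℂ] N₁) →₀ ℤ)}
    {f₀ : β → ((K →ₐ[ℂ] N) →₀ ℤ)} {A : Multiset α} {B : Multiset β} (h : Multiset.Rel R A B)
    (hR : ∀ a ∈ A, ∀ b ∈ B, R a b → (f a, f₀ b) ∈ SpecC K P) :
    ((A.map f).sum, (B.map f₀).sum) ∈ SpecC K P := by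
  induction h with
  | zero => exact (SpecC K P).zero_mem
  | cons hab _ ih =>
    rw [Multiset.map_cons, Multiset.sum_cons, Multiset.map_cons, Multiset.sum_cons]
    have h1 := hR _ (Multiset.mem_cons_self _ _) _ (Multiset.mem_cons_self _ _) hab
    have h2 := ih fun a ha b hb => hR a (Multiset.mem_cons_of_mem ha) b (Multiset.mem_cons_of_mem hb)
    exact (SpecC K P).add_mem h1 h2

/-- Constant cycles. -/
theorem SpecC.const (v : (K →ₐ[ℂ] N) →₀ ℤ) :
    (Finsupp.mapDomain (fun φ : K →ₐ[ℂ] N => (IsScalarTower.toAlgHom ℂ N N₁).comp φ) v, v) ∈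
      SpecC K P := by
  induction v using Finsupp.induction_linear with
  | zero =>
    rw [Finsupp.mapDomain_zero]
    exact (SpecC K P).zero_mem
  | add v w hv hw =>
    rw [Finsupp.mapDomain_add]
    exact (SpecC K P).add_mem hv hw
  | single φ n =>
    rw [Finsupp.mapDomain_single]
    have h1 := (SpecC K P).zsmul_mem (SpecC.single (φ := (IsScalarTower.toAlgHom ℂ N N₁).comp φ)
      (φ₀ := φ) (fun x => P.val_const _)) n
    rw [Prod.smul_mk, Finsupp.smul_single, Finsupp.smul_single, smul_eq_mul, mul_one] at h1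
    exact h1

end cyc

end Vale.Agent.P297.H637
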