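import Vale.Agent.P297.H637.T8
import Vale.Agent.P297.H212.Four.Weak

/-!
The other side for a family of quartics whose invariants are `(s - s⁻¹) ^ 4 p(l)`,
`(s - s⁻¹) ^ 6 q(l)` with arbitrary polynomials `p`, `q` of degree at most four and six.
-/

set_option linter.unusedSectionVars false

open IntermediateField Polynomial WeierstrassCurve WeierstrassCurve.Affine

namespace Vale.Agent.P297.H637

open Vale.Agent.P297 Vale.Agent.P297.Gen Vale.Agent.P297.H839 Vale.Agent.P297.H600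
open Vale.Agent.P297.H729 Vale.Agent.P297.Z3 Vale.Agent.P297.G4

/-- the pencil as a quartic over the polynomials -/
noncomputable abbrev penP (D : Fin 5 → Fin 3 → ℂ) : Fin 5 → ℂ[X] :=
  H160.dq (fun i j => (C (D i j) : ℂ[X])) X

theorem eval_penP (D : Fin 5 → Fin 3 → ℂ) (l : ℂ) :
    (fun i => (evalRingHom l) (penP D i)) = H160.dq D l := by
  funext i
  simp only [penP, H160.dq, coe_evalRingHom, eval_add, eval_mul, eval_pow, eval_C, eval_X]

/-- Every pair of polynomials of degree at most four and six is the pair of invariants of a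
pencil of quartics. -/
theorem exists_pen (p q : ℂ[X]) (hp : p.natDegree ≤ 4) (hq : q.natDegree ≤ 6) :
    ∃ D : Fin 5 → Fin 3 → ℂ, qI (penP D) = p ∧ qJ (penP D) = q := by
  obtain ⟨D, hD⟩ := H55.phi_surjective (Sum.elim (fun k => p.eval ((k : ℕ) : ℂ))
    (fun k => q.eval ((k : ℕ) : ℂ)))
  have hdh : ∀ z : ℂ, H160.dq (fun i j => D (i, j)) z = H55.dh D z 1 := by
    intro z
    funext i
    simp only [H160.dq, H55.dh]
    ring
  have hdeg : ∀ i, (penP (fun i j => D (i, j)) i).natDegree ≤ 2 := by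
    intro i
    unfold penP H160.dq
    compute_degree
  refine ⟨fun i j => D (i, j), ?_, ?_⟩
  · rw [← sub_eq_zero]
    refine Polynomial.eq_zero_of_natDegree_lt_card_of_eval_eq_zero _ (H55.natCast_inj 5) ?_ ?_
    · intro k
      have h1 := congrFun hD (Sum.inl k)
      simp only [H55.phi, Sum.elim_inl] at h1
      rw [eval_sub, sub_eq_zero, ← h1, ← hdh, ← eval_penP, ← H55.map_qI, coe_evalRingHom]
    · rw [Fintype.card_fin]
      refine lt_of_le_of_lt (natDegree_sub_le_of_le (H55.natDegree_qI _ hdeg) hp) ?_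
      decide
  · rw [← sub_eq_zero]
    refine Polynomial.eq_zero_of_natDegree_lt_card_of_eval_eq_zero _ (H55.natCast_inj 7) ?_ ?_
    · intro k
      have h1 := congrFun hD (Sum.inr k)
      simp only [H55.phi, Sum.elim_inr] at h1
      rw [eval_sub, sub_eq_zero, ← h1, ← hdh, ← eval_penP, ← H55.map_qJ, coe_evalRingHom]
    · rw [Fintype.card_fin]
      refine lt_of_le_of_lt (natDegree_sub_le_of_le (H55.natDegree_qJ _ hdeg) hq) ?_
      decide

section

variable {A N : Type} [AddCommGroup A] [Field N] [Algebra ℂ N]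

theorem aeval_penP (D : Fin 5 → Fin 3 → ℂ) (l : N) :
    (fun i => (aeval l : ℂ[X] →ₐ[ℂ] N).toRingHom (penP D i)) =
      H160.dq (fun i j => algebraMap ℂ N (D i j)) l := by
  funext i
  simp only [penP, H160.dq, AlgHom.toRingHom_eq_coe, RingHom.coe_coe, map_add, map_mul, map_pow,
    aeval_C, aeval_X]

variable [IsAlgClosed N]

/-- **[T8]** for arbitrary polynomials. -/
theorem tside_poly (h4 : Algebra.trdeg ℂ N = 4) {p q : ℂ[X]} (hp : p.natDegree ≤ 4)
    (hq : q.natDegree ≤ 6) (hdisc : 4 * p ^ 3 ≠ q ^ 2)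
    (hnt : ∀ α β a b : ℂ, ¬ (p = C α * (C a * X + C b) ^ 4 ∧ q = C β * (C a * X + C b) ^ 6))
    {s : N} {c : Fin 5 → N} {B : N → N → N → A} {𝓡 : AddSubgroup A} (hB : Star c s B 𝓡)
    (hs : Transcendental ℂ s) (memc : ∀ i, c i ∈ cl0 {s})
    (fixc : ∀ g : N ≃ₐ[ℂ] N, g s = s ∨ g s = s⁻¹ → ∀ i, g (c i) = c i)
    (hI : qI c = (s - s⁻¹) ^ 4 * aeval (lv s) p)
    (hJ : qJ c = (s - s⁻¹) ^ 6 * aeval (lv s) q)
    {X Y : N} (hX : X ∉ cl0 ({s} : Set N)) (hY : Y ^ 2 = qv c X) :
    (8 : ℤ) • (B s X Y - B s⁻¹ X Y) ∈ 𝓡 := by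
  classical
  have : CharZero N := charZero_of_injective_algebraMap (algebraMap ℂ N).injective
  obtain ⟨D, hDp, hDq⟩ := exists_pen p q hp hq
  have hs0 : s ≠ 0 := by
    rintro rfl
    exact hs isAlgebraic_zero
  have hr : s - s⁻¹ ≠ 0 := by
    intro h0
    have h1 : s ^ 2 - 1 = 0 := by
      have h2 : s * (s - s⁻¹) = 0 := by rw [h0, mul_zero]
      rw [mul_sub, mul_inv_cancel₀ hs0] at h2
      linear_combination h2
    have h2 : (s - 1) * (s + 1) = 0 := by linear_combination h1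
    rcases mul_eq_zero.1 h2 with h3 | h3
    · apply hs
      rw [sub_eq_zero.1 h3]
      exact isAlgebraic_one
    · apply hs
      rw [eq_neg_of_add_eq_zero_left h3]
      exact isAlgebraic_one.neg
  have hl := lv_tr hs
  have hinj : Function.Injective (aeval (lv s) : ℂ[X] →ₐ[ℂ] N) :=
    transcendental_iff_injective.1 hl
  have hd1 : qI (H160.dq (fun i j => algebraMap ℂ N (D i j)) (lv s)) = aeval (lv s) p := by
    rw [← aeval_penP, ← H55.map_qI, hDp]
    rfl
  have hd2 : qJ (H160.dq (fun i j => algebraMap ℂ N (D i j)) (lv s)) = aeval (lv s) q := by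
    rw [← aeval_penP, ← H55.map_qJ, hDq]
    rfl
  have hdl : ∀ l : ℂ, qI (H160.dq D l) = p.eval l ∧ qJ (H160.dq D l) = q.eval l := by
    intro l
    rw [← eval_penP, ← H55.map_qI, ← H55.map_qJ, hDp, hDq]
    exact ⟨rfl, rfl⟩
  -- the discriminant of the pencil
  have hdx : H160.dx D 1 ^ 2 - 4 * H160.dx D 2 * H160.dx D 0 ≠ 0 := by
    refine H212.Four.dx_disc_ne D ?_ ?_
    · by_contra hcon
      push Not at hcon
      apply hdisc
      apply Polynomial.funext
      intro l
      have h1 := hcon l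
      rw [(hdl l).1, (hdl l).2] at h1
      rw [eval_mul, eval_pow, eval_pow, ← h1]
      congr 1
      exact Polynomial.eval_ofNat (R := ℂ) 4 l
    · intro α β a b hall
      apply hnt α β a b
      constructor
      · apply Polynomial.funext
        intro l
        rw [← (hdl l).1, (hall l).1]
        simp only [eval_mul, eval_pow, eval_add, eval_C, eval_X]
      · apply Polynomial.funext
        intro l
        rw [← (hdl l).2, (hall l).2]
        simp only [eval_mul, eval_pow, eval_add, eval_C, eval_X]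
  have hD : Rat4 s (H160.dq (fun i j => algebraMap ℂ N (D i j)) (lv s)) := by
    intro x y t₁ t₂ hx ht₁ ht₂ hy
    exact (H212.Four.jtwo h4 hdx hs hx ht₁ ht₂ hy).1
  refine tside8 h4 hB hD hs memc fixc ?_ (by rw [hI, hd1]) (by rw [hJ, hd2]) hX hY
  intro h0
  apply hdisc
  apply hinj
  rw [map_mul, map_pow, map_pow, map_ofNat]
  rw [hI, hJ] at h0
  apply mul_left_cancel₀ (pow_ne_zero 12 hr)
  linear_combination h0

/-- **[T8]** for a family with coefficients in `ℂ[l]`. -/
theorem tside_family (h4 : Algebra.trdeg ℂ N = 4) {p q : ℂ[X]} (hp : p.natDegree ≤ 4)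
    (hq : q.natDegree ≤ 6) (hdisc : 4 * p ^ 3 ≠ q ^ 2)
    (hnt : ∀ α β a b : ℂ, ¬ (p = C α * (C a * X + C b) ^ 4 ∧ q = C β * (C a * X + C b) ^ 6))
    {P : Fin 5 → ℂ[X]} (hI : qI P = (X * (X - 4)) ^ 2 * p) (hJ : qJ P = (X * (X - 4)) ^ 3 * q)
    {s : N} {B : N → N → N → A} {𝓡 : AddSubgroup A}
    (hB : Star (fun i => aeval (lv s) (P i)) s B 𝓡)
    (hs : Transcendental ℂ s) {X Y : N} (hX : X ∉ cl0 ({s} : Set N))
    (hY : Y ^ 2 = qv (fun i => aeval (lv s) (P i)) X) :
    (8 : ℤ) • (B s X Y - B s⁻¹ X Y) ∈ 𝓡 := by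
  have hs0 : s ≠ 0 := by
    rintro rfl
    exact hs isAlgebraic_zero
  have hδ : lv s * (lv s - 4) = (s - s⁻¹) ^ 2 := by
    unfold lv
    field_simp
    ring
  refine tside_poly h4 hp hq hdisc hnt hB hs ?_ ?_ ?_ ?_ hX hY
  · intro i
    have h1 : lv s ∈ cl0 ({s} : Set N) := J.lv_mem (subset_cl0 _ rfl)
    have h2 : aeval (lv s) (P i) =
        ((aeval (⟨lv s, h1⟩ : cl0 ({s} : Set N)) (P i) : cl0 ({s} : Set N)) : N) := by
      exact Polynomial.aeval_algHom_apply (cl0 ({s} : Set N)).val ⟨lv s, h1⟩ (P i)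
    rw [h2]
    exact Subtype.property _
  · intro g hg i
    have hl : g (lv s) = lv s := by
      have h1 := map_lv g.toAlgHom s
      change g (lv s) = lv (g s) at h1
      rw [h1]
      rcases hg with h | h
      · rw [h]
      · rw [h, lv_inv hs0]
    have h1 := Polynomial.aeval_algHom_apply g.toAlgHom (lv s) (P i)
    change aeval (g (lv s)) (P i) = g (aeval (lv s) (P i)) at h1
    rw [← h1, hl]
  · have h1 := H55.map_qI (φ := (aeval (lv s) : ℂ[X] →ₐ[ℂ] N).toRingHom) P
    rw [hI] at h1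
    change aeval (lv s) ((Polynomial.X * (Polynomial.X - 4)) ^ 2 * p) = _ at h1
    rw [map_mul, map_pow, map_mul, map_sub, aeval_X, map_ofNat, hδ] at h1
    refine h1.symm.trans ?_
    ring
  · have h1 := H55.map_qJ (φ := (aeval (lv s) : ℂ[X] →ₐ[ℂ] N).toRingHom) P
    rw [hJ] at h1
    change aeval (lv s) ((Polynomial.X * (Polynomial.X - 4)) ^ 3 * q) = _ at h1
    rw [map_mul, map_pow, map_mul, map_sub, aeval_X, map_ofNat, hδ] at h1
    refine h1.symm.trans ?_
    ring

end

section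

variable {K N : Type} [Field K] [Algebra ℂ K] [Field N] [Algebra ℂ N]

/-- Equivariant cycles have the property `Star`. -/
theorem star_of_equi {c : Fin 5 → N} {s : N} {B : N → N → N → ((K →ₐ[ℂ] N) →₀ ℤ)}
    (hB : ∀ (g : N ≃ₐ[ℂ] N) (e X Y : N), act g.toAlgHom (B e X Y) = B (g e) (g X) (g Y)) :
    Star c s B (stableRelations K N) := by
  intro L hL hLa n e X Y _ hperm
  refine stable_of_fixed L hL hLa _ fun g hg => ?_
  obtain ⟨σ, hσ⟩ := hperm g hg
  rw [map_sum]
  have h1 : ∀ i, act g.toAlgHom (B (e i) (X i) (Y i)) = B (e (σ i)) (X (σ i)) (Y (σ i)) := by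
    intro i
    rw [hB, (hσ i).1, (hσ i).2.1, (hσ i).2.2]
  simp only [h1]
  exact Equiv.sum_comp σ (fun i => B (e i) (X i) (Y i))

end

end Vale.Agent.P297.H637
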