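import Vale.Agent.P297.H637.PL

/-!
Degenerations of cycles that are sums over the roots of a polynomial: a generic member splits into
a residual part and clusters.
-/

set_option linter.unusedSectionVars false
set_option linter.style.haveILetI false

open Polynomial

namespace Vale.Agent.P297.H637

open Vale.Agent.P297 Vale.Agent.P297.H72

section moebius

variable {N : Type} [Field N]

/-- **Change of the coordinate by a Moebius map.** -/
theorem roots_moebius [IsAlgClosed N] {Q R : N[X]} {d : ℕ} (hQ0 : Q ≠ 0) (hd : Q.natDegree = d)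
    {α β γ δ : N} (hdet : α * δ - β * γ ≠ 0)
    (h : ∀ w, γ * w + δ ≠ 0 → R.eval w = (γ * w + δ) ^ d * Q.eval ((α * w + β) / (γ * w + δ)))
    (hne : γ ≠ 0 → Q.eval (α / γ) ≠ 0) :
    R ≠ 0 ∧ R.natDegree = d ∧ Q.roots = R.roots.map (fun w => (α * w + β) / (γ * w + δ)) ∧
      ∀ w ∈ R.roots, γ * w + δ ≠ 0 := by
  classical
  have hα : ∀ b ∈ Q.roots, α - b * γ ≠ 0 := by
    intro b hb h1
    have hb0 : Q.eval b = 0 := (mem_roots hQ0).1 hb
    by_cases hγ : γ = 0
    · apply hdet
      rw [hγ, mul_zero, sub_zero] at h1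
      rw [h1, hγ]
      ring
    · apply hne hγ
      have h2 : α / γ = b := by
        rw [div_eq_iff hγ]
        linear_combination h1
      rw [h2, hb0]
  have hfac := (IsAlgClosed.splits Q).eq_prod_roots
  have hcard : Multiset.card Q.roots = d := by
    rw [← hd]
    exact (splits_iff_card_roots).1 (IsAlgClosed.splits Q)
  set ν : N → N := fun b => (b * δ - β) / (α - b * γ) with hν
  have hR : R = C (Q.leadingCoeff * (Q.roots.map fun b => α - b * γ).prod) *
      ((Q.roots.map ν).map fun r => X - C r).prod := by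
    have hinf : Set.Infinite {w : N | γ * w + δ ≠ 0} := by
      by_cases hγ : γ = 0
      · have h1 : {w : N | γ * w + δ ≠ 0} = Set.univ := by
          ext w
          simp only [Set.mem_ofPred_eq, Set.mem_univ, iff_true, hγ, zero_mul, zero_add]
          rintro rfl
          apply hdet
          rw [hγ]
          ring
        rw [h1]
        exact Set.infinite_univ
      · have h1 : {w : N | γ * w + δ ≠ 0} = {-δ / γ}ᶜ := by
          ext w
          simp only [Set.mem_ofPred_eq, Set.mem_compl_iff, Set.mem_singleton_iff]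
          rw [not_iff_not, eq_div_iff hγ]
          constructor
          · intro h2
            linear_combination h2
          · intro h2
            linear_combination h2
        rw [h1]
        exact Set.Finite.infinite_compl (Set.finite_singleton _)
    refine Polynomial.eq_of_infinite_eval_eq _ _ (hinf.mono fun w hw => ?_)
    change R.eval w = _
    rw [h w hw]
    conv_lhs => rw [hfac]
    rw [eval_mul, eval_C, eval_mul, eval_C, ← hcard]
    have key : ∀ s : Multiset N, (∀ b ∈ s, α - b * γ ≠ 0) →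
        (γ * w + δ) ^ Multiset.card s *
          ((s.map fun a => X - C a).prod).eval ((α * w + β) / (γ * w + δ)) =
        (s.map fun b => α - b * γ).prod * (((s.map ν).map fun r => X - C r).prod).eval w := by
      intro s
      induction s using Multiset.induction_on with
      | empty => intro _; simp
      | cons b s ih =>
        intro hs
        rw [Multiset.card_cons, Multiset.map_cons, Multiset.prod_cons, Multiset.map_cons,
          Multiset.prod_cons, Multiset.map_cons, Multiset.map_cons, Multiset.prod_cons, eval_mul,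
          eval_mul, pow_succ]
        have h3 := ih fun q hq => hs q (Multiset.mem_cons_of_mem hq)
        have h4 : (γ * w + δ) * (X - C b : N[X]).eval ((α * w + β) / (γ * w + δ)) =
            (α - b * γ) * (X - C (ν b) : N[X]).eval w := by
          rw [eval_sub, eval_X, eval_C, eval_sub, eval_X, eval_C, mul_sub, mul_sub,
            mul_div_cancel₀ _ hw, hν]
          change α * w + β - (γ * w + δ) * b =
            (α - b * γ) * w - (α - b * γ) * ((b * δ - β) / (α - b * γ))
          rw [mul_div_cancel₀ _ (hs b (Multiset.mem_cons_self _ _))]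
          ring
        calc _ = ((γ * w + δ) * (X - C b : N[X]).eval ((α * w + β) / (γ * w + δ))) *
            ((γ * w + δ) ^ Multiset.card s *
              ((s.map fun a => X - C a).prod).eval ((α * w + β) / (γ * w + δ))) := by ring
          _ = _ := by rw [h3, h4]; ring
    have h5 := key Q.roots hα
    calc _ = Q.leadingCoeff * ((γ * w + δ) ^ Multiset.card Q.roots *
          ((Q.roots.map fun a => X - C a).prod).eval ((α * w + β) / (γ * w + δ))) := by ring
      _ = _ := by rw [h5]; ring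
  have hc : Q.leadingCoeff * (Q.roots.map fun b => α - b * γ).prod ≠ 0 := by
    refine mul_ne_zero (leadingCoeff_ne_zero.2 hQ0) ?_
    rw [Ne, Multiset.prod_eq_zero_iff, Multiset.mem_map]
    rintro ⟨b, hb, h1⟩
    exact hα b hb h1
  have hroots : R.roots = Q.roots.map ν := by
    rw [hR, roots_C_mul _ hc, roots_multiset_prod_X_sub_C]
  have hR0 : R ≠ 0 := by
    rw [hR]
    exact mul_ne_zero (C_ne_zero.2 hc) (monic_multisetProd_X_sub_C _).ne_zero
  have hνd : ∀ b ∈ Q.roots, γ * ν b + δ = (α * δ - β * γ) / (α - b * γ) := by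
    intro b hb
    have h1 := hα b hb
    change γ * ((b * δ - β) / (α - b * γ)) + δ = _
    rw [eq_div_iff h1]
    linear_combination γ * div_mul_cancel₀ (b * δ - β) h1
  refine ⟨hR0, ?_, ?_, ?_⟩
  · rw [← hcard, ← (splits_iff_card_roots).1 (IsAlgClosed.splits R), hroots, Multiset.card_map]
  · rw [hroots, Multiset.map_map]
    conv_lhs => rw [← Multiset.map_id Q.roots]
    refine Multiset.map_congr rfl fun b hb => ?_
    change b = (α * ν b + β) / (γ * ν b + δ)
    rw [hνd b hb]
    have h1 := hα b hb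
    rw [eq_div_iff (div_ne_zero hdet h1)]
    change b * ((α * δ - β * γ) / (α - b * γ)) = α * ((b * δ - β) / (α - b * γ)) + β
    field_simp
    ring
  · intro w hw
    rw [hroots, Multiset.mem_map] at hw
    obtain ⟨b, hb, rfl⟩ := hw
    rw [hνd b hb]
    exact div_ne_zero hdet (hα b hb)

end moebius

section equiv

variable {K L L' : Type} [Field K] [Algebra ℂ K] [Field L] [Algebra ℂ L] [Field L'] [Algebra ℂ L']

theorem mapDomain_multiset_sum (g : L →ₐ[ℂ] L') (A : Multiset ((K →ₐ[ℂ] L) →₀ ℤ)) :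
    Finsupp.mapDomain (fun φ : K →ₐ[ℂ] L => g.comp φ) A.sum =
      (A.map (Finsupp.mapDomain fun φ : K →ₐ[ℂ] L => g.comp φ)).sum := by
  have h2 : Finsupp.mapDomain (fun φ : K →ₐ[ℂ] L => g.comp φ) =
      Finsupp.mapDomain.addMonoidHom (fun φ : K →ₐ[ℂ] L => g.comp φ) (M := ℤ) := rfl
  rw [h2, map_multiset_sum]

/-- **Equivariance** of the sum over the roots of a polynomial. -/
theorem sum_roots_map [IsAlgClosed L] (g : L →ₐ[ℂ] L') (P : L[X])
    (f : L → ((K →ₐ[ℂ] L) →₀ ℤ)) (f' : L' → ((K →ₐ[ℂ] L') →₀ ℤ))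
    (h : ∀ r ∈ P.roots, Finsupp.mapDomain (fun φ : K →ₐ[ℂ] L => g.comp φ) (f r) = f' (g r)) :
    Finsupp.mapDomain (fun φ : K →ₐ[ℂ] L => g.comp φ) (P.roots.map f).sum =
      (((P.map (g : L →+* L')).roots).map f').sum := by
  rw [mapDomain_multiset_sum, Multiset.map_map,
    Polynomial.Splits.roots_map (IsAlgClosed.splits P), Multiset.map_map]
  congr 1
  exact Multiset.map_congr rfl fun r hr => h r hr

end equiv

section bl

variable {K N N₁ : Type} [Field K] [Algebra ℂ K] [Field N] [Algebra ℂ N] [Field N₁] [Algebra ℂ N₁]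
  [Algebra N N₁] [IsScalarTower ℂ N N₁] {P : Plc N N₁}

theorem roots_filter_off {G₀ F₀ : N[X]} (h0 : F₀ ≠ 0) (s : Finset N) (d : N → ℕ)
    [DecidablePred fun a => a ∉ s]
    (hG : F₀ = G₀ * ∏ c ∈ s, (X - C c) ^ d c) (hGc : ∀ c ∈ s, G₀.eval c ≠ 0) :
    F₀.roots.filter (fun a => a ∉ s) = G₀.roots := by
  classical
  have hG0 : G₀ ≠ 0 := by
    rintro rfl
    apply h0
    rw [hG, zero_mul]
  have hP0 : (∏ c ∈ s, (X - C c) ^ d c : N[X]) ≠ 0 := by
    intro h1
    apply h0
    rw [hG, h1, mul_zero]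
  have h1 : F₀.roots = G₀.roots + (∏ c ∈ s, (X - C c) ^ d c : N[X]).roots := by
    rw [hG]
    exact roots_mul (by rw [← hG]; exact h0)
  rw [h1, Multiset.filter_add]
  have h2 : G₀.roots.filter (fun a => a ∉ s) = G₀.roots := by
    rw [Multiset.filter_eq_self]
    intro a ha has
    exact hGc a has ((mem_roots hG0).1 ha)
  have h3 : (∏ c ∈ s, (X - C c) ^ d c : N[X]).roots.filter (fun a => a ∉ s) = 0 := by
    rw [Multiset.filter_eq_nil]
    intro a ha
    rw [not_not]
    have h4 : (∏ c ∈ s, (X - C c) ^ d c : N[X]).eval a = 0 := (mem_roots hP0).1 ha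
    rw [eval_prod, Finset.prod_eq_zero_iff] at h4
    obtain ⟨c, hc, h5⟩ := h4
    rw [eval_pow, eval_sub, eval_X, eval_C] at h5
    have h6 := eq_zero_of_pow_eq_zero h5
    rw [sub_eq_zero.1 h6]
    exact hc
  rw [h2, h3, add_zero]

theorem rootMultiplicity_cluster {G₀ F₀ : N[X]} (h0 : F₀ ≠ 0) (s : Finset N) (d : N → ℕ)
    (hG : F₀ = G₀ * ∏ c ∈ s, (X - C c) ^ d c) (hGc : ∀ c ∈ s, G₀.eval c ≠ 0) {c : N}
    (hc : c ∈ s) : F₀.rootMultiplicity c = d c := by
  classical
  have h1 : F₀ = (X - C c) ^ d c * (G₀ * ∏ b ∈ s.erase c, (X - C b) ^ d b) := by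
    rw [hG, ← Finset.mul_prod_erase s _ hc]
    ring
  have h2 : (G₀ * ∏ b ∈ s.erase c, (X - C b) ^ d b).eval c ≠ 0 := by
    rw [eval_mul, eval_prod]
    refine mul_ne_zero (hGc c hc) (Finset.prod_ne_zero_iff.2 fun b hb => ?_)
    rw [eval_pow, eval_sub, eval_X, eval_C]
    refine pow_ne_zero _ (sub_ne_zero.2 ?_)
    rintro rfl
    exact (Finset.notMem_erase c s) hb
  have h3 : (G₀ * ∏ b ∈ s.erase c, (X - C b) ^ d b) ≠ 0 := by
    intro h4
    rw [h4, eval_zero] at h2
    exact h2 rfl
  rw [h1, rootMultiplicity_mul (by rw [← h1]; exact h0), rootMultiplicity_X_sub_C_pow,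
    rootMultiplicity_eq_zero (by exact h2), add_zero]

/-- **The degeneration lemma.** The roots of `F` specialise to the roots of `G₀` and to the
clusters at the points of `s`, seen in the scaled coordinate. -/
theorem bl_spec [IsAlgClosed N₁] {F : N₁[X]} {F₀ G₀ : N[X]} (hF : PVal P F F₀) (h0 : F₀ ≠ 0)
    (hd : F.natDegree = F₀.natDegree) (s : Finset N) (d : N → ℕ)
    (hG : F₀ = G₀ * ∏ c ∈ s, (X - C c) ^ d c) (hGc : ∀ c ∈ s, G₀.eval c ≠ 0) {l : N₁}
    (hl : P.Val l 0) (hl0 : l ≠ 0) (Fc : N → N₁[X]) (Fc₀ : N → N[X]) (κ : N → N₁)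
    (hκ : ∀ c ∈ s, κ c ≠ 0) (hFc : ∀ c ∈ s, PVal P (Fc c) (Fc₀ c)) (hFc0 : ∀ c ∈ s, Fc₀ c ≠ 0)
    (hdeg : ∀ c ∈ s, (Fc₀ c).natDegree = d c)
    (hcomp : ∀ c ∈ s, F.comp (C (algebraMap N N₁ c) + C l * X) = C (κ c) * Fc c)
    (f : N₁ → ((K →ₐ[ℂ] N₁) →₀ ℤ)) (f₀ : N → ((K →ₐ[ℂ] N) →₀ ℤ))
    (fc : N → N → ((K →ₐ[ℂ] N) →₀ ℤ))
    (h1 : ∀ r a, F.eval r = 0 → P.Val r a → G₀.eval a = 0 → (f r, f₀ a) ∈ SpecC K P)
    (h2 : ∀ c ∈ s, ∀ r w, F.eval r = 0 → P.Val (scl (algebraMap N N₁ c) l r) w →
      (Fc₀ c).eval w = 0 → (f r, fc c w) ∈ SpecC K P) :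
    ((F.roots.map f).sum,
      (G₀.roots.map f₀).sum + ∑ c ∈ s, ((Fc₀ c).roots.map (fc c)).sum) ∈ SpecC K P := by
  classical
  have hF0 : F ≠ 0 := by
    rintro rfl
    apply h0
    ext n
    rw [coeff_zero]
    have h1 := hF n
    rw [coeff_zero] at h1
    exact h1.unique P.val_zero
  have hG0 : G₀ ≠ 0 := by
    rintro rfl
    apply h0
    rw [hG, zero_mul]
  have hfin := (roots_val' hF h0 hd).1
  have hinf : (F.roots.filter fun r => ¬ ∃ a, P.Val r a) = 0 := by
    rw [Multiset.filter_eq_nil]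
    intro r hr h3
    exact h3 (hfin r hr)
  have hsplit := roots_split (P := P) F s
  rw [hinf, add_zero] at hsplit
  rw [hsplit, Multiset.map_add, Multiset.sum_add]
  have hA := roots_off hF h0 s
  rw [roots_filter_off h0 s d hG hGc] at hA
  have e1 := SpecC.multiset (P := P) (f := f) (f₀ := f₀) hA (fun r hr a ha hra =>
    h1 r a ((mem_roots hF0).1 (Multiset.mem_of_mem_filter hr)) hra ((mem_roots hG0).1 ha))
  have e2 : ∀ c ∈ s, (((F.roots.filter fun r => P.Val r c).map f).sum,
      ((Fc₀ c).roots.map (fc c)).sum) ∈ SpecC K P := by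
    intro c hc
    have h3 := roots_cluster' hF h0 hl hl0 (hκ c hc) (hFc c hc) (hFc0 c hc) (hcomp c hc)
      (by rw [rootMultiplicity_cluster h0 s d hG hGc hc, hdeg c hc])
    exact SpecC.multiset (P := P) h3 fun r hr w hw hrw =>
      h2 c hc r w ((mem_roots hF0).1 (Multiset.mem_of_mem_filter hr)) hrw
        ((mem_roots (hFc0 c hc)).1 hw)
  have e3 : (((∑ c ∈ s, F.roots.filter fun r => P.Val r c).map f).sum,
      ∑ c ∈ s, ((Fc₀ c).roots.map (fc c)).sum) ∈ SpecC K P := by
    have h3 : (((∑ c ∈ s, F.roots.filter fun r => P.Val r c).map f).sum,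
        ∑ c ∈ s, ((Fc₀ c).roots.map (fc c)).sum) =
        ∑ c ∈ s, (((F.roots.filter fun r => P.Val r c).map f).sum,
          ((Fc₀ c).roots.map (fc c)).sum) := by
      refine Prod.ext ?_ (by rw [Prod.snd_sum])
      rw [Prod.fst_sum]
      change ((∑ c ∈ s, F.roots.filter fun r => P.Val r c).map f).sum = _
      have h4 := map_sum (Multiset.mapAddMonoidHom f) (fun c => F.roots.filter fun r => P.Val r c) s
      have h5 : ((∑ c ∈ s, F.roots.filter fun r => P.Val r c).map f) =
          ∑ c ∈ s, (F.roots.filter fun r => P.Val r c).map f := h4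
      rw [h5]
      exact map_sum (Multiset.sumAddMonoidHom) _ s
    rw [h3]
    exact (SpecC K P).sum_mem e2
  exact (SpecC K P).add_mem e1 e3

end bl

end Vale.Agent.P297.H637
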