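import Vale.Agent.P297.H637.BL

/-!
The degeneration lemma without conditions of general position.
-/

set_option linter.unusedSectionVars false
set_option linter.style.haveILetI false

open Polynomial

namespace Vale.Agent.P297.H637

open Vale.Agent.P297 Vale.Agent.P297.H72

section moebius

variable {N : Type} [Field N]

/-- **Change of the coordinate by a Moebius map**, without a condition at infinity. -/
theorem roots_moebius_full [IsAlgClosed N] {Q R : N[X]} {d : ℕ} (hQ0 : Q ≠ 0)
    (hd : Q.natDegree = d) {α β γ δ : N} (hdet : α * δ - β * γ ≠ 0)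
    (h : ∀ w, γ * w + δ ≠ 0 →
      R.eval w = (γ * w + δ) ^ d * Q.eval ((α * w + β) / (γ * w + δ))) :
    R ≠ 0 ∧ R.natDegree ≤ d ∧ Q.roots = R.roots.map (fun w => (α * w + β) / (γ * w + δ)) +
      Multiset.replicate (d - R.natDegree) (α / γ) ∧ ∀ w ∈ R.roots, γ * w + δ ≠ 0 := by
  classical
  have hfac := (IsAlgClosed.splits Q).eq_prod_roots
  have hcard : Multiset.card Q.roots = d := by
    rw [← hd]
    exact (splits_iff_card_roots).1 (IsAlgClosed.splits Q)
  set M1 := Q.roots.filter fun b => α - b * γ ≠ 0 with hM1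
  set M2 := Q.roots.filter fun b => ¬ (α - b * γ ≠ 0) with hM2
  have hM : Q.roots = M1 + M2 := (Multiset.filter_add_not _ _).symm
  have h1m : ∀ b ∈ M1, α - b * γ ≠ 0 := fun b hb => (Multiset.mem_filter.1 hb).2
  have h2m : ∀ b ∈ M2, α - b * γ = 0 := fun b hb => not_not.1 (Multiset.mem_filter.1 hb).2
  have h2n : ∀ b ∈ M2, β - b * δ ≠ 0 := by
    intro b hb h3
    apply hdet
    have h4 := h2m b hb
    linear_combination δ * h4 - γ * h3
  set ν : N → N := fun b => (b * δ - β) / (α - b * γ) with hν
  have hR : R = C (Q.leadingCoeff * (M1.map fun b => α - b * γ).prod *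
      (M2.map fun b => β - b * δ).prod) * ((M1.map ν).map fun r => X - C r).prod := by
    have hinf : Set.Infinite {w : N | γ * w + δ ≠ 0} := by
      by_cases hγ : γ = 0
      · have h1 : {w : N | γ * w + δ ≠ 0} = Set.univ := by
          ext w
          simp only [Set.mem_ofPred_eq, Set.mem_univ, iff_true, hγ, zero_mul, zero_add]
          rintro rfl
          apply hdet
          rw [hγ]
          ring
        rw [h1]
        exact Set.infinite_univ
      · have h1 : {w : N | γ * w + δ ≠ 0} = {-δ / γ}ᶜ := by
          ext w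
          simp only [Set.mem_ofPred_eq, Set.mem_compl_iff, Set.mem_singleton_iff]
          rw [not_iff_not, eq_div_iff hγ]
          constructor
          · intro h2
            linear_combination h2
          · intro h2
            linear_combination h2
        rw [h1]
        exact Set.Finite.infinite_compl (Set.finite_singleton _)
    refine Polynomial.eq_of_infinite_eval_eq _ _ (hinf.mono fun w hw => ?_)
    change R.eval w = _
    rw [h w hw]
    conv_lhs => rw [hfac]
    rw [eval_mul, eval_C, eval_mul, eval_C, ← hcard, hM, Multiset.map_add, Multiset.prod_add,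
      eval_mul, Multiset.card_add, pow_add]
    have key1 : ∀ s : Multiset N, (∀ b ∈ s, α - b * γ ≠ 0) →
        (γ * w + δ) ^ Multiset.card s *
          ((s.map fun a => X - C a).prod).eval ((α * w + β) / (γ * w + δ)) =
        (s.map fun b => α - b * γ).prod * (((s.map ν).map fun r => X - C r).prod).eval w := by
      intro s
      induction s using Multiset.induction_on with
      | empty => intro _; simp
      | cons b s ih =>
        intro hs
        rw [Multiset.card_cons, Multiset.map_cons, Multiset.prod_cons, Multiset.map_cons,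
          Multiset.prod_cons, Multiset.map_cons, Multiset.map_cons, Multiset.prod_cons, eval_mul,
          eval_mul, pow_succ]
        have h3 := ih fun q hq => hs q (Multiset.mem_cons_of_mem hq)
        have h4 : (γ * w + δ) * (X - C b : N[X]).eval ((α * w + β) / (γ * w + δ)) =
            (α - b * γ) * (X - C (ν b) : N[X]).eval w := by
          rw [eval_sub, eval_X, eval_C, eval_sub, eval_X, eval_C, mul_sub, mul_sub,
            mul_div_cancel₀ _ hw, hν]
          change α * w + β - (γ * w + δ) * b =
            (α - b * γ) * w - (α - b * γ) * ((b * δ - β) / (α - b * γ))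
          rw [mul_div_cancel₀ _ (hs b (Multiset.mem_cons_self _ _))]
          ring
        calc _ = ((γ * w + δ) * (X - C b : N[X]).eval ((α * w + β) / (γ * w + δ))) *
            ((γ * w + δ) ^ Multiset.card s *
              ((s.map fun a => X - C a).prod).eval ((α * w + β) / (γ * w + δ))) := by ring
          _ = _ := by rw [h3, h4]; ring
    have key2 : ∀ s : Multiset N, (∀ b ∈ s, α - b * γ = 0) →
        (γ * w + δ) ^ Multiset.card s *
          ((s.map fun a => X - C a).prod).eval ((α * w + β) / (γ * w + δ)) =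
        (s.map fun b => β - b * δ).prod := by
      intro s
      induction s using Multiset.induction_on with
      | empty => intro _; simp
      | cons b s ih =>
        intro hs
        rw [Multiset.card_cons, Multiset.map_cons, Multiset.prod_cons, Multiset.map_cons,
          Multiset.prod_cons, eval_mul, pow_succ]
        have h3 := ih fun q hq => hs q (Multiset.mem_cons_of_mem hq)
        have h4 : (γ * w + δ) * (X - C b : N[X]).eval ((α * w + β) / (γ * w + δ)) =
            β - b * δ := by
          rw [eval_sub, eval_X, eval_C, mul_sub, mul_div_cancel₀ _ hw]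
          linear_combination w * hs b (Multiset.mem_cons_self _ _)
        calc _ = ((γ * w + δ) * (X - C b : N[X]).eval ((α * w + β) / (γ * w + δ))) *
            ((γ * w + δ) ^ Multiset.card s *
              ((s.map fun a => X - C a).prod).eval ((α * w + β) / (γ * w + δ))) := by ring
          _ = _ := by rw [h3, h4]
    have h5 := key1 M1 h1m
    have h6 := key2 M2 h2m
    calc _ = Q.leadingCoeff * ((γ * w + δ) ^ Multiset.card M1 *
          ((M1.map fun a => X - C a).prod).eval ((α * w + β) / (γ * w + δ))) *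
          ((γ * w + δ) ^ Multiset.card M2 *
          ((M2.map fun a => X - C a).prod).eval ((α * w + β) / (γ * w + δ))) := by ring
      _ = _ := by rw [h5, h6]; ring
  have hc : Q.leadingCoeff * (M1.map fun b => α - b * γ).prod *
      (M2.map fun b => β - b * δ).prod ≠ 0 := by
    refine mul_ne_zero (mul_ne_zero (leadingCoeff_ne_zero.2 hQ0) ?_) ?_
    · rw [Ne, Multiset.prod_eq_zero_iff, Multiset.mem_map]
      rintro ⟨b, hb, h1⟩
      exact h1m b hb h1
    · rw [Ne, Multiset.prod_eq_zero_iff, Multiset.mem_map]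
      rintro ⟨b, hb, h1⟩
      exact h2n b hb h1
  have hroots : R.roots = M1.map ν := by
    rw [hR, roots_C_mul _ hc, roots_multiset_prod_X_sub_C]
  have hR0 : R ≠ 0 := by
    rw [hR]
    exact mul_ne_zero (C_ne_zero.2 hc) (monic_multisetProd_X_sub_C _).ne_zero
  have hνd : ∀ b ∈ M1, γ * ν b + δ = (α * δ - β * γ) / (α - b * γ) := by
    intro b hb
    have h1 := h1m b hb
    change γ * ((b * δ - β) / (α - b * γ)) + δ = _
    rw [eq_div_iff h1]
    linear_combination γ * div_mul_cancel₀ (b * δ - β) h1
  have hRd : R.natDegree = Multiset.card M1 := by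
    rw [← (splits_iff_card_roots).1 (IsAlgClosed.splits R), hroots, Multiset.card_map]
  have hd2 : d = Multiset.card M1 + Multiset.card M2 := by
    rw [← hcard, hM, Multiset.card_add]
  refine ⟨hR0, ?_, ?_, ?_⟩
  · omega
  · rw [hroots, Multiset.map_map]
    have e1 : M1.map ((fun w => (α * w + β) / (γ * w + δ)) ∘ ν) = M1 := by
      conv_rhs => rw [← Multiset.map_id M1]
      refine Multiset.map_congr rfl fun b hb => ?_
      change (α * ν b + β) / (γ * ν b + δ) = b
      rw [hνd b hb]
      have h1 := h1m b hb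
      rw [div_eq_iff (div_ne_zero hdet h1)]
      change α * ((b * δ - β) / (α - b * γ)) + β = b * ((α * δ - β * γ) / (α - b * γ))
      field_simp
      ring
    have e2 : M2 = Multiset.replicate (d - R.natDegree) (α / γ) := by
      rw [hRd, hd2, Nat.add_sub_cancel_left]
      refine Multiset.eq_replicate_card.2 fun b hb => ?_
      have h3 := h2m b hb
      have hγ : γ ≠ 0 := by
        rintro rfl
        apply hdet
        rw [mul_zero, sub_zero] at h3
        rw [h3]
        ring
      rw [eq_div_iff hγ]
      linear_combination -h3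
    rw [e1, ← e2]
    exact hM
  · intro w hw
    rw [hroots, Multiset.mem_map] at hw
    obtain ⟨b, hb, rfl⟩ := hw
    rw [hνd b hb]
    exact div_ne_zero hdet (h1m b hb)

/-- The roots of `R(T ^ e)`. -/
theorem roots_comp_pow [IsAlgClosed N] {R : N[X]} (hR : R ≠ 0) {e : ℕ} (he : 0 < e) :
    (R.comp (X ^ e)).roots.map (fun t => t ^ e) = e • R.roots := by
  classical
  have h1 : ∀ a : N, (X ^ e - C a : N[X]).roots.map (fun t => t ^ e) = Multiset.replicate e a := by
    intro a
    have h2 : Multiset.card (X ^ e - C a : N[X]).roots = e := by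
      rw [(splits_iff_card_roots).1 (IsAlgClosed.splits _), natDegree_X_pow_sub_C]
    have h3 : (X ^ e - C a : N[X]).roots.map (fun t => t ^ e) =
        Multiset.replicate (Multiset.card ((X ^ e - C a : N[X]).roots.map (fun t => t ^ e))) a := by
      refine Multiset.eq_replicate_card.2 fun b hb => ?_
      rw [Multiset.mem_map] at hb
      obtain ⟨t, ht, rfl⟩ := hb
      have h4 : (X ^ e - C a : N[X]).eval t = 0 :=
        (mem_roots (X_pow_sub_C_ne_zero he a)).1 ht
      rw [eval_sub, eval_pow, eval_X, eval_C, sub_eq_zero] at h4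
      exact h4
    rw [h3, Multiset.card_map, h2]
  have hfac := (IsAlgClosed.splits R).eq_prod_roots
  have key : ∀ s : Multiset N, ((s.map fun a => X - C a).prod.comp (X ^ e)).roots.map
      (fun t => t ^ e) = e • s ∧ (s.map fun a => X - C a).prod.comp (X ^ e) ≠ 0 := by
    intro s
    induction s using Multiset.induction_on with
    | empty => simp
    | cons b s ih =>
      have h5 : ((b ::ₘ s).map fun a => X - C a).prod.comp (X ^ e) =
          (X ^ e - C b) * (s.map fun a => X - C a).prod.comp (X ^ e) := by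
        rw [Multiset.map_cons, Multiset.prod_cons, mul_comp, sub_comp, X_comp, C_comp]
      have h6 : (X ^ e - C b) * (s.map fun a => X - C a).prod.comp (X ^ e) ≠ 0 :=
        mul_ne_zero (X_pow_sub_C_ne_zero he b) ih.2
      rw [h5]
      refine ⟨?_, h6⟩
      rw [roots_mul h6, Multiset.map_add, h1, ih.1, ← Multiset.singleton_add, nsmul_add,
        Multiset.nsmul_singleton]
  have h7 : R.comp (X ^ e) = C R.leadingCoeff *
      (R.roots.map fun a => X - C a).prod.comp (X ^ e) := by
    conv_lhs => rw [hfac]
    rw [mul_comp, C_comp]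
  rw [h7, roots_C_mul _ (leadingCoeff_ne_zero.2 hR)]
  exact (key R.roots).1

end moebius

section bl

variable {K N N₁ : Type} [Field K] [Algebra ℂ K] [Field N] [Algebra ℂ N] [Field N₁] [Algebra ℂ N₁]
  [Algebra N N₁] [IsScalarTower ℂ N N₁] {P : Plc N N₁}

theorem SpecC.replicate {α : Type} {f : α → ((K →ₐ[ℂ] N₁) →₀ ℤ)} {v : (K →ₐ[ℂ] N) →₀ ℤ}
    {B : Multiset α} (h : ∀ r ∈ B, (f r, v) ∈ SpecC K P) :
    ((B.map f).sum, Multiset.card B • v) ∈ SpecC K P := by
  induction B using Multiset.induction_on with
  | empty =>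
    rw [Multiset.map_zero, Multiset.sum_zero, Multiset.card_zero, zero_smul]
    exact (SpecC K P).zero_mem
  | cons a B ih =>
    rw [Multiset.map_cons, Multiset.sum_cons, Multiset.card_cons, add_comm, add_smul, one_smul]
    have h1 := ih fun r hr => h r (Multiset.mem_cons_of_mem hr)
    exact (SpecC K P).add_mem h1 (h a (Multiset.mem_cons_self _ _))

theorem roots_split_off {G₀ : N[X]} (s : Finset N) [DecidablePred fun a => a ∉ s] {A : Type}
    [AddCommGroup A] (f₀ : N → A) :
    (G₀.roots.map f₀).sum = ((G₀.roots.filter fun a => a ∉ s).map f₀).sum +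
      ∑ c ∈ s, G₀.rootMultiplicity c • f₀ c := by
  classical
  have key : ∀ M : Multiset N, (M.map f₀).sum = ((M.filter fun a => a ∉ s).map f₀).sum +
      ∑ c ∈ s, M.count c • f₀ c := by
    intro M
    induction M using Multiset.induction_on with
    | empty => simp
    | cons a M ih =>
      rw [Multiset.map_cons, Multiset.sum_cons, ih]
      by_cases ha : a ∈ s
      · rw [Multiset.filter_cons_of_neg (p := fun a => a ∉ s) _ (not_not.2 ha)]
        have h1 : ∑ c ∈ s, (a ::ₘ M).count c • f₀ c = f₀ a + ∑ c ∈ s, M.count c • f₀ c := by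
          rw [← Finset.add_sum_erase s _ ha, ← Finset.add_sum_erase s (fun c => M.count c • f₀ c) ha,
            Multiset.count_cons_self, add_smul, one_smul]
          have h2 : ∑ c ∈ s.erase a, (a ::ₘ M).count c • f₀ c =
              ∑ c ∈ s.erase a, M.count c • f₀ c := by
            refine Finset.sum_congr rfl fun c hc => ?_
            rw [Multiset.count_cons_of_ne (Finset.ne_of_mem_erase hc)]
          rw [h2]
          abel
        rw [h1]
        abel
      · rw [Multiset.filter_cons_of_pos (p := fun a => a ∉ s) _ ha, Multiset.map_cons,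
          Multiset.sum_cons]
        have h1 : ∑ c ∈ s, (a ::ₘ M).count c • f₀ c = ∑ c ∈ s, M.count c • f₀ c := by
          refine Finset.sum_congr rfl fun c hc => ?_
          rw [Multiset.count_cons_of_ne]
          rintro rfl
          exact ha hc
        rw [h1]
        abel
  rw [key G₀.roots]
  simp only [count_roots]

theorem rootMultiplicity_cluster_full {G₀ F₀ : N[X]} (h0 : F₀ ≠ 0) (s : Finset N) (d : N → ℕ)
    (hG : F₀ = G₀ * ∏ c ∈ s, (X - C c) ^ d c) (c : N) [DecidableEq N] :
    F₀.rootMultiplicity c = G₀.rootMultiplicity c + if c ∈ s then d c else 0 := by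
  have hP0 : (∏ c ∈ s, (X - C c) ^ d c : N[X]) ≠ 0 := by
    intro h1
    apply h0
    rw [hG, h1, mul_zero]
  have hG0 : G₀ ≠ 0 := by
    rintro rfl
    apply h0
    rw [hG, zero_mul]
  have h1 : (∏ c ∈ s, (X - C c) ^ d c : N[X]).rootMultiplicity c = if c ∈ s then d c else 0 := by
    have key : ∀ t : Finset N, (∏ b ∈ t, (X - C b) ^ d b : N[X]).rootMultiplicity c =
        if c ∈ t then d c else 0 := by
      intro t
      induction t using Finset.induction_on with
      | empty =>
        rw [Finset.prod_empty, ← C_1, rootMultiplicity_C]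
        simp
      | insert b t hb ih =>
        rw [Finset.prod_insert hb, rootMultiplicity_mul]
        · rw [ih]
          by_cases hcb : c = b
          · subst hcb
            rw [rootMultiplicity_X_sub_C_pow, if_neg hb, if_pos (Finset.mem_insert_self _ _),
              add_zero]
          · rw [rootMultiplicity_eq_zero, zero_add]
            · simp only [Finset.mem_insert, hcb, false_or]
            · intro h2
              rw [IsRoot, eval_pow, eval_sub, eval_X, eval_C] at h2
              exact hcb (sub_eq_zero.1 (eq_zero_of_pow_eq_zero h2))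
        · refine mul_ne_zero (pow_ne_zero _ (X_sub_C_ne_zero _)) ?_
          exact Finset.prod_ne_zero_iff.2 fun a _ => pow_ne_zero _ (X_sub_C_ne_zero _)
    exact key s
  rw [← h1]
  conv_lhs => rw [hG]
  exact rootMultiplicity_mul (by rw [← hG]; exact h0)

/-- **The degeneration lemma, without conditions of general position.** The roots of `F`
specialise to the roots of `G₀` and to the clusters at the points of `s`, seen in the scaled
coordinates; the roots with infinite scaled coordinate go to the point of the base curve. -/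
theorem bl_full [IsAlgClosed N₁] {F : N₁[X]} {F₀ G₀ : N[X]} (hF : PVal P F F₀) (h0 : F₀ ≠ 0)
    (hd : F.natDegree = F₀.natDegree) (s : Finset N) (d : N → ℕ)
    (hG : F₀ = G₀ * ∏ c ∈ s, (X - C c) ^ d c) (l : N → N₁)
    (hl : ∀ c ∈ s, P.Val (l c) 0) (hl0 : ∀ c ∈ s, l c ≠ 0) (Fc : N → N₁[X]) (Fc₀ : N → N[X])
    (κ : N → N₁) (hκ : ∀ c ∈ s, κ c ≠ 0) (hFc : ∀ c ∈ s, PVal P (Fc c) (Fc₀ c))
    (hFc0 : ∀ c ∈ s, Fc₀ c ≠ 0) (hdeg : ∀ c ∈ s, (Fc₀ c).natDegree ≤ d c)
    (hcomp : ∀ c ∈ s, F.comp (C (algebraMap N N₁ c) + C (l c) * X) = C (κ c) * Fc c)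
    (f : N₁ → ((K →ₐ[ℂ] N₁) →₀ ℤ)) (f₀ : N → ((K →ₐ[ℂ] N) →₀ ℤ))
    (fc : N → N → ((K →ₐ[ℂ] N) →₀ ℤ))
    (h1 : ∀ r a, F.eval r = 0 → P.Val r a → a ∉ s → G₀.eval a = 0 → (f r, f₀ a) ∈ SpecC K P)
    (h2 : ∀ c ∈ s, ∀ r w, F.eval r = 0 → P.Val (scl (algebraMap N N₁ c) (l c) r) w →
      (Fc₀ c).eval w = 0 → (f r, fc c w) ∈ SpecC K P)
    (h3 : ∀ c ∈ s, ∀ r, F.eval r = 0 → P.Val r c → scl (algebraMap N N₁ c) (l c) r ≠ 0 →
      P.Val (scl (algebraMap N N₁ c) (l c) r)⁻¹ 0 → (f r, f₀ c) ∈ SpecC K P) :
    ((F.roots.map f).sum, (G₀.roots.map f₀).sum +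
      ∑ c ∈ s, (((Fc₀ c).roots.map (fc c)).sum + (d c - (Fc₀ c).natDegree) • f₀ c)) ∈
        SpecC K P := by
  classical
  have hF0 : F ≠ 0 := by
    rintro rfl
    apply h0
    ext n
    rw [coeff_zero]
    have h1 := hF n
    rw [coeff_zero] at h1
    exact h1.unique P.val_zero
  have hG0 : G₀ ≠ 0 := by
    rintro rfl
    apply h0
    rw [hG, zero_mul]
  have hfin := (roots_val' hF h0 hd).1
  have hinf : (F.roots.filter fun r => ¬ ∃ a, P.Val r a) = 0 := by
    rw [Multiset.filter_eq_nil]
    intro r hr h3
    exact h3 (hfin r hr)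
  have hsplit := roots_split (P := P) F s
  rw [hinf, add_zero] at hsplit
  rw [hsplit, Multiset.map_add, Multiset.sum_add]
  -- outside of the clusters
  have hoff : F₀.roots.filter (fun a => a ∉ s) = G₀.roots.filter (fun a => a ∉ s) := by
    ext a
    rw [Multiset.count_filter, Multiset.count_filter]
    by_cases ha : a ∈ s
    · rw [if_neg (not_not.2 ha), if_neg (not_not.2 ha)]
    · rw [if_pos ha, if_pos ha, count_roots, count_roots,
        rootMultiplicity_cluster_full h0 s d hG a, if_neg ha, add_zero]
  have hA := roots_off hF h0 s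
  rw [hoff] at hA
  have e1 := SpecC.multiset (P := P) (f := f) (f₀ := f₀) hA (fun r hr a ha hra =>
    h1 r a ((mem_roots hF0).1 (Multiset.mem_of_mem_filter hr)) hra (Multiset.mem_filter.1 ha).2
      ((mem_roots hG0).1 (Multiset.mem_of_mem_filter ha)))
  have e2 : ∀ c ∈ s, (((F.roots.filter fun r => P.Val r c).map f).sum,
      G₀.rootMultiplicity c • f₀ c + (((Fc₀ c).roots.map (fc c)).sum +
        (d c - (Fc₀ c).natDegree) • f₀ c)) ∈ SpecC K P := by
    intro c hc
    obtain ⟨A, B, g1, g2, g3, g4⟩ := roots_cluster hF h0 (hl c hc) (hl0 c hc) (hκ c hc) (hFc c hc)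
      (hFc0 c hc) (hcomp c hc)
    rw [rootMultiplicity_cluster_full h0 s d hG c, if_pos hc] at g4
    have hmem : ∀ r ∈ A + B, F.eval r = 0 := by
      intro r hr
      rw [← g1] at hr
      exact (mem_roots hF0).1 (Multiset.mem_of_mem_filter hr)
    have e3 := SpecC.multiset (P := P) (f := f) (f₀ := fc c) g2 (fun r hr w hw hrw =>
      h2 c hc r w (hmem r (Multiset.mem_add.2 (Or.inl hr))) hrw ((mem_roots (hFc0 c hc)).1 hw))
    have e4 := SpecC.replicate (P := P) (f := f) (v := f₀ c) (B := B) (fun r hr =>
      h3 c hc r (hmem r (Multiset.mem_add.2 (Or.inr hr))) (g3 r hr).1 (g3 r hr).2.1 (g3 r hr).2.2)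
    have e5 := (SpecC K P).add_mem e3 e4
    rw [g1, Multiset.map_add, Multiset.sum_add]
    have h5 := hdeg c hc
    have h6 : Multiset.card B = G₀.rootMultiplicity c + (d c - (Fc₀ c).natDegree) := by omega
    rw [h6, add_smul] at e5
    have h7 : G₀.rootMultiplicity c • f₀ c + (((Fc₀ c).roots.map (fc c)).sum +
        (d c - (Fc₀ c).natDegree) • f₀ c) = ((Fc₀ c).roots.map (fc c)).sum +
        (G₀.rootMultiplicity c • f₀ c + (d c - (Fc₀ c).natDegree) • f₀ c) := by abel
    rw [h7]
    exact e5
  have e3 : (((∑ c ∈ s, F.roots.filter fun r => P.Val r c).map f).sum,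
      ∑ c ∈ s, (G₀.rootMultiplicity c • f₀ c + (((Fc₀ c).roots.map (fc c)).sum +
        (d c - (Fc₀ c).natDegree) • f₀ c))) ∈ SpecC K P := by
    have h3 : (((∑ c ∈ s, F.roots.filter fun r => P.Val r c).map f).sum,
        ∑ c ∈ s, (G₀.rootMultiplicity c • f₀ c + (((Fc₀ c).roots.map (fc c)).sum +
        (d c - (Fc₀ c).natDegree) • f₀ c))) =
        ∑ c ∈ s, (((F.roots.filter fun r => P.Val r c).map f).sum,
          (G₀.rootMultiplicity c • f₀ c + (((Fc₀ c).roots.map (fc c)).sum +
        (d c - (Fc₀ c).natDegree) • f₀ c))) := by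
      refine Prod.ext ?_ (by rw [Prod.snd_sum])
      rw [Prod.fst_sum]
      change ((∑ c ∈ s, F.roots.filter fun r => P.Val r c).map f).sum = _
      have h4 := map_sum (Multiset.mapAddMonoidHom f) (fun c => F.roots.filter fun r => P.Val r c) s
      have h5 : ((∑ c ∈ s, F.roots.filter fun r => P.Val r c).map f) =
          ∑ c ∈ s, (F.roots.filter fun r => P.Val r c).map f := h4
      rw [h5]
      exact map_sum (Multiset.sumAddMonoidHom) _ s
    rw [h3]
    exact (SpecC K P).sum_mem e2
  have e4 := (SpecC K P).add_mem e1 e3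
  have e5 : (G₀.roots.map f₀).sum +
      ∑ c ∈ s, (((Fc₀ c).roots.map (fc c)).sum + (d c - (Fc₀ c).natDegree) • f₀ c) =
      ((G₀.roots.filter fun a => a ∉ s).map f₀).sum +
      ∑ c ∈ s, (G₀.rootMultiplicity c • f₀ c + (((Fc₀ c).roots.map (fc c)).sum +
        (d c - (Fc₀ c).natDegree) • f₀ c)) := by
    rw [roots_split_off (G₀ := G₀) s f₀, add_assoc, ← Finset.sum_add_distrib]
  rw [e5]
  exact e4

end bl

end Vale.Agent.P297.H637
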