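import Vale.Agent.P297.H279.Spec
import Vale.Agent.P297.H637.BL2

/-!
Degenerate members of natural families of cycles, in terms of specialisations of cycles.
-/

set_option linter.unusedSectionVars false
set_option linter.style.haveILetI false

open IntermediateField Polynomial

namespace Vale.Agent.P297.H637

open Vale.Agent.P297 Vale.Agent.P297.Gen Vale.Agent.P297.H839 Vale.Agent.P297.H729
open Vale.Agent.P297.H72 Vale.Agent.P297.H521 Vale.Agent.P297.H516 Vale.Agent.P297.H279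

/-- **Degenerate members of natural families**, in terms of specialisations of cycles: if the
member of the natural family `V` with parameters infinitely near to the arbitrary parameters `v₀`
specialises to the cycle `W`, then `W` is equivalent to every generic member. -/
theorem multi_specC {K : Type} [Field K] [Algebra ℂ K] {r n : ℕ} {m : ℤ}
    (V : ∀ (L : Type) [Field L] [Algebra ℂ L] [IsAlgClosed L],
      (Fin r → L) → (Fin n → L) → ((K →ₐ[ℂ] L) →₀ ℤ))
    (hnat : ∀ (L L' : Type) [Field L] [Algebra ℂ L] [IsAlgClosed L] [Field L'] [Algebra ℂ L']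
      [IsAlgClosed L'] (g : L →ₐ[ℂ] L') (c : Fin r → L) (v : Fin n → L),
      Finsupp.mapDomain (fun φ : K →ₐ[ℂ] L => g.comp φ) (V L c v) =
        V L' (fun i => g (c i)) (fun i => g (v i)))
    {N : Type} [Field N] [Algebra ℂ N] [IsAlgClosed N] (c : Fin r → N) (v₀ w : Fin n → N)
    (W : (K →ₐ[ℂ] N) →₀ ℤ)
    (H : ∀ (N₁ : Type) [Field N₁] [Algebra ℂ N₁] [Algebra N N₁] [IsScalarTower ℂ N N₁]
      [IsAlgClosed N₁] (P : Plc N N₁) (l : N₁) (y : Fin n → N₁), l ≠ 0 → P.Val l 0 →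
      (∀ i, P.Val (y i) (w i)) → Free (img N N₁) (fun i => algebraMap N N₁ (v₀ i) + l * y i) →
      (V N₁ (fun i => algebraMap N N₁ (c i)) (fun i => algebraMap N N₁ (v₀ i) + l * y i), W) ∈
        SpecC K P)
    {F : IntermediateField ℂ N} (hc : ∀ i, c i ∈ F) {v : Fin n → N} (hv : Free F v) :
    W - V N c v ∈ Rel m K N := by
  classical
  obtain ⟨N₁, _, _, _, _, _, P, l, y, hl0, hl, hy, hfree⟩ := exists_dir_plc N v₀ w
  let j : N →ₐ[ℂ] N₁ := IsScalarTower.toAlgHom ℂ N N₁
  have hV := H N₁ P l y hl0 hl hy hfree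
  set u : Fin n → N₁ := fun i => algebraMap N N₁ (v₀ i) + l * y i with hu
  have hjm : ∀ y, j y ∈ img N N₁ := fun y => mem_img.2 ⟨y, rfl⟩
  have h1 : V N₁ (fun i => j (c i)) u - V N₁ (fun i => j (c i)) (fun i => j (v i)) ∈
      Rel m K N₁ := by
    refine multi_const (K := K) (m := m) (F.map j) (fun w => V N₁ (fun i => j (c i)) w) ?_ ?_
      (free_map j hv)
    · intro g hg w
      rw [hnat N₁ N₁ g.toAlgHom]
      congr 1
      funext i
      exact hg _ ⟨c i, hc i, rfl⟩
    · intro i hi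
      refine hfree i (clo_mono ?_ le_rfl hi)
      rintro _ ⟨y, -, rfl⟩
      exact hjm y
  rw [← hnat N N₁ j c v] at h1
  exact SpecC.rel (P := P) ((SpecC K P).sub_mem hV (SpecC.const (P := P) (V N c v))) h1

/-- **Infinitesimals**: one infinitesimal `l` and `n` further ones, independent over `N(l)`. -/
theorem exists_inf (N : Type) [Field N] [Algebra ℂ N] [IsAlgClosed N] (n : ℕ) :
    ∃ (N₁ : Type) (_ : Field N₁) (_ : Algebra ℂ N₁) (_ : Algebra N N₁)
      (_ : IsScalarTower ℂ N N₁) (_ : IsAlgClosed N₁) (P : Plc N N₁) (l : N₁) (e : Fin n → N₁)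
      (M : IntermediateField ℂ N₁), l ≠ 0 ∧ P.Val l 0 ∧ (∀ i, P.Val (e i) 0) ∧
        img N N₁ ≤ M ∧ l ∈ M ∧ Free M e := by
  obtain ⟨P, hP⟩ := exists_eps (N := N) 0
  obtain ⟨N₁, _, _, _, _, _, P', e, he, hind⟩ := exists_big_plc (EpsField N) n
  letI : Algebra N N₁ :=
    ((algebraMap (EpsField N) N₁).comp (algebraMap N (EpsField N))).toAlgebra
  haveI : IsScalarTower N (EpsField N) N₁ := IsScalarTower.of_algebraMap_eq fun _ => rfl
  haveI : IsScalarTower ℂ N N₁ := IsScalarTower.of_algebraMap_eq fun c => by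
    rw [IsScalarTower.algebraMap_apply ℂ (EpsField N) N₁,
      IsScalarTower.algebraMap_apply ℂ N (EpsField N),
      IsScalarTower.algebraMap_apply N (EpsField N) N₁]
  let j : EpsField N →ₐ[ℂ] N₁ := IsScalarTower.toAlgHom ℂ (EpsField N) N₁
  have hjm : ∀ y, j y ∈ img (EpsField N) N₁ := fun y => mem_img.2 ⟨y, rfl⟩
  have hl0 : epsVar N ≠ 0 := by
    intro h0
    apply epsVar_transcendental N
    rw [h0]
    exact isAlgebraic_zero
  refine ⟨N₁, inferInstance, inferInstance, inferInstance, inferInstance, inferInstance,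
    H279.comp P P', j (epsVar N), e, img (EpsField N) N₁, (map_ne_zero j).2 hl0, ?_, fun i => ?_,
    ?_, hjm _, hind⟩
  · exact comp_val P P' (P'.val_const _) hP
  · exact comp_val P P' (he i) P.val_zero
  · intro y hy
    obtain ⟨a, rfl⟩ := mem_img.1 hy
    exact hjm _

theorem free_dir {N N₁ : Type} [Field N] [Algebra ℂ N] [Field N₁] [Algebra ℂ N₁] [Algebra N N₁]
    [IsScalarTower ℂ N N₁] [IsAlgClosed N₁] {n : ℕ} {M : IntermediateField ℂ N₁} (hM : img N N₁ ≤ M) {l : N₁}
    (hl : l ∈ M) (hl0 : l ≠ 0) {e : Fin n → N₁} (he : Free M e) (v₀ w : Fin n → N) :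
    Free (img N N₁) (fun i => algebraMap N N₁ (v₀ i) + l * (algebraMap N N₁ (w i) + e i)) := by
  intro i hi
  apply he i
  set A := clo M (e '' {i}ᶜ) with hA
  have hNA : ∀ y, algebraMap N N₁ y ∈ A := fun y => le_clo _ _ (hM (mem_img.2 ⟨y, rfl⟩))
  have hlA : l ∈ A := le_clo _ _ hl
  have h1 : clo (img N N₁) ((fun i => algebraMap N N₁ (v₀ i) +
      l * (algebraMap N N₁ (w i) + e i)) '' {i}ᶜ) ≤ A := by
    refine clo_le (clo_closed _ _) (hM.trans (le_clo _ _)) ?_
    rintro _ ⟨k, hk, rfl⟩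
    exact add_mem (hNA _) (mul_mem hlA (add_mem (hNA _) (subset_clo _ _ ⟨k, hk, rfl⟩)))
  have h2 := sub_mem (div_mem (sub_mem (h1 hi) (hNA (v₀ i))) hlA) (hNA (w i))
  have h3 : (algebraMap N N₁ (v₀ i) + l * (algebraMap N N₁ (w i) + e i) -
      algebraMap N N₁ (v₀ i)) / l - algebraMap N N₁ (w i) = e i := by
    rw [add_sub_cancel_left, mul_div_cancel_left₀ _ hl0, add_sub_cancel_left]
  rwa [h3] at h2

/-- **Two degenerate members of a natural family are equivalent** (no condition on the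
transcendence degree of `N`). -/
theorem multi_specC2 {K : Type} [Field K] [Algebra ℂ K] {r n : ℕ} {m : ℤ}
    (V : ∀ (L : Type) [Field L] [Algebra ℂ L] [IsAlgClosed L],
      (Fin r → L) → (Fin n → L) → ((K →ₐ[ℂ] L) →₀ ℤ))
    (hnat : ∀ (L L' : Type) [Field L] [Algebra ℂ L] [IsAlgClosed L] [Field L'] [Algebra ℂ L']
      [IsAlgClosed L'] (g : L →ₐ[ℂ] L') (c : Fin r → L) (v : Fin n → L),
      Finsupp.mapDomain (fun φ : K →ₐ[ℂ] L => g.comp φ) (V L c v) =
        V L' (fun i => g (c i)) (fun i => g (v i)))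
    {N : Type} [Field N] [Algebra ℂ N] [IsAlgClosed N] (c : Fin r → N) (v₀ w v₀' w' : Fin n → N)
    (W W' : (K →ₐ[ℂ] N) →₀ ℤ)
    (H : ∀ (N₁ : Type) [Field N₁] [Algebra ℂ N₁] [Algebra N N₁] [IsScalarTower ℂ N N₁]
      [IsAlgClosed N₁] (P : Plc N N₁) (l : N₁) (y : Fin n → N₁), l ≠ 0 → P.Val l 0 →
      (∀ i, P.Val (y i) (w i)) → Free (img N N₁) (fun i => algebraMap N N₁ (v₀ i) + l * y i) →
      (V N₁ (fun i => algebraMap N N₁ (c i)) (fun i => algebraMap N N₁ (v₀ i) + l * y i), W) ∈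
        SpecC K P)
    (H' : ∀ (N₁ : Type) [Field N₁] [Algebra ℂ N₁] [Algebra N N₁] [IsScalarTower ℂ N N₁]
      [IsAlgClosed N₁] (P : Plc N N₁) (l : N₁) (y : Fin n → N₁), l ≠ 0 → P.Val l 0 →
      (∀ i, P.Val (y i) (w' i)) →
      Free (img N N₁) (fun i => algebraMap N N₁ (v₀' i) + l * y i) →
      (V N₁ (fun i => algebraMap N N₁ (c i)) (fun i => algebraMap N N₁ (v₀' i) + l * y i), W') ∈
        SpecC K P) :
    W - W' ∈ Rel m K N := by
  classical
  obtain ⟨N₁, _, _, _, _, _, P, l, e, M, hl0, hl, he, hM, hlM, hfree⟩ := exists_inf N n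
  have hval : ∀ (w : Fin n → N) (i : Fin n), P.Val (algebraMap N N₁ (w i) + e i) (w i) := by
    intro w i
    have h1 := (P.val_const (w i)).add (he i)
    rwa [add_zero] at h1
  have hu := free_dir hM hlM hl0 hfree v₀ w
  have hu' := free_dir hM hlM hl0 hfree v₀' w'
  have h1 := H N₁ P l (fun i => algebraMap N N₁ (w i) + e i) hl0 hl (hval w) hu
  have h2 := H' N₁ P l (fun i => algebraMap N N₁ (w' i) + e i) hl0 hl (hval w') hu'
  have h3 : V N₁ (fun i => algebraMap N N₁ (c i))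
        (fun i => algebraMap N N₁ (v₀ i) + l * (algebraMap N N₁ (w i) + e i)) -
      V N₁ (fun i => algebraMap N N₁ (c i))
        (fun i => algebraMap N N₁ (v₀' i) + l * (algebraMap N N₁ (w' i) + e i)) ∈
        Rel m K N₁ := by
    refine multi_const (K := K) (m := m) (img N N₁)
      (fun w => V N₁ (fun i => algebraMap N N₁ (c i)) w) ?_ hu hu'
    intro g hg w
    rw [hnat N₁ N₁ g.toAlgHom]
    congr 1
    funext i
    exact hg _ (mem_img.2 ⟨c i, rfl⟩)
  exact SpecC.rel (P := P) ((SpecC K P).sub_mem h1 h2) h3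

end Vale.Agent.P297.H637
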