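import Vale.Agent.P297.H637.LinkA

/-!
The degeneration of the family of the sections of the members of the pencil to a chord and three
rational curves.
-/

set_option linter.unusedSectionVars false
set_option linter.style.haveILetI false
set_option linter.unusedSimpArgs false

open Polynomial

namespace Vale.Agent.P297.H637

open Vale.Agent.P297 Vale.Agent.P297.H72 Vale.Agent.P297.H279 Vale.Agent.P297.Gen
open Vale.Agent.P297.H777

/-- The data of a chord of a member of the pencil. -/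
structure ChordDat {N : Type} [Field N] [Algebra ℂ N] (P : H288.Par) (δ : N) (v : Fin 3 → N)
    (x z : Fin 4 → N) (q : N) (r : Fin 3 → N) (c D0 κ lc bx bz : N) (β : Fin 3 → N) : Prop where
  c0 : c ≠ 0
  q0 : q ≠ 0
  q1 : 1 + q ≠ 0
  vr1 : D0 + q * c * r 1 = v 1
  vr2 : D0 + q * c * r 2 = v 2
  κ0 : κ ≠ 0
  eqA : pA P ![δ, v 0, v 1, v 2] ![q, r 0, r 1, r 2] = C κ * ∏ k, (X - C (β k))
  eqB : pB P ![δ, v 0, v 1, v 2] ![q, r 0, r 1, r 2] =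
    (C D0 + C (q * c) * X) * pA P ![δ, v 0, v 1, v 2] ![q, r 0, r 1, r 2]
  eqG1 : pG1 P ![δ, v 0, v 1, v 2] ![q, r 0, r 1, r 2] =
    C (q * c) * pA P ![δ, v 0, v 1, v 2] ![q, r 0, r 1, r 2]
  eqG2 : pG2 P ![δ, v 0, v 1, v 2] ![q, r 0, r 1, r 2] =
    C (q * c) * pA P ![δ, v 0, v 1, v 2] ![q, r 0, r 1, r 2]
  lc0 : lc ≠ 0
  eqS : pS P ![δ, v 0, v 1, v 2] ![q, r 0, r 1, r 2] =
    C lc * ((X - C bx) * (X - C bz)) * (∏ k, (X - C (β k))) ^ 6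
  xe : x = chart δ (-(c ^ 2 * (1 + q)) * (bx - r 0)) bx (D0 + q * c * bx) (c ^ 3)
  ze : z = chart δ (-(c ^ 2 * (1 + q)) * (bz - r 0)) bz (D0 + q * c * bz) (c ^ 3)
  βF : ∀ k, β k - δ ∉ Gen.cl0 ({δ} : Set N)
  βr : ∀ k i, β k ≠ r i

section

variable {K N : Type} [Field K] [Algebra ℂ K] [Field N] [Algebra ℂ N] [IsAlgClosed N]
  {Pr : H288.Par} {x₀ : Fin 4 → K} {δ : N} {v : Fin 3 → N} {x z : Fin 4 → N} {q : N} {r : Fin 3 → N}
  {c D0 κ lc bx bz : N} {β : Fin 3 → N}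

/-- The gradients of the chord. -/
theorem ChordDat.pA_eval (h : ChordDat Pr δ v x z q r c D0 κ lc bx bz β) (k : Fin 3) :
    fA Pr ![δ, v 0, v 1, v 2] ![q, r 0, r 1, r 2] (β k) = 0 := by
  rw [← eval_pA, h.eqA, eval_mul, eval_prod]
  refine mul_eq_zero_of_right _ (Finset.prod_eq_zero (Finset.mem_univ k) ?_)
  rw [eval_sub, eval_X, eval_C, sub_self]

theorem ChordDat.pB_eval (h : ChordDat Pr δ v x z q r c D0 κ lc bx bz β) (k : Fin 3) :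
    fB Pr ![δ, v 0, v 1, v 2] ![q, r 0, r 1, r 2] (β k) = 0 := by
  rw [← eval_pB, h.eqB, eval_mul, eval_pA, h.pA_eval k, mul_zero]

theorem ChordDat.lab (h : ChordDat Pr δ v x z q r c D0 κ lc bx bz β)
    (he0 : ∀ X : N, e0 Pr δ X = (X - v 0) * (X - v 1) * (X - v 2)) (k : Fin 3) :
    H288.Lab Pr δ (β k - δ) (fun i => v i - δ) (nn Pr δ q r (β k)) :=
  lab_nn h.q0 h.q1 he0 (h.βr k 0) (h.βr k 1) (h.βr k 2) (h.pA_eval k) (h.pB_eval k)

theorem exists_vec3 {α : Type} (a b c : α) : ∃ g : Fin 3 → α, g 0 = a ∧ g 1 = b ∧ g 2 = c :=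
  ⟨![a, b, c], rfl, rfl, rfl⟩

theorem exists_vec4 {α : Type} (a b c d : α) :
    ∃ g : Fin 4 → α, g 0 = a ∧ g 1 = b ∧ g 2 = c ∧ g 3 = d :=
  ⟨![a, b, c, d], rfl, rfl, rfl, rfl⟩

theorem e0_sym (he0 : ∀ X : N, e0 Pr δ X = (X - v 0) * (X - v 1) * (X - v 2)) :
    v 0 + v 1 + v 2 = 0 ∧ v 0 * v 1 + v 1 * v 2 + v 2 * v 0 = -m4 Pr δ ∧
      v 0 * v 1 * v 2 = m2 Pr δ := by
  haveI := H288.charZeroC N
  have c0 := he0 0
  have c1 := he0 1
  have c2 := he0 (-1)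
  have s1 : v 0 + v 1 + v 2 = 0 := by
    have h3 : (2 : N) ≠ 0 := two_ne_zero
    unfold e0 at c0 c1 c2
    have : 2 * (v 0 + v 1 + v 2) = 0 := by linear_combination c1 + c2 - 2 * c0
    exact (mul_eq_zero.1 this).resolve_left h3
  have s3 : v 0 * v 1 * v 2 = m2 Pr δ := by
    unfold e0 at c0
    linear_combination c0
  refine ⟨s1, ?_, s3⟩
  unfold e0 at c1
  linear_combination -c1 + s3 + s1

theorem e0_map {N₁ : Type} [Field N₁] [Algebra ℂ N₁] (f : N →ₐ[ℂ] N₁)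
    (he0 : ∀ X : N, e0 Pr δ X = (X - v 0) * (X - v 1) * (X - v 2)) (X : N₁) :
    e0 Pr (f δ) X = (X - f (v 0)) * (X - f (v 1)) * (X - f (v 2)) := by
  obtain ⟨s1, s2, s3⟩ := e0_sym he0
  have t1 := congrArg f s1
  have t2 := congrArg f s2
  have t3 := congrArg f s3
  rw [map_zero] at t1
  rw [map_neg, map_m4] at t2
  rw [map_m2] at t3
  simp only [map_add, map_mul] at t1 t2 t3
  unfold e0
  linear_combination X ^ 2 * t1 - X * t2 + t3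

section sec

variable {N₁ : Type} [Field N₁] [Algebra ℂ N₁] [Algebra N N₁] [IsScalarTower ℂ N N₁]
  {P : Plc N N₁} {c₁ g₁ : Fin 4 → N₁}

/-- **The points of the family near a point.** -/
theorem sec_specC (hx₀ : H288.IsFF Pr x₀) {q δ r0 : N} (hq : q ≠ 0)
    (hc0 : P.Val (c₁ 0) δ) (hg0 : P.Val (g₁ 0) q) (hg1 : P.Val (g₁ 1) r0)
    (hv₁ : ∀ X : N₁, e0 Pr (c₁ 0) X = (X - c₁ 1) * (X - c₁ 2) * (X - c₁ 3)) {t : N₁} {a : N}
    (ht : P.Val t a) (hS : fS Pr c₁ g₁ t = 0) {κ' : N₁} (hκ' : κ' ≠ 0) {z : Fin 4 → N₁}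
    {ζ : Fin 4 → N} (hA : fA Pr c₁ g₁ t = κ' * z 0) (hB : fB Pr c₁ g₁ t = κ' * z 1)
    (hG1 : fG1 Pr c₁ g₁ t = κ' * z 2) (hG2 : fG2 Pr c₁ g₁ t = κ' * z 3)
    (hz : ∀ i, P.Val (z i) (ζ i)) (hζ0 : ζ 0 ≠ 0) {aL tL : N}
    (haL : -((1 + q) * (a - r0) * (ζ 2 * ζ 3)) / (q ^ 2 * ζ 0 ^ 2) = aL)
    (htL : ζ 2 ^ 2 * ζ 3 / (q ^ 3 * ζ 0 ^ 3) = tL) (htL0 : tL ≠ 0)
    (hgen : H288.GenS Pr (chart δ aL a (ζ 1 / ζ 0) tL)) :
    (H288.pt x₀ (oo Pr c₁ g₁ t), H288.pt x₀ (chart δ aL a (ζ 1 / ζ 0) tL)) ∈ SpecC K P := by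
  have hz0 : z 0 ≠ 0 := (hz 0).ne_zero hζ0
  have hq₁ : g₁ 0 ≠ 0 := hg0.ne_zero hq
  have hA0 : fA Pr c₁ g₁ t ≠ 0 := by
    rw [hA]
    exact mul_ne_zero hκ' hz0
  have ea : oa Pr c₁ g₁ t = -((1 + g₁ 0) * (t - g₁ 1) * (z 2 * z 3)) * (g₁ 0 ^ 2 * z 0 ^ 2)⁻¹ := by
    unfold oa
    rw [hA, hG1, hG2]
    field_simp
  have et : ot Pr c₁ g₁ t = z 2 ^ 2 * z 3 * (g₁ 0 ^ 3 * z 0 ^ 3)⁻¹ := by
    unfold ot
    rw [hA, hG1, hG2]
    field_simp
  have eb : fB Pr c₁ g₁ t / fA Pr c₁ g₁ t = z 1 * (z 0)⁻¹ := by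
    rw [hA, hB, mul_div_mul_left _ _ hκ', div_eq_mul_inv]
  have va : P.Val (oa Pr c₁ g₁ t) aL := by
    rw [ea, ← haL, div_eq_mul_inv]
    exact (((P.val_one.add hg0).mul (ht.sub hg1)).mul ((hz 2).mul (hz 3))).neg.mul
      (((hg0.pow 2).mul ((hz 0).pow 2)).inv (mul_ne_zero (pow_ne_zero _ hq) (pow_ne_zero _ hζ0)))
  have vt : P.Val (ot Pr c₁ g₁ t) tL := by
    rw [et, ← htL, div_eq_mul_inv]
    exact (((hz 2).pow 2).mul (hz 3)).mul
      (((hg0.pow 3).mul ((hz 0).pow 3)).inv (mul_ne_zero (pow_ne_zero _ hq) (pow_ne_zero _ hζ0)))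
  have vb : P.Val (fB Pr c₁ g₁ t / fA Pr c₁ g₁ t) (ζ 1 / ζ 0) := by
    rw [eb, div_eq_mul_inv]
    exact (hz 1).mul ((hz 0).inv hζ0)
  have ht0 : ot Pr c₁ g₁ t ≠ 0 := vt.ne_zero htL0
  obtain ⟨hA', hB'⟩ := oo_on Pr hS hA0 hq₁ ht0 hv₁
  refine H521.specC_pt hx₀ hA' hB' ?_ hgen
  intro j
  fin_cases j
  · exact (ht.add vb).add hc0
  · exact (va.add vb).sub hc0
  · change P.Val (t + oa Pr c₁ g₁ t / ot Pr c₁ g₁ t - c₁ 0) (a + aL / tL - δ)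
    rw [div_eq_mul_inv, div_eq_mul_inv]
    exact (ht.add (va.mul (vt.inv htL0))).sub hc0
  · exact vt

end sec

/-- **The specialisation of the family to a chord and three rational curves.** -/
theorem ChordDat.specC (hx₀ : H288.IsFF Pr x₀)
    (h : ChordDat Pr δ v x z q r c D0 κ lc bx bz β)
    (he0 : ∀ X : N, e0 Pr δ X = (X - v 0) * (X - v 1) * (X - v 2)) (hδ : Transcendental ℂ δ)
    (hx : H288.GenS Pr x) (hz : H288.GenS Pr z)
    {N₁ : Type} [Field N₁] [Algebra ℂ N₁] [Algebra N N₁] [IsScalarTower ℂ N N₁] [IsAlgClosed N₁]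
    {P : Plc N N₁} {l : N₁} {y : Fin 4 → N₁} {w : Fin 4 → N} (hl0 : l ≠ 0) (hl : P.Val l 0)
    (hy : ∀ i, P.Val (y i) (w i)) {c₁ g₁ : Fin 4 → N₁}
    (hc₁ : c₁ = fun i => algebraMap N N₁ ((![δ, v 0, v 1, v 2] : Fin 4 → N) i))
    (hg₁ : g₁ = fun i => algebraMap N N₁ ((![q, r 0, r 1, r 2] : Fin 4 → N) i) + l * y i)
    {R : Fin 4 → N₁[X]} {R₀ : Fin 4 → N[X]} (hR : ∀ i, PVal P (R i) (R₀ i))
    (hRA : pA Pr c₁ g₁ = (pA Pr ![δ, v 0, v 1, v 2] ![q, r 0, r 1, r 2]).map (algebraMap N N₁) +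
      C l * R 0)
    (hRB : pB Pr c₁ g₁ = (pB Pr ![δ, v 0, v 1, v 2] ![q, r 0, r 1, r 2]).map (algebraMap N N₁) +
      C l * R 1)
    (hRG1 : pG1 Pr c₁ g₁ = (pG1 Pr ![δ, v 0, v 1, v 2] ![q, r 0, r 1, r 2]).map
      (algebraMap N N₁) + C l * R 2)
    (hRG2 : pG2 Pr c₁ g₁ = (pG2 Pr ![δ, v 0, v 1, v 2] ![q, r 0, r 1, r 2]).map
      (algebraMap N N₁) + C l * R 3)
    (hR1 : ∀ k, (β k - r 1) * (R₀ 2).eval (β k) =
      (R₀ 1).eval (β k) - v 1 * (R₀ 0).eval (β k))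
    (hR2 : ∀ k, (β k - r 2) * (R₀ 3).eval (β k) =
      (R₀ 1).eval (β k) - v 2 * (R₀ 0).eval (β k))
    (hdet : ∀ k, (D0 + q * c * β k) * (R₀ 0).eval (β k) - (R₀ 1).eval (β k) ≠ 0) :
    (H279.fam Pr x₀ c₁ g₁, H288.pt x₀ x + H288.pt x₀ z +
      ∑ k, H288.Bsig Pr x₀ δ (β k - δ) (fun i => v i - δ) (nn Pr δ q r (β k))) ∈
      SpecC K P := by
  classical
  have hq := h.q0
  have hq1 := h.q1
  have hc := h.c0
  have hα : q * c ≠ 0 := mul_ne_zero hq hc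
  have hirr := hx₀.irr
  set cv : Fin 4 → N := ![δ, v 0, v 1, v 2] with hcv
  set gv : Fin 4 → N := ![q, r 0, r 1, r 2] with hgv
  have hgval : ∀ i, P.Val (g₁ i) (gv i) := by
    intro i
    rw [hg₁]
    have h1 := (P.val_const (gv i)).add (hl.mul (hy i))
    rwa [zero_mul, add_zero] at h1
  have hcval : ∀ i, P.Val (c₁ i) (cv i) := by
    intro i
    rw [hc₁]
    exact P.val_const _
  have hq₁ : g₁ 0 ≠ 0 := (hgval 0).ne_zero hq
  have hv₁ : ∀ X : N₁, e0 Pr (c₁ 0) X = (X - c₁ 1) * (X - c₁ 2) * (X - c₁ 3) := by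
    intro X
    rw [hc₁]
    exact e0_map (IsScalarTower.toAlgHom ℂ N N₁) he0 X
  obtain ⟨u, hu0, hu1, hu2⟩ : ∃ u : Fin 3 → N₁, u 0 = c₁ 0 ∧ u 1 = g₁ 0 ∧ u 2 = g₁ 1 :=
    exists_vec3 _ _ _
  obtain ⟨u₀, hv0, hv1, hv2⟩ : ∃ u₀ : Fin 3 → N, u₀ 0 = δ ∧ u₀ 1 = q ∧ u₀ 2 = r 0 :=
    exists_vec3 _ _ _
  have huv : ∀ i, P.Val (u i) (u₀ i) := by
    intro i
    fin_cases i
    · change P.Val (u 0) (u₀ 0)
      rw [hu0, hv0]
      exact hcval 0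
    · change P.Val (u 1) (u₀ 1)
      rw [hu1, hv1]
      exact hgval 0
    · change P.Val (u 2) (u₀ 2)
      rw [hu2, hv2]
      exact hgval 1
  obtain ⟨g, ga, gb, gc, gd⟩ : ∃ g : Fin 4 → N₁[X], g 0 = pA Pr c₁ g₁ ∧ g 1 = pB Pr c₁ g₁ ∧
      g 2 = pG1 Pr c₁ g₁ ∧ g 3 = pG2 Pr c₁ g₁ :=
    exists_vec4 _ _ _ _
  obtain ⟨g₀, g₀a, g₀b, g₀c, g₀d⟩ : ∃ g₀ : Fin 4 → N[X], g₀ 0 = pA Pr cv gv ∧
      g₀ 1 = pB Pr cv gv ∧ g₀ 2 = pG1 Pr cv gv ∧ g₀ 3 = pG2 Pr cv gv :=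
    exists_vec4 _ _ _ _
  obtain ⟨lam, lama, lamb, lamc, lamd⟩ : ∃ lam : Fin 4 → N[X], lam 0 = 1 ∧
      lam 1 = C D0 + C (q * c) * X ∧ lam 2 = C (q * c) ∧ lam 3 = C (q * c) :=
    exists_vec4 _ _ _ _
  have hgR : ∀ i, g i = (g₀ i).map (algebraMap N N₁) + C l * R i := by
    intro i
    fin_cases i
    · change g 0 = (g₀ 0).map _ + C l * R 0
      rw [ga, g₀a]
      exact hRA
    · change g 1 = (g₀ 1).map _ + C l * R 1
      rw [gb, g₀b]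
      exact hRB
    · change g 2 = (g₀ 2).map _ + C l * R 2
      rw [gc, g₀c]
      exact hRG1
    · change g 3 = (g₀ 3).map _ + C l * R 3
      rw [gd, g₀d]
      exact hRG2
  have hg₀l : ∀ i, g₀ i = lam i * pA Pr cv gv := by
    intro i
    fin_cases i
    · change g₀ 0 = lam 0 * _
      rw [g₀a, lama, one_mul]
    · change g₀ 1 = lam 1 * _
      rw [g₀b, lamb]
      exact h.eqB
    · change g₀ 2 = lam 2 * _
      rw [g₀c, lamc]
      exact h.eqG1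
    · change g₀ 3 = lam 3 * _
      rw [g₀d, lamd]
      exact h.eqG2
  have hF : (SF Pr).Φ N₁[X] (fun i => C (u i)) X g = pS Pr c₁ g₁ := by
    change phiH Pr (C (u 0)) (C (u 1)) (C (u 2)) X (g 0) (g 1) (g 2) (g 3) = _
    rw [hu0, hu1, hu2, ga, gb, gc, gd]
    exact (pS_eq Pr c₁ g₁).symm
  have hF₀ : (SF Pr).Φ N[X] (fun i => C (u₀ i)) X g₀ = pS Pr cv gv := by
    change phiH Pr (C (u₀ 0)) (C (u₀ 1)) (C (u₀ 2)) X (g₀ 0) (g₀ 1) (g₀ 2) (g₀ 3) = _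
    rw [hv0, hv1, hv2, g₀a, g₀b, g₀c, g₀d]
    exact (pS_eq Pr cv gv).symm
  have hG₀ : C lc * ((X - C bx) * (X - C bz)) ≠ (0 : N[X]) :=
    mul_ne_zero (C_ne_zero.2 h.lc0) (mul_ne_zero (X_sub_C_ne_zero _) (X_sub_C_ne_zero _))
  have hG₀d : (C lc * ((X - C bx) * (X - C bz)) : N[X]).natDegree = 2 := by
    rw [natDegree_C_mul h.lc0, natDegree_mul (X_sub_C_ne_zero _) (X_sub_C_ne_zero _),
      natDegree_X_sub_C, natDegree_X_sub_C]
  have hl1 : ∀ k, (β k - r 1) * (lam 2).eval (β k) = (lam 1).eval (β k) - v 1 := by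
    intro k
    rw [lamb, lamc, eval_C, eval_add, eval_C, eval_mul, eval_C, eval_X, ← h.vr1]
    ring
  have hl2 : ∀ k, (β k - r 2) * (lam 3).eval (β k) = (lam 1).eval (β k) - v 2 := by
    intro k
    rw [lamb, lamd, eval_C, eval_add, eval_C, eval_mul, eval_C, eval_X, ← h.vr2]
    ring
  have hlam1 : ∀ k, (lam 1).eval (β k) = D0 + q * c * β k := by
    intro k
    rw [lamb, eval_add, eval_C, eval_mul, eval_C, eval_X]
  have hlab := fun k => h.lab he0 k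
  have hcl := Gen.cl0_closed ({δ} : Set N)
  have hδF : δ ∈ Gen.cl0 ({δ} : Set N) := Gen.subset_cl0 _ (Set.mem_singleton δ)
  have hd6 : ∀ k, (H288.P6 Pr δ (β k - δ) (fun i => v i - δ) (nn Pr δ q r (β k))).natDegree = 6 :=
    fun k => (hlab k).P6_natDegree hcl hδF (fun i => (hlab k).w_mem hcl hδF i) (h.βF k)
  have hQd : ∀ k, (QQ Pr δ q v r (β k)).natDegree = 6 := fun k => QQ_natDegree (hd6 k)
  have hn0 : ∀ k, nn Pr δ q r (β k) 0 ≠ 0 := fun k =>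
    nn_zero_ne hq hq1 (h.βr k 0) (h.βr k 1) (h.βr k 2)
  have hn2 : ∀ k, nn Pr δ q r (β k) 2 ≠ 0 := fun k =>
    nn_two_ne hq hq1 (h.βr k 0) (h.βr k 2)
  have hck : ∀ k, ck Pr δ q r (β k) ≠ 0 := fun k =>
    div_ne_zero (pow_ne_zero _ hq) (mul_ne_zero (pow_ne_zero _ (hn0 k)) (pow_ne_zero _ (hn2 k)))
  have hco := H278.coprime_of_irr hirr
  have hQ0 : ∀ k, QQ Pr δ q v r (β k) ≠ 0 := by
    intro k h0
    have h1 := hQd k
    rw [h0, natDegree_zero] at h1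
    exact absurd h1 (by norm_num)
  have hF₀' : (SF Pr).Φ N[X] (fun i => C (u₀ i)) X g₀ =
      C lc * ((X - C bx) * (X - C bz)) * (∏ k, (X - C (β k))) ^ 6 := by
    rw [hF₀, h.eqS]
  have hdeg : ((SF Pr).Φ N₁[X] (fun i => C (u i)) X g).natDegree ≤
      (C lc * ((X - C bx) * (X - C bz)) : N[X]).natDegree + 6 * 3 := by
    rw [hF, hG₀d]
    exact natDegree_pS Pr c₁ g₁
  have hQe : ∀ k (ζ : Fin 4 → N), ζ 0 ≠ 0 → (β k - r 1) * ζ 2 = ζ 1 - v 1 * ζ 0 →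
      (β k - r 2) * ζ 3 = ζ 1 - v 2 * ζ 0 → (SF Pr).Φ N u₀ (β k) ζ =
        ζ 0 ^ 6 * (ck Pr δ q r (β k) * (QQ Pr δ q v r (β k)).eval (ζ 1 / ζ 0)) := by
    intro k ζ h0 h1 h2
    change phiH Pr (u₀ 0) (u₀ 1) (u₀ 2) (β k) (ζ 0) (ζ 1) (ζ 2) (ζ 3) = _
    rw [hv0, hv1, hv2]
    exact phiH_centre hq hq1 (h.βr k 0) (h.βr k 1) (h.βr k 2) h0 h1 h2
  have hdet' : ∀ k, (lam 1).eval (β k) * (R₀ 0).eval (β k) - (R₀ 1).eval (β k) ≠ 0 := by
    intro k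
    rw [hlam1]
    exact hdet k
  have key := bl_form (K := K) (SF Pr) hl hl0 huv hgR hR hg₀l lama h.κ0 h.eqA hG₀
    hF₀' hdeg hl1 hl2 hR1 hR2
    (Q := QQ Pr δ q v r) (ck := ck Pr δ q r) hQ0 hQd hck hQe hdet'
    (fun t => H288.pt x₀ (oo Pr c₁ g₁ t))
    (fun t => H288.pt x₀ (chart δ (-(c ^ 2 * (1 + q)) * (t - r 0)) t (D0 + q * c * t) (c ^ 3)))
    (fun b d => H288.pt x₀ (H288.Lpt δ (b - δ) (fun i => v i - δ) (nn Pr δ q r b) (d - δ)))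
    ?_ ?_ ?_
  · rw [hF] at key
    have h1 : ((C lc * ((X - C bx) * (X - C bz)) : N[X]).roots.map fun t => H288.pt x₀
        (chart δ (-(c ^ 2 * (1 + q)) * (t - r 0)) t (D0 + q * c * t) (c ^ 3))).sum =
        H288.pt x₀ x + H288.pt x₀ z := by
      rw [roots_C_mul _ h.lc0, roots_mul (mul_ne_zero (X_sub_C_ne_zero _) (X_sub_C_ne_zero _)),
        roots_X_sub_C, roots_X_sub_C, Multiset.map_add, Multiset.map_singleton,
        Multiset.map_singleton, Multiset.sum_add, Multiset.sum_singleton, Multiset.sum_singleton,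
        ← h.xe, ← h.ze]
    have h2 : ∀ k, ((QQ Pr δ q v r (β k)).roots.map fun d => H288.pt x₀
        (H288.Lpt δ (β k - δ) (fun i => v i - δ) (nn Pr δ q r (β k)) (d - δ))).sum =
        H288.Bsig Pr x₀ δ (β k - δ) (fun i => v i - δ) (nn Pr δ q r (β k)) := fun k =>
      QQ_roots (P := Pr) (δ := δ) (q := q) (β := β k) (v := v) (r := r) (fun D => H288.pt x₀
        (H288.Lpt δ (β k - δ) (fun i => v i - δ) (nn Pr δ q r (β k)) D))
    rw [h1, Finset.sum_congr rfl fun k _ => h2 k] at key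
    exact key
  · intro k
    have e1 : (β k - r 1) * (q * c) = (D0 + q * c * β k - v 1) * 1 := by
      rw [← h.vr1]
      ring
    have e2 : (β k - r 2) * (q * c) = (D0 + q * c * β k - v 2) * 1 := by
      rw [← h.vr2]
      ring
    have ha := la_centre (P := Pr) (δ := δ) hq hq1 (h.βr k 0) (h.βr k 1) (h.βr k 2) one_ne_zero
      e1 e2
    have ht := lt_centre (P := Pr) (δ := δ) hq hq1 (h.βr k 0) (h.βr k 1) (h.βr k 2) one_ne_zero
      e1 e2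
    have ha' : -((1 + q) * (β k - r 0) * (q * c * (q * c))) / (q ^ 2 * 1 ^ 2) =
        -(c ^ 2 * (1 + q)) * (β k - r 0) := by
      field_simp
    have ht' : (q * c) ^ 2 * (q * c) / (q ^ 3 * 1 ^ 3) = c ^ 3 := by
      field_simp
    change H288.pt x₀ _ = H288.pt x₀ (H288.crd δ (β k - δ) _ _ _)
    rw [hlam1, ← ha, ← ht, ha', ht', crd_eq_chart]
  · intro t a ht hta hβa ha
    have hA0 : (pA Pr cv gv).eval a ≠ 0 := by
      rw [h.eqA, eval_mul, eval_C, eval_prod]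
      refine mul_ne_zero h.κ0 (Finset.prod_ne_zero_iff.2 fun k _ => ?_)
      rw [eval_sub, eval_X, eval_C]
      exact sub_ne_zero.2 fun h0 => hβa k h0.symm
    have hgv : ∀ i, PVal P (g i) (g₀ i) := by
      intro i
      rw [hgR i]
      have h1 := (PVal.map (P := P) (g₀ i)).add ((PVal.C hl).mul (hR i))
      rwa [C_0, zero_mul, add_zero] at h1
    have e1 : (g₀ 1).eval a = (D0 + q * c * a) * (pA Pr cv gv).eval a := by
      rw [hg₀l 1, lamb, eval_mul, eval_add, eval_C, eval_mul, eval_C, eval_X]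
    have e2 : (g₀ 2).eval a = q * c * (pA Pr cv gv).eval a := by
      rw [hg₀l 2, lamc, eval_mul, eval_C]
    have e3 : (g₀ 3).eval a = q * c * (pA Pr cv gv).eval a := by
      rw [hg₀l 3, lamd, eval_mul, eval_C]
    have e4 : (g₀ 1).eval a / (g₀ 0).eval a = D0 + q * c * a := by
      rw [e1, g₀a, mul_div_cancel_right₀ _ hA0]
    have hab : a = bx ∨ a = bz := by
      rw [eval_mul, eval_C, eval_mul, eval_sub, eval_sub, eval_X, eval_C, eval_C] at ha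
      rcases mul_eq_zero.1 ((mul_eq_zero.1 ha).resolve_left h.lc0) with h1 | h1
      · exact Or.inl (sub_eq_zero.1 h1)
      · exact Or.inr (sub_eq_zero.1 h1)
    have h5 := sec_specC (K := K) (P := P) hx₀ (q := q) (δ := δ) (r0 := r 0) hq (hcval 0) (hgval 0)
      (hgval 1) hv₁ hta (by rw [← eval_pS, ← hF]; exact ht) (κ' := 1) one_ne_zero
      (z := fun i => (g i).eval t) (ζ := fun i => (g₀ i).eval a)
      (by rw [one_mul, ga, eval_pA]) (by rw [one_mul, gb, eval_pB]) (by rw [one_mul, gc, eval_pG1])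
      (by rw [one_mul, gd, eval_pG2]) (fun i => (hgv i).eval hta) (by rw [g₀a]; exact hA0)
      (aL := -(c ^ 2 * (1 + q)) * (a - r 0)) (tL := c ^ 3)
      (by
        rw [e2, e3, g₀a]
        field_simp)
      (by
        rw [e2, e3, g₀a]
        field_simp)
      (pow_ne_zero 3 hc)
      (by
        rw [e4]
        rcases hab with h6 | h6
        · rw [h6, ← h.xe]
          exact hx
        · rw [h6, ← h.ze]
          exact hz)
    rw [e4] at h5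
    exact h5
  · intro k t κ' ζ₁ ζ ht htβ hκ' hgt hζ hζ0 hzero
    have hA := (hgt 0).symm
    rw [ga, eval_pA] at hA
    have hB := (hgt 1).symm
    rw [gb, eval_pB] at hB
    have hG1 := (hgt 2).symm
    rw [gc, eval_pG1] at hG1
    have hG2 := (hgt 3).symm
    rw [gd, eval_pG2] at hG2
    have r1 : (β k - r 1) * ζ 2 = ζ 1 - v 1 * ζ 0 := by
      have h1 := fB_sub_one Pr c₁ g₁ t
      rw [← hA, ← hB, ← hG1] at h1
      have h2 : (t - g₁ 2) * ζ₁ 2 = ζ₁ 1 - c₁ 2 * ζ₁ 0 := by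
        apply mul_left_cancel₀ hκ'
        linear_combination -h1
      have h3 := (htβ.sub (hgval 2)).mul (hζ 2)
      rw [h2] at h3
      exact h3.unique ((hζ 1).sub ((hcval 2).mul (hζ 0)))
    have r2 : (β k - r 2) * ζ 3 = ζ 1 - v 2 * ζ 0 := by
      have h1 := fB_sub_two Pr c₁ g₁ t
      rw [← hA, ← hB, ← hG2] at h1
      have h2 : (t - g₁ 3) * ζ₁ 3 = ζ₁ 1 - c₁ 3 * ζ₁ 0 := by
        apply mul_left_cancel₀ hκ'
        linear_combination -h1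
      have h3 := (htβ.sub (hgval 3)).mul (hζ 3)
      rw [h2] at h3
      exact h3.unique ((hζ 1).sub ((hcval 3).mul (hζ 0)))
    have r1' : (β k - r 1) * ζ 2 = (ζ 1 / ζ 0 - v 1) * ζ 0 := by
      rw [r1, sub_mul, div_mul_cancel₀ _ hζ0]
    have r2' : (β k - r 2) * ζ 3 = (ζ 1 / ζ 0 - v 2) * ζ 0 := by
      rw [r2, sub_mul, div_mul_cancel₀ _ hζ0]
    rw [hQe k ζ hζ0 r1 r2] at hzero
    have hroot := (mul_eq_zero.1 ((mul_eq_zero.1 hzero).resolve_left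
      (pow_ne_zero _ hζ0))).resolve_left (hck k)
    unfold QQ at hroot
    rw [eval_comp, eval_sub, eval_X, eval_C] at hroot
    have hgen := (hlab k).genS_root hirr hδ (h.βF k) hroot
    obtain ⟨-, -, -, ht0, -, -⟩ := (hlab k).root hcl hδF (h.βF k) hco hroot
    have e1 : H288.Lpt δ (β k - δ) (fun i => v i - δ) (nn Pr δ q r (β k)) (ζ 1 / ζ 0 - δ) =
        chart δ (H288.la (fun i => v i - δ) (nn Pr δ q r (β k)) (ζ 1 / ζ 0 - δ)) (β k) (ζ 1 / ζ 0)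
          (H288.lt (fun i => v i - δ) (nn Pr δ q r (β k)) (ζ 1 / ζ 0 - δ)) :=
      crd_eq_chart _ _ _ _ _
    rw [e1] at hgen
    change (_, H288.pt x₀ (H288.Lpt δ (β k - δ) (fun i => v i - δ) (nn Pr δ q r (β k))
      (ζ 1 / ζ 0 - δ))) ∈ SpecC K P
    rw [e1]
    exact sec_specC (K := K) (P := P) hx₀ (q := q) (δ := δ) (r0 := r 0) hq (hcval 0) (hgval 0)
      (hgval 1) hv₁ htβ (by rw [← eval_pS, ← hF]; exact ht) hκ' hA.symm hB.symm hG1.symm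
      hG2.symm hζ hζ0 (la_centre (P := Pr) (δ := δ) hq hq1 (h.βr k 0) (h.βr k 1) (h.βr k 2) hζ0
        r1' r2') (lt_centre (P := Pr) (δ := δ) hq hq1 (h.βr k 0) (h.βr k 1) (h.βr k 2) hζ0
        r1' r2') ht0 hgen

end

end Vale.Agent.P297.H637
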