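import Vale.Agent.P297.H637.Link
import Vale.Agent.P297.H279.Jet
import Vale.Agent.P297.H424.Z3.Asm
import Vale.Agent.P297.H288.ChordDat

/-!
The link between the chords of the members of the pencil and the rational curves.
-/

set_option linter.unusedSectionVars false
set_option linter.style.haveILetI false
set_option linter.unusedSimpArgs false

open Polynomial

namespace Vale.Agent.P297.H637

open Vale.Agent.P297 Vale.Agent.P297.H72 Vale.Agent.P297.H279 Vale.Agent.P297.Gen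
open Vale.Agent.P297.H777 Vale.Agent.P297.H729 Vale.Agent.P297.H839

section

variable {K N : Type} [Field K] [Algebra ℂ K] [Field N] [Algebra ℂ N] [IsAlgClosed N]
  {Pr : H288.Par} {x₀ : Fin 4 → K} {δ : N} {v : Fin 3 → N} {x z : Fin 4 → N} {q : N} {r : Fin 3 → N}
  {c D0 κ lc bx bz : N} {β : Fin 3 → N}

/-- **The specialisation of the family to a chord and three rational curves**, in a direction. -/
theorem ChordDat.specC_dir (hx₀ : H288.IsFF Pr x₀)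
    (h : ChordDat Pr δ v x z q r c D0 κ lc bx bz β)
    (he0 : ∀ X : N, e0 Pr δ X = (X - v 0) * (X - v 1) * (X - v 2)) (hδ : Transcendental ℂ δ)
    (hx : H288.GenS Pr x) (hz : H288.GenS Pr z) {w : Fin 4 → N}
    (hdet : ∀ k, (D0 + q * c * β k) *
      (qA Pr ![δ, v 0, v 1, v 2] ![q, r 0, r 1, r 2] w).eval (β k) -
      (qB Pr ![δ, v 0, v 1, v 2] ![q, r 0, r 1, r 2] w).eval (β k) ≠ 0)
    (N₁ : Type) [Field N₁] [Algebra ℂ N₁] [Algebra N N₁] [IsScalarTower ℂ N N₁] [IsAlgClosed N₁]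
    (P : Plc N N₁) (l : N₁) (y : Fin 4 → N₁) (hl0 : l ≠ 0) (hl : P.Val l 0)
    (hy : ∀ i, P.Val (y i) (w i)) :
    (H279.fam Pr x₀ (fun i => algebraMap N N₁ ((![δ, v 0, v 1, v 2] : Fin 4 → N) i))
      (fun i => algebraMap N N₁ ((![q, r 0, r 1, r 2] : Fin 4 → N) i) + l * y i),
      H288.pt x₀ x + H288.pt x₀ z +
      ∑ k, H288.Bsig Pr x₀ δ (β k - δ) (fun i => v i - δ) (nn Pr δ q r (β k))) ∈
      SpecC K P := by
  obtain ⟨RA, a1, a2⟩ := jet_pA (P := Pr) hl (c := ![δ, v 0, v 1, v 2])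
    (g := ![q, r 0, r 1, r 2]) hy
  obtain ⟨RB, b1, b2⟩ := jet_pB (P := Pr) hl (c := ![δ, v 0, v 1, v 2])
    (g := ![q, r 0, r 1, r 2]) hy
  obtain ⟨R1, c1, c2⟩ := jet_pG1 (P := Pr) hl (c := ![δ, v 0, v 1, v 2])
    (g := ![q, r 0, r 1, r 2]) hy
  obtain ⟨R2, d1, d2⟩ := jet_pG2 (P := Pr) hl (c := ![δ, v 0, v 1, v 2])
    (g := ![q, r 0, r 1, r 2]) hy
  obtain ⟨R, ra, rb, rc, rd⟩ := exists_vec4 RA RB R1 R2
  obtain ⟨R₀, sa, sb, sc, sd⟩ := exists_vec4 (qA Pr ![δ, v 0, v 1, v 2] ![q, r 0, r 1, r 2] w)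
    (qB Pr ![δ, v 0, v 1, v 2] ![q, r 0, r 1, r 2] w)
    (qG1 Pr ![δ, v 0, v 1, v 2] ![q, r 0, r 1, r 2] w)
    (qG2 Pr ![δ, v 0, v 1, v 2] ![q, r 0, r 1, r 2] w)
  have hG1 : ∀ k, fG1 Pr ![δ, v 0, v 1, v 2] ![q, r 0, r 1, r 2] (β k) = 0 := by
    intro k
    rw [← eval_pG1, h.eqG1, eval_mul, eval_pA, h.pA_eval k, mul_zero]
  have hG2 : ∀ k, fG2 Pr ![δ, v 0, v 1, v 2] ![q, r 0, r 1, r 2] (β k) = 0 := by
    intro k
    rw [← eval_pG2, h.eqG2, eval_mul, eval_pA, h.pA_eval k, mul_zero]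
  refine h.specC hx₀ he0 hδ hx hz hl0 hl hy rfl rfl (R := R) (R₀ := R₀) ?_ ?_ ?_ ?_ ?_ ?_ ?_ ?_
  · intro i
    fin_cases i
    · change PVal P (R 0) (R₀ 0)
      rw [ra, sa]
      exact a2
    · change PVal P (R 1) (R₀ 1)
      rw [rb, sb]
      exact b2
    · change PVal P (R 2) (R₀ 2)
      rw [rc, sc]
      exact c2
    · change PVal P (R 3) (R₀ 3)
      rw [rd, sd]
      exact d2
  · rw [ra]
    exact a1
  · rw [rb]
    exact b1
  · rw [rc]
    exact c1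
  · rw [rd]
    exact d1
  · intro k
    rw [sa, sb, sc]
    exact (q_sub_one (hG1 k)).symm
  · intro k
    rw [sa, sb, sd]
    exact (q_sub_two (hG2 k)).symm
  · intro k
    rw [sa, sb]
    exact hdet k

/-- **Two chords.** -/
theorem link_two {m : ℤ} (hx₀ : H288.IsFF Pr x₀)
    (he0 : ∀ X : N, e0 Pr δ X = (X - v 0) * (X - v 1) * (X - v 2)) (hδ : Transcendental ℂ δ)
    (h : ChordDat Pr δ v x z q r c D0 κ lc bx bz β)
    (hx : H288.GenS Pr x) (hz : H288.GenS Pr z) {w : Fin 4 → N}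
    (hdet : ∀ k, (D0 + q * c * β k) *
      (qA Pr ![δ, v 0, v 1, v 2] ![q, r 0, r 1, r 2] w).eval (β k) -
      (qB Pr ![δ, v 0, v 1, v 2] ![q, r 0, r 1, r 2] w).eval (β k) ≠ 0)
    {x' z' : Fin 4 → N} {q' : N} {r' : Fin 3 → N} {c' D0' κ' lc' bx' bz' : N} {β' : Fin 3 → N}
    (h' : ChordDat Pr δ v x' z' q' r' c' D0' κ' lc' bx' bz' β')
    (hx' : H288.GenS Pr x') (hz' : H288.GenS Pr z') {w' : Fin 4 → N}
    (hdet' : ∀ k, (D0' + q' * c' * β' k) *
      (qA Pr ![δ, v 0, v 1, v 2] ![q', r' 0, r' 1, r' 2] w').eval (β' k) -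
      (qB Pr ![δ, v 0, v 1, v 2] ![q', r' 0, r' 1, r' 2] w').eval (β' k) ≠ 0) :
    (H288.pt x₀ x + H288.pt x₀ z +
      ∑ k, H288.Bsig Pr x₀ δ (β k - δ) (fun i => v i - δ) (nn Pr δ q r (β k))) -
    (H288.pt x₀ x' + H288.pt x₀ z' +
      ∑ k, H288.Bsig Pr x₀ δ (β' k - δ) (fun i => v i - δ) (nn Pr δ q' r' (β' k))) ∈
      Rel m K N := by
  refine multi_specC2 (K := K) (r := 4) (n := 4) (m := m)
    (fun L _ _ _ c g => H279.fam Pr x₀ c g) ?_ (N := N) ![δ, v 0, v 1, v 2]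
    ![q, r 0, r 1, r 2] w ![q', r' 0, r' 1, r' 2] w' _ _ ?_ ?_
  · intro L L' _ _ _ _ _ _ g c v
    exact map_fam hx₀ g c v
  · intro N₁ _ _ _ _ _ P l y hl0 hl hy _
    exact h.specC_dir hx₀ he0 hδ hx hz hdet N₁ P l y hl0 hl hy
  · intro N₁ _ _ _ _ _ P l y hl0 hl hy _
    exact h'.specC_dir hx₀ he0 hδ hx' hz' hdet' N₁ P l y hl0 hl hy

theorem trans_notMem (hδ : Transcendental ℂ δ) : δ ∉ cl0 (∅ : Set N) := by
  intro h
  have h1 := mem_cl0.1 h
  haveI : Algebra.IsAlgebraic ℂ (IntermediateField.adjoin ℂ (∅ : Set N)) :=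
    IntermediateField.isAlgebraic_adjoin fun x hx => absurd hx (Set.notMem_empty x)
  exact hδ (h1.restrictScalars ℂ)

/-- **The link between the chords and the lines.** -/
theorem link_chord {m : ℤ} (hx₀ : H288.IsFF Pr x₀) {δ c : N} {x y x' y' : Fin 4 → N}
    (hx : H288.GenS Pr x) (hy : H288.GenS Pr y) (hx' : H288.GenS Pr x') (hy' : H288.GenS Pr y')
    (hc : c ^ 3 = x 3) (hc' : c ^ 3 = x' 3)
    (hl : x 1 + c * x 0 + c ^ 2 * x 2 = y 1 + c * y 0 + c ^ 2 * y 2)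
    (hl' : x' 1 + c * x' 0 + c ^ 2 * x' 2 = y' 1 + c * y' 0 + c ^ 2 * y' 2)
    (h : H288.IsChord Pr δ x y) (h' : H288.IsChord Pr δ x' y')
    (hδc : AlgebraicIndependent ℂ ![δ, c]) {e : N} {w : Fin 3 → N}
    (hw : H80.Rts (H424.cc Pr δ) e w) :
    ∃ (B B' : Fin 3 → N) (n n' : Fin 3 → Fin 3 → N),
      (∀ k, H424.GD Pr δ e w (B k) (n k)) ∧ (∀ k, H424.GD Pr δ e w (B' k) (n' k)) ∧
      ((H288.pt x₀ x + H288.pt x₀ y) + ∑ k, H288.Bsig Pr x₀ δ (B k) w (n k)) -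
        ((H288.pt x₀ x' + H288.pt x₀ y') + ∑ k, H288.Bsig Pr x₀ δ (B' k) w (n' k)) ∈
          Rel m K N := by
  have hirr := hx₀.irr
  have hδ : Transcendental ℂ δ := hδc.transcendental 0
  have hF := cl0_closed ({δ} : Set N)
  have hδF : δ ∈ cl0 ({δ} : Set N) := subset_cl0 _ (Set.mem_singleton δ)
  obtain ⟨w1, w2, w3, hori⟩ := H424.rts_iff.1 hw
  have hrt : H278.Rt Pr δ (w 0) (w 1) (w 2) := ⟨w1, w2, w3⟩
  have hco := H278.coprime_of_irr hirr
  have h0F := cl0_closed (∅ : Set N)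
  have hδ0 := trans_notMem hδ
  have h01 : w 0 ≠ w 1 := hrt.ne h0F hco hδ0
  have h12 : w 1 ≠ w 2 := hrt.rot.ne h0F hco hδ0
  have h20 : w 2 ≠ w 0 := hrt.rot.rot.ne h0F hco hδ0
  obtain ⟨v, hv⟩ : ∃ v : Fin 3 → N, ∀ i, v i = w i + δ := ⟨fun i => w i + δ, fun _ => rfl⟩
  have hvw : (fun i => v i - δ) = w := by
    funext i
    rw [hv]
    ring
  have he0 : ∀ X : N, e0 Pr δ X = (X - v 0) * (X - v 1) * (X - v 2) := by
    intro X
    rw [e0_eq, hv, hv, hv, hrt.eval (X - δ)]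
    ring
  have hwF : ∀ i, w i ∈ cl0 ({δ} : Set N) := by
    intro i
    have h1 : H288.ff0 Pr δ (w i) = 0 := by
      have h2 := hrt.eval (w i)
      unfold H288.ff0
      rw [h2]
      fin_cases i
      · change (w 0 - w 0) * (w 0 - w 1) * (w 0 - w 2) = 0
        ring
      · change (w 1 - w 0) * (w 1 - w 1) * (w 1 - w 2) = 0
        ring
      · change (w 2 - w 0) * (w 2 - w 1) * (w 2 - w 2) = 0
        ring
    refine H288.mem_of_cubic hF (a := 1) (b := 3 * δ)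
      (c := -(algebraMap ℂ N (Pr.t 3) + algebraMap ℂ N (Pr.z 3) * δ))
      (d := -(algebraMap ℂ N (Pr.t 1) + algebraMap ℂ N (Pr.z 1) * δ)) (one_mem _)
      (mul_mem (H288.three_mem _) hδF) (neg_mem (add_mem (IntermediateField.algebraMap_mem _ _)
        (mul_mem (IntermediateField.algebraMap_mem _ _) hδF)))
      (neg_mem (add_mem (IntermediateField.algebraMap_mem _ _)
        (mul_mem (IntermediateField.algebraMap_mem _ _) hδF))) ?_ (Or.inl one_ne_zero)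
    unfold H288.ff0 H288.B0 H288.A0 at h1
    linear_combination h1
  have hvF : ∀ i, v i ∈ cl0 ({δ} : Set N) := fun i => by
    rw [hv]
    exact add_mem (hwF i) hδF
  have k01 : v 0 ≠ v 1 := by
    rw [hv, hv]
    exact fun h0 => h01 (add_right_cancel h0)
  have k02 : v 0 ≠ v 2 := by
    rw [hv, hv]
    exact fun h0 => h20 (add_right_cancel h0).symm
  have k12 : v 1 ≠ v 2 := by
    rw [hv, hv]
    exact fun h0 => h12 (add_right_cancel h0)
  obtain ⟨q, r, D0, κ, lc, bx, bz, β, z, hd, -, hdet⟩ :=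
    H288.exists_chordDat hirr hδc hx hy hc hl h he0 hvF k01 k02 k12
  obtain ⟨q', r', D0', κ', lc', bx', bz', β', z', hd', -, hdet'⟩ :=
    H288.exists_chordDat hirr hδc hx' hy' hc' hl' h' he0 hvF k01 k02 k12
  have key := link_two (K := K) (m := m) hx₀ he0 hδ hd hx hy hdet hd' hx' hy' hdet'
  rw [hvw] at key
  have hlab := fun k => hd.lab he0 k
  have hlab' := fun k => hd'.lab he0 k
  rw [hvw] at hlab hlab'
  refine ⟨fun k => β k - δ, fun k => β' k - δ, fun k => nn Pr δ q r (β k),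
    fun k => nn Pr δ q' r' (β' k), fun k => ?_, fun k => ?_, key⟩
  · have h1 := H424.gd_of_lab (hlab k) (hd.βF k)
    rwa [hori] at h1
  · have h1 := H424.gd_of_lab (hlab' k) (hd'.βF k)
    rwa [hori] at h1

end

end Vale.Agent.P297.H637
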