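import Vale.Agent.P297.H600.JRel
import Vale.Agent.P297.H424.G4.TSide

/-!
The other side for an arbitrary family of quartics over the `s`-line whose jacobian, twisted by
`(s - s⁻¹) ^ 2`, has the invariants of a `(4, 2)`-form, and for arbitrary relations. (The arguments
are those of `G4.TAct`, `G4.TFin`, `G4.TSide`, with the special quartic replaced by an arbitrary one,
and with the group of stable relations replaced by an arbitrary group with the property `Star`.)
-/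

set_option linter.unusedSectionVars false

open IntermediateField Polynomial WeierstrassCurve WeierstrassCurve.Affine

namespace Vale.Agent.P297.H637

open Vale.Agent.P297 Vale.Agent.P297.Gen Vale.Agent.P297.H839 Vale.Agent.P297.H600
open Vale.Agent.P297.H729 Vale.Agent.P297.Z3 Vale.Agent.P297.G4

section

variable {A N : Type} [AddCommGroup A] [Field N] [Algebra ℂ N]

/-- The sum over every finite family of generic points `(e, X, Y)` (with `e = s` or `e = s⁻¹`) that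
is permuted by the automorphisms over a purely transcendental field is a relation. -/
def Star (c : Fin 5 → N) (s : N) (B : N → N → N → A) (𝓡 : AddSubgroup A) : Prop :=
  ∀ (L : IntermediateField ℂ N), IsRational L → Algebra.IsAlgebraic L N →
    ∀ (n : ℕ) (e X Y : Fin n → N),
      (∀ i, (e i = s ∨ e i = s⁻¹) ∧ X i ∉ cl0 {s} ∧ Y i ^ 2 = qv c (X i)) →
      (∀ g : N ≃ₐ[ℂ] N, (∀ x ∈ L, g x = x) → ∃ σ : Equiv.Perm (Fin n),
        ∀ i, g (e i) = e (σ i) ∧ g (X i) = X (σ i) ∧ g (Y i) = Y (σ i)) →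
      ∑ i, B (e i) (X i) (Y i) ∈ 𝓡

/-- the same for every finite index set -/
theorem Star.fintype {c : Fin 5 → N} {s : N} {B : N → N → N → A} {𝓡 : AddSubgroup A}
    (hB : Star c s B 𝓡) (L : IntermediateField ℂ N) (hL : IsRational L)
    (hLa : Algebra.IsAlgebraic L N) {ι : Type} [Fintype ι] (e X Y : ι → N)
    (hgen : ∀ i, (e i = s ∨ e i = s⁻¹) ∧ X i ∉ cl0 {s} ∧ Y i ^ 2 = qv c (X i))
    (hperm : ∀ g : N ≃ₐ[ℂ] N, (∀ x ∈ L, g x = x) → ∃ σ : Equiv.Perm ι,
      ∀ i, g (e i) = e (σ i) ∧ g (X i) = X (σ i) ∧ g (Y i) = Y (σ i)) :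
    ∑ i, B (e i) (X i) (Y i) ∈ 𝓡 := by
  let E := Fintype.equivFin ι
  have h := hB L hL hLa (Fintype.card ι) (e ∘ E.symm) (X ∘ E.symm) (Y ∘ E.symm)
    (fun i => hgen _) (fun g hg => ?_)
  · rw [← E.symm.sum_comp]
    exact h
  · obtain ⟨σ, hσ⟩ := hperm g hg
    refine ⟨(E.symm.trans σ).trans E, fun i => ?_⟩
    have h1 := hσ (E.symm i)
    simp only [Function.comp_apply, Equiv.trans_apply, Equiv.symm_apply_apply]
    exact h1

/-- The data of the other side: an algebraically closed field of transcendence degree four, a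
transcendental element `s`, a quartic `c` over the algebraic closure of `ℂ(s)` that is fixed by
the automorphisms with `s ↦ s` or `s ↦ s⁻¹`, a root `ε` of the quartic. -/
structure TQ (c : Fin 5 → N) (s ε : N) : Prop where
  deg : Algebra.trdeg ℂ N = 4
  tr : Transcendental ℂ s
  memc : ∀ i, c i ∈ cl0 {s}
  fixc : ∀ g : N ≃ₐ[ℂ] N, g s = s ∨ g s = s⁻¹ → ∀ i, g (c i) = c i
  disc : 4 * qI c ^ 3 ≠ qJ c ^ 2
  root : qv c ε = 0

/-- the cycle attached to a point of the jacobian -/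
noncomputable def be [CharZero N] (B : N → N → N → A) (c : Fin 5 → N) (ε e : N)
    (P : (Wq c).Point) : A := B e (aX c ε P) (aY c ε P)

/-- the sum over the translates by the points of order two -/
noncomputable def ns [CharZero N] [DecidableEq N] (B : N → N → N → A)
    (c : Fin 5 → N) (ε e : N) (P : (Wq c).Point) : A :=
  ∑ t ∈ tors2 (-qI c / 3) (-qJ c / 27), be B c ε e (P + t)

variable [CharZero N] [IsAlgClosed N] [DecidableEq N]
variable {c : Fin 5 → N} {B : N → N → N → A} {𝓡 : AddSubgroup A} {s ε : N}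

theorem TQ.s_ne (T : TQ c s ε) : s ≠ 0 := by
  rintro rfl
  exact T.tr isAlgebraic_zero

theorem TQ.amem (T : TQ c s ε) : -qI c / 3 ∈ cl0 {s} := a_mem T.memc

theorem TQ.bmem (T : TQ c s ε) : -qJ c / 27 ∈ cl0 {s} := b_mem T.memc

theorem TQ.emem (T : TQ c s ε) : ε ∈ cl0 {s} :=
  root_mem (closed_cl0 _) T.memc (coeff_ne T.disc) T.root

/-- generic points stay generic -/
theorem TQ.gen_act (_ : TQ c s ε) {g : N ≃ₐ[ℂ] N} (hg : g s = s ∨ g s = s⁻¹)
    (hc : ∀ i, g (c i) = c i) {P : (Wq c).Point}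
    (hP : ¬ InF (cl0 {s}) P) : ¬ InF (cl0 {s}) (gpt g hc P) := by
  intro h
  apply hP
  rcases P with (_ | ⟨x, y, hxy⟩)
  · exact inF_zero _
  · obtain ⟨h1, h2⟩ := h (g x) (g y) (gfun_aux (g : N →+* N) (fixW hc) hxy) rfl
    have h3 := map_kap (symm_kap hg) h1
    have h4 := map_kap (symm_kap hg) h2
    rw [AlgEquiv.symm_apply_apply] at h3 h4
    exact inF_some _ h3 h4

/-- the action on the points of the quartic -/
theorem TQ.pt_act (T : TQ c s ε) (g : N ≃ₐ[ℂ] N) (hg : g s = s ∨ g s = s⁻¹)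
    (hc : ∀ i, g (c i) = c i) :
    ∃ t : (Wq c).Point, (2 : ℕ) • t = 0 ∧ ∀ P : (Wq c).Point,
      ¬ InF (cl0 {s}) P → g (aX c ε P) = aX c ε (gpt g hc P + t) ∧
        g (aY c ε P) = aY c ε (gpt g hc P + t) := by
  have h0 : qv c (g ε) = 0 := by
    have h1 := map_qv (g : N →+* N) c ε
    have h2 : (fun i => (g : N →+* N) (c i)) = c := funext hc
    rw [h2, T.root, map_zero] at h1
    exact h1.symm
  by_cases hε : g ε = ε
  · refine ⟨0, smul_zero _, fun P hP => ?_⟩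
    rw [map_aX hc, map_aY hc, hε, add_zero]
    exact ⟨rfl, rfl⟩
  · refine ⟨tor c (g ε) ε, two_tor T.disc h0 T.root hε, fun P hP => ?_⟩
    rw [map_aX hc, map_aY hc]
    have h1 := T.gen_act hg hc hP
    have h2 : g ε ∈ cl0 {s} := map_kap hg T.emem
    obtain ⟨-, h3, h4⟩ := change T.disc h0 T.root hε
      (gen_fin T.memc (closed_cl0 _) h2 h1) (fun h5 =>
        aX_notMem T.disc T.memc (closed_cl0 _) h2 h0 h1 (by rw [h5]; exact T.emem))
    exact ⟨h3.symm, h4.symm⟩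

theorem ns_add (ε e : N) (P t : (Wq c).Point) (ht : (2 : ℕ) • t = 0) :
    ns B c ε e (P + t) = ns B c ε e P := by
  classical
  unfold ns
  have himage : (tors2 (-qI c / 3) (-qJ c / 27)).image (fun u => t + u) =
      tors2 (-qI c / 3) (-qJ c / 27) := by
    apply Finset.eq_of_subset_of_card_le
    · intro v hv
      obtain ⟨u, hu, rfl⟩ := Finset.mem_image.1 hv
      rw [mem_tors2] at hu ⊢
      rw [nsmul_add, ht, hu, add_zero]
    · rw [Finset.card_image_of_injective _ (add_right_injective t)]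
  conv_rhs => rw [← himage]
  rw [Finset.sum_image (add_right_injective t).injOn]
  refine Finset.sum_congr rfl fun u _ => ?_
  rw [add_assoc]

/-! ### relations -/

/-- the relation of a point and its opposite -/
theorem TQ.rel_neg (T : TQ c s ε) (hB : Star c s B 𝓡) {e : N} (he : e = s ∨ e = s⁻¹) {P : (Wq c).Point}
    (hP : ¬ InF (cl0 {s}) P) : be B c ε e P + be B c ε e (-P) ∈
      𝓡 := by
  set X := aX c ε P with hX
  have hXm : X ∉ cl0 {s} := aX_notMem T.disc T.memc (closed_cl0 _) T.emem T.root hP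
  obtain ⟨t₁, ht₁⟩ := exists_notMem1 T.deg s X
  obtain ⟨t₂, ht₂⟩ := exists_notMem2 T.deg s X t₁
  have hetr : Transcendental ℂ e := by
    intro h
    apply T.tr
    rcases he with rfl | rfl
    · exact h
    · have h1 := h.inv
      rwa [inv_inv] at h1
  rw [← cl0_inv he] at hXm ht₁ ht₂
  have hind := ind_chain hetr hXm ht₁ ht₂
  have hall := all_of_ind T.deg hind
  have hfin := gen_fin T.memc (closed_cl0 _) T.emem hP
  have hY := Fin'.eqn T.root hfin
  have hXm0 : X ∉ cl0 {s} := by rwa [cl0_inv he] at hXm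
  have h := hB (IntermediateField.adjoin ℂ (Set.range ![e, X, t₁, t₂]))
    ⟨4, _, hind, rfl⟩ ⟨fun v => mem_cl0.1 (hall v)⟩ 2 ![e, e] ![X, X]
    ![aY c ε P, -aY c ε P] ?_ fun g hg => ?_
  · rw [Fin.sum_univ_two] at h
    unfold be
    rw [aX_neg, aY_neg]
    exact h
  · intro i
    fin_cases i
    · exact ⟨he, hXm0, hY⟩
    · exact ⟨he, hXm0, (neg_sq _).trans hY⟩
  · have hge : g e = e := hg _ (IntermediateField.subset_adjoin _ _ ⟨0, rfl⟩)
    have hgX : g X = X := hg _ (IntermediateField.subset_adjoin _ _ ⟨1, rfl⟩)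
    have hgs : g s = s ∨ g s = s⁻¹ := by
      left
      rcases he with rfl | rfl
      · exact hge
      · rw [map_inv₀, inv_inj] at hge
        exact hge
    have hc := T.fixc g hgs
    have hY2 : g (aY c ε P) ^ 2 = aY c ε P ^ 2 := by
      rw [← map_pow, hY, ← hX]
      have h1 := map_qv (g : N →+* N) c X
      have h2 : (fun i => (g : N →+* N) (c i)) = c := funext hc
      rw [h2] at h1
      change (g : N →+* N) (qv c X) = _
      rw [h1]
      change qv c (g X) = _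
      rw [hgX]
    rcases sq_eq_sq_iff_eq_or_eq_neg.1 hY2 with h1 | h1
    · refine ⟨Equiv.refl _, fun i => ?_⟩
      fin_cases i
      · exact ⟨hge, hgX, h1⟩
      · exact ⟨hge, hgX, (map_neg g _).trans (congrArg Neg.neg h1)⟩
    · refine ⟨Equiv.swap 0 1, fun i => ?_⟩
      fin_cases i
      · exact ⟨hge, hgX, h1⟩
      · exact ⟨hge, hgX, (map_neg g _).trans ((congrArg Neg.neg h1).trans (neg_neg _))⟩

/-- The relation of four points with sum zero. -/
theorem TQ.rel_star (T : TQ c s ε) (hB : Star c s B 𝓡) {e : N} (he : e = s ∨ e = s⁻¹)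
    (P : Fin 4 → (Wq c).Point) (hsum : P 0 + P 1 + (P 2 + P 3) = 0)
    {M₁ M₂ : IntermediateField ℂ N} (hM₁ : Closed M₁) (hM₂ : Closed M₂)
    (h01 : cl0 {s} ≤ M₁) (h12 : M₁ ≤ M₂)
    (g₁ : ¬ InF (cl0 {s}) (P 0)) (m₁ : InF M₁ (P 0)) (g₂ : ¬ InF M₁ (P 1)) (m₂ : InF M₂ (P 1))
    (g₃ : ¬ InF M₂ (P 2))
    (hall : ∀ M : IntermediateField ℂ N, Closed M → cl0 {s} ≤ M → InF M (P 0) → InF M (P 1) →
      InF M (P 2) → ∀ z, z ∈ M) :
    ∑ i, be B c ε e (P i) ∈ 𝓡 := by
  set κ := cl0 ({s} : Set N) with hκ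
  have hκc : Closed κ := closed_cl0 _
  have hκ2 : κ ≤ M₂ := h01.trans h12
  have a0 := T.amem
  have b0 := T.bmem
  have a1 := h01 a0
  have a2 := hκ2 a0
  have m₁' : InF M₂ (P 0) := m₁.mono h12
  have e3 : P 3 = -(P 0 + P 1 + P 2) := by
    rw [eq_neg_iff_add_eq_zero, ← hsum]
    abel
  -- genericity
  have k0 : ¬ InF κ (P 0) := g₁
  have k1 : ¬ InF κ (P 1) := fun h => g₂ (h.mono h01)
  have k2 : ¬ InF κ (P 2) := fun h => g₃ (h.mono hκ2)
  have n3 : ¬ InF M₂ (P 3) := by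
    intro h
    apply g₃
    have h1 : P 2 = -P 3 - (P 0 + P 1) := by rw [e3]; abel
    rw [h1]
    exact (h.neg).sub a2 (m₁'.add a2 m₂)
  have k3 : ¬ InF κ (P 3) := fun h => n3 (h.mono hκ2)
  have hPk : ∀ i, ¬ InF κ (P i) := by
    intro i
    fin_cases i
    · exact k0
    · exact k1
    · exact k2
    · exact k3
  -- a linear combination that is not zero
  have hM₂0 : ∀ {Q : (Wq c).Point}, InF M₂ Q → ¬ InF M₂ (P 2 + Q) := by
    intro Q hQ h
    apply g₃
    have h1 : P 2 = P 2 + Q - Q := by abel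
    rw [h1]
    exact h.sub a2 hQ
  have hne0 : ∀ {M : IntermediateField ℂ N} {Q : (Wq c).Point}, ¬ InF M Q → Q ≠ 0 := by
    intro M Q h h0
    apply h
    rw [h0]
    exact inF_zero _
  have d2 : ∀ {M : IntermediateField ℂ N} (_ : Closed M) (_ : κ ≤ M) {Q : (Wq c).Point},
      ¬ InF M Q → ¬ InF M ((2 : ℕ) • Q) := by
    intro M hM hle Q hQ h
    exact hQ (div_two hM (hle a0) (hle b0) h)
  have sub_in : ∀ {M : IntermediateField ℂ N} (_ : κ ≤ M) {Q R : (Wq c).Point}, ¬ InF M Q →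
      InF M R → Q + R ≠ 0 := by
    intro M hle Q R hQ hR h0
    apply hQ
    rw [eq_neg_of_add_eq_zero_left h0]
    exact hR.neg
  -- sums of two points
  have s01 : P 0 + P 1 ≠ 0 := by
    rw [add_comm]
    exact sub_in h01 g₂ m₁
  have s02 : P 0 + P 2 ≠ 0 := by
    rw [add_comm]
    exact sub_in hκ2 g₃ m₁'
  have s12 : P 1 + P 2 ≠ 0 := by
    rw [add_comm]
    exact sub_in hκ2 g₃ m₂
  have s03 : P 0 + P 3 ≠ 0 := by
    intro h0
    apply s12
    rw [← hsum, ← sub_eq_zero]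
    rw [← neg_eq_zero.2 h0]
    abel
  have s13 : P 1 + P 3 ≠ 0 := by
    intro h0
    apply s02
    rw [← hsum, ← sub_eq_zero]
    rw [← neg_eq_zero.2 h0]
    abel
  have s23 : P 2 + P 3 ≠ 0 := by
    intro h0
    apply s01
    rw [h0, add_zero] at hsum
    exact hsum
  have t01 : P 0 ≠ P 1 := by
    intro h0
    rw [← h0] at g₂
    exact g₂ m₁
  have t02 : P 0 ≠ P 2 := by
    intro h0
    rw [← h0] at g₃
    exact g₃ m₁'
  have t12 : P 1 ≠ P 2 := by
    intro h0
    rw [← h0] at g₃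
    exact g₃ m₂
  have t03 : P 0 ≠ P 3 := by
    intro h0
    rw [← h0] at n3
    exact n3 m₁'
  have t13 : P 1 ≠ P 3 := by
    intro h0
    rw [← h0] at n3
    exact n3 m₂
  have t23 : P 2 ≠ P 3 := by
    intro h0
    apply d2 hM₂ hκ2 g₃
    have h1 : (2 : ℕ) • P 2 = -(P 0 + P 1) := by
      rw [eq_neg_iff_add_eq_zero, ← hsum, ← h0, two_nsmul]
      abel
    rw [h1]
    exact (m₁'.add a2 m₂).neg
  have hinj : ∀ i j, i ≠ j → P i ≠ P j ∧ P i + P j ≠ 0 := by
    intro i j hij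
    fin_cases i <;> fin_cases j
    · exact absurd rfl hij
    · exact ⟨t01, s01⟩
    · exact ⟨t02, s02⟩
    · exact ⟨t03, s03⟩
    · exact ⟨t01.symm, by rw [add_comm]; exact s01⟩
    · exact absurd rfl hij
    · exact ⟨t12, s12⟩
    · exact ⟨t13, s13⟩
    · exact ⟨t02.symm, by rw [add_comm]; exact s02⟩
    · exact ⟨t12.symm, by rw [add_comm]; exact s12⟩
    · exact absurd rfl hij
    · exact ⟨t23, s23⟩
    · exact ⟨t03.symm, by rw [add_comm]; exact s03⟩
    · exact ⟨t13.symm, by rw [add_comm]; exact s13⟩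
    · exact ⟨t23.symm, by rw [add_comm]; exact s23⟩
    · exact absurd rfl hij
  -- `2 P i + P j`
  have htan : ∀ i j, i ≠ j → (2 : ℕ) • P i + P j ≠ 0 := by
    have w01 : (2 : ℕ) • P 0 + P 1 ≠ 0 := by
      rw [add_comm]
      refine sub_in h01 g₂ ?_
      rw [two_nsmul]
      exact m₁.add a1 m₁
    have w10 : (2 : ℕ) • P 1 + P 0 ≠ 0 := sub_in h01 (d2 hM₁ h01 g₂) m₁
    have in2 : ∀ {Q : (Wq c).Point}, InF M₂ Q → InF M₂ ((2 : ℕ) • Q) := by
      intro Q hQ
      rw [two_nsmul]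
      exact hQ.add a2 hQ
    have w02 : (2 : ℕ) • P 0 + P 2 ≠ 0 := by
      rw [add_comm]
      exact sub_in hκ2 g₃ (in2 m₁')
    have w12 : (2 : ℕ) • P 1 + P 2 ≠ 0 := by
      rw [add_comm]
      exact sub_in hκ2 g₃ (in2 m₂)
    have w20 : (2 : ℕ) • P 2 + P 0 ≠ 0 := sub_in hκ2 (d2 hM₂ hκ2 g₃) m₁'
    have w21 : (2 : ℕ) • P 2 + P 1 ≠ 0 := sub_in hκ2 (d2 hM₂ hκ2 g₃) m₂
    have w03 : (2 : ℕ) • P 0 + P 3 ≠ 0 := by
      rw [add_comm]
      exact sub_in hκ2 n3 (in2 m₁')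
    have w13 : (2 : ℕ) • P 1 + P 3 ≠ 0 := by
      rw [add_comm]
      exact sub_in hκ2 n3 (in2 m₂)
    have w30 : (2 : ℕ) • P 3 + P 0 ≠ 0 := sub_in hκ2 (d2 hM₂ hκ2 n3) m₁'
    have w31 : (2 : ℕ) • P 3 + P 1 ≠ 0 := sub_in hκ2 (d2 hM₂ hκ2 n3) m₂
    have w23 : (2 : ℕ) • P 2 + P 3 ≠ 0 := by
      have h1 : (2 : ℕ) • P 2 + P 3 = P 2 + -(P 0 + P 1) := by
        rw [e3, two_nsmul]
        abel
      rw [h1]
      exact sub_in hκ2 g₃ (m₁'.add a2 m₂).neg
    have w32 : (2 : ℕ) • P 3 + P 2 ≠ 0 := by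
      have h1 : (2 : ℕ) • P 3 + P 2 = P 3 + -(P 0 + P 1) := by
        rw [two_nsmul]
        nth_rewrite 2 [e3]
        abel
      rw [h1]
      exact sub_in hκ2 n3 (m₁'.add a2 m₂).neg
    intro i j hij
    fin_cases i <;> fin_cases j
    · exact absurd rfl hij
    · exact w01
    · exact w02
    · exact w03
    · exact w10
    · exact absurd rfl hij
    · exact w12
    · exact w13
    · exact w20
    · exact w21
    · exact absurd rfl hij
    · exact w23
    · exact w30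
    · exact w31
    · exact w32
    · exact absurd rfl hij
  have hfin : ∀ i, Fin' c ε (P i) := fun i => gen_fin T.memc hκc T.emem (hPk i)
  obtain ⟨α, β, γ, hY, hXne, huniq⟩ := parabola_quartic T.disc T.root hfin hsum hinj htan
  -- the field
  have hv : ∀ z, z ∈ cl0 (Set.range ![e, α, β, γ]) := by
    set M := cl0 (Set.range ![e, α, β, γ]) with hM
    have hMc : Closed M := closed_cl0 _
    have heM : e ∈ M := subset_cl0 _ ⟨0, rfl⟩
    have hαM : α ∈ M := subset_cl0 _ ⟨1, rfl⟩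
    have hβM : β ∈ M := subset_cl0 _ ⟨2, rfl⟩
    have hγM : γ ∈ M := subset_cl0 _ ⟨3, rfl⟩
    have hκM : κ ≤ M := by
      rw [hκ, ← cl0_inv he]
      exact cl0_le hMc (Set.singleton_subset_iff.2 heM)
    have hcM : ∀ i, c i ∈ M := fun i => hκM (T.memc i)
    have hin : ∀ i, InF M (P i) := by
      intro i
      rw [← aX_mem_iff T.disc hcM hMc (hκM T.emem) T.root (hfin i)]
      refine root_mem hMc (c := parRes c α β γ) ?_ (parRes_ne T.disc α β γ) ?_
      · intro j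
        fin_cases j
        · exact sub_mem (hcM 0) (pow_mem hγM 2)
        · exact sub_mem (hcM 1) (mul_mem (mul_mem (ofNat_mem M 2) hβM) hγM)
        · exact sub_mem (hcM 2) (add_mem (pow_mem hβM 2)
            (mul_mem (mul_mem (ofNat_mem M 2) hαM) hγM))
        · exact sub_mem (hcM 3) (mul_mem (mul_mem (ofNat_mem M 2) hαM) hβM)
        · exact sub_mem (hcM 4) (pow_mem hαM 2)
      · rw [qv_parRes, sub_eq_zero, ← hY i]
        exact (Fin'.eqn T.root (hfin i)).symm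
    exact hall M hMc hκM (hin 0) (hin 1) (hin 2)
  have hind := ind_of_all T.deg hv
  refine hB (IntermediateField.adjoin ℂ (Set.range ![e, α, β, γ]))
    ⟨4, _, hind, rfl⟩ ⟨fun v => mem_cl0.1 (hv v)⟩ 4 (fun _ => e) (fun i => aX c ε (P i))
    (fun i => aY c ε (P i)) ?_ fun g hg => ?_
  · intro i
    exact ⟨he, aX_notMem T.disc T.memc hκc T.emem T.root (hPk i), Fin'.eqn T.root (hfin i)⟩
  · have hge : g e = e := hg _ (IntermediateField.subset_adjoin _ _ ⟨0, rfl⟩)
    have hgα : g α = α := hg _ (IntermediateField.subset_adjoin _ _ ⟨1, rfl⟩)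
    have hgβ : g β = β := hg _ (IntermediateField.subset_adjoin _ _ ⟨2, rfl⟩)
    have hgγ : g γ = γ := hg _ (IntermediateField.subset_adjoin _ _ ⟨3, rfl⟩)
    have hgs : g s = s ∨ g s = s⁻¹ := by
      left
      rcases he with rfl | rfl
      · exact hge
      · rw [map_inv₀, inv_inj] at hge
        exact hge
    have hc := T.fixc g hgs
    -- the permutation
    have hperm : ∀ i, ∃ j, g (aX c ε (P i)) = aX c ε (P j) := by
      intro i
      refine huniq (g (aX c ε (P i))) (g (aY c ε (P i))) ?_ ?_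
      · rw [← map_pow, Fin'.eqn T.root (hfin i)]
        have h1 := map_qv (g : N →+* N) c (aX c ε (P i))
        have h2 : (fun i => (g : N →+* N) (c i)) = c := funext hc
        rw [h2] at h1
        exact h1
      · have h1 := congrArg g (hY i)
        rw [map_add, map_add, map_mul, map_mul, map_pow, hgα, hgβ, hgγ] at h1
        exact h1
    choose σ hσ using hperm
    have hσinj : Function.Injective σ := by
      intro i j hij
      by_contra hne
      apply hXne i j hne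
      apply g.injective
      rw [hσ i, hσ j, hij]
    have hσb : Function.Bijective σ := Finite.injective_iff_bijective.1 hσinj
    refine ⟨Equiv.ofBijective σ hσb, fun i => ⟨hge, hσ i, ?_⟩⟩
    have h1 := congrArg g (hY i)
    rw [map_add, map_add, map_mul, map_mul, map_pow, hgα, hgβ, hgγ, hσ i] at h1
    change g (aY c ε (P i)) = aY c ε (P (σ i))
    rw [h1, hY (σ i)]

/-- the sums over the translates of a point and of its opposite -/
theorem TQ.ns_neg (T : TQ c s ε) (hB : Star c s B 𝓡) {e : N} (he : e = s ∨ e = s⁻¹) {P : (Wq c).Point}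
    (hP : ¬ InF (cl0 {s}) P) : ns B c ε e P + ns B c ε e (-P) ∈
      𝓡 := by
  unfold ns
  rw [← Finset.sum_add_distrib]
  refine sum_mem fun t ht => ?_
  rw [mem_tors2] at ht
  have h1 := T.rel_neg hB he (gen_add2 (closed_cl0 _) T.amem T.bmem hP ht)
  have h2 : -(P + t) = -P + t := by
    rw [neg_add, neg_mem_tors2 ht]
  rwa [h2] at h1

/-- the difference of the sums over the translates -/
theorem TQ.ns_sub (T : TQ c s ε) (hB : Star c s B 𝓡)
    (hJ : ∀ P : (Wq c).Point, ¬ InF (cl0 {s}) P →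
      ns B c ε s P + ns B c ε s⁻¹ (-P) ∈ 𝓡)
    {P : (Wq c).Point} (hP : ¬ InF (cl0 {s}) P) :
    ns B c ε s P - ns B c ε s⁻¹ P ∈ 𝓡 := by
  have h1 := hJ P hP
  have h2 := T.ns_neg hB (e := s⁻¹) (Or.inr rfl) hP
  have h3 := sub_mem h1 h2
  have h4 : ns B c ε s P - ns B c ε s⁻¹ P =
      ns B c ε s P + ns B c ε s⁻¹ (-P) -
      (ns B c ε s⁻¹ P + ns B c ε s⁻¹ (-P)) := by abel
  rw [h4]
  exact h3

/-- The relation of two points. -/
theorem TQ.two_points (T : TQ c s ε) (hB : Star c s B 𝓡)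
    (hJ : ∀ P : (Wq c).Point, ¬ InF (cl0 {s}) P →
      ns B c ε s P + ns B c ε s⁻¹ (-P) ∈ 𝓡)
    {P Q : (Wq c).Point} {x x' : N} (hx : x ∉ cl0 {s}) (hx' : x' ∉ clo (cl0 {s}) {x})
    (hPx : ∃ y h, P = Point.some x y h) (hQx : ∃ y h, Q = Point.some x' y h) :
    (tors2 (-qI c / 3) (-qJ c / 27)).card •
      ((be B c ε s P - be B c ε s⁻¹ P) +
        (be B c ε s Q - be B c ε s⁻¹ Q)) ∈ 𝓡 := by
  classical
  set κ := cl0 ({s} : Set N) with hκ
  have hκc : Closed κ := closed_cl0 _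
  have a0 : -qI c / 3 ∈ κ := T.amem
  have b0 : -qJ c / 27 ∈ κ := T.bmem
  set M₁ := clo κ {x} with hM₁
  have hM₁c : Closed M₁ := closed_clo _ _
  have h01 : κ ≤ M₁ := le_clo _ _
  set M₂ := clo M₁ {x'} with hM₂
  have hM₂c : Closed M₂ := closed_clo _ _
  have h12 : M₁ ≤ M₂ := le_clo _ _
  have h02 : κ ≤ M₂ := h01.trans h12
  obtain ⟨y, h, rfl⟩ := hPx
  obtain ⟨y', h', rfl⟩ := hQx
  obtain ⟨t, ht⟩ := exists_notMem2 T.deg s x x'
  rw [← hκ, ← hM₁, ← hM₂] at ht
  obtain ⟨z, hz, R, hR⟩ := exists_pt T.disc t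
  set P := Point.some x y h with hP
  set Q := Point.some x' y' h' with hQ
  have gP : ¬ InF κ P := by
    rw [hP, inF_iff hκc a0 b0]
    exact hx
  have mP : InF M₁ P := by
    rw [hP, inF_iff hM₁c (h01 a0) (h01 b0)]
    exact mem_clo_self _ _
  have gQ : ¬ InF M₁ Q := by
    rw [hQ, inF_iff hM₁c (h01 a0) (h01 b0)]
    exact hx'
  have mQ : InF M₂ Q := by
    rw [hQ, inF_iff hM₂c (h02 a0) (h02 b0)]
    exact mem_clo_self _ _
  have gR : ¬ InF M₂ R := by
    rw [hR, inF_iff hM₂c (h02 a0) (h02 b0)]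
    exact ht
  obtain ⟨S, hS⟩ : ∃ S, S = -(P + Q + R) := ⟨_, rfl⟩
  have gS : ¬ InF M₂ S := by
    intro h0
    apply gR
    have h1 : R = -S - (P + Q) := by rw [hS]; abel
    rw [h1]
    exact (h0.neg).sub (h02 a0) ((mP.mono h12).add (h02 a0) mQ)
  have gR0 : ¬ InF κ R := fun h0 => gR (h0.mono h02)
  have gS0 : ¬ InF κ S := fun h0 => gS (h0.mono h02)
  -- the relations
  have key : ∀ e, (e = s ∨ e = s⁻¹) →
      (tors2 (-qI c / 3) (-qJ c / 27)).card • (be B c ε e P +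
        be B c ε e Q) + (ns B c ε e R + ns B c ε e S) ∈
      𝓡 := by
    intro e he
    have hk : ∀ u ∈ tors2 (-qI c / 3) (-qJ c / 27),
        (be B c ε e P + be B c ε e Q) + (be B c ε e (R + u) +
          be B c ε e (S + u)) ∈ 𝓡 := by
      intro u hu
      rw [mem_tors2] at hu
      have h1 := T.rel_star hB he (![P, Q, R + u, S + u]) (by
          change P + Q + (R + u + (S + u)) = 0
          have h2 : P + Q + (R + u + (S + u)) = P + Q + R + S + (2 : ℕ) • u := by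
            rw [two_nsmul]
            abel
          rw [h2, hu, hS]
          abel) hM₁c hM₂c h01 h12 gP mP gQ mQ
        (gen_add2 hM₂c (h02 a0) (h02 b0) gR hu) (by
          intro M hM hκM m0 m1 m2 v
          have hRM : InF M R := by
            have h3 : R = R + u - u := by abel
            rw [h3]
            exact InF.sub (hκM a0) m2 (tors2_inF hM (hκM a0) (hκM b0) hu)
          have k1 : x ∈ M := (m0 x y h rfl).1
          have k2 : x' ∈ M := (m1 x' y' h' rfl).1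
          rw [hR, inF_iff hM (hκM a0) (hκM b0)] at hRM
          exact full T.deg T.tr hx hx' ht hM (hκM (subset_cl0 _ rfl)) k1 k2 hRM v)
      rw [Fin.sum_univ_four] at h1
      have h2 : be B c ε e (![P, Q, R + u, S + u] 0) +
          be B c ε e (![P, Q, R + u, S + u] 1) +
          be B c ε e (![P, Q, R + u, S + u] 2) +
          be B c ε e (![P, Q, R + u, S + u] 3) =
          (be B c ε e P + be B c ε e Q) + (be B c ε e (R + u) +
          be B c ε e (S + u)) := by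
        change be B c ε e P + be B c ε e Q + be B c ε e (R + u) +
          be B c ε e (S + u) = _
        abel
      rwa [h2] at h1
    have h3 := sum_mem hk
    rw [Finset.sum_add_distrib, Finset.sum_const, Finset.sum_add_distrib] at h3
    exact h3
  have r1 := key s (Or.inl rfl)
  have r2 := key s⁻¹ (Or.inr rfl)
  have r3 := T.ns_sub hB hJ gR0
  have r4 := T.ns_sub hB hJ gS0
  have r5 := sub_mem (sub_mem r1 r2) (add_mem r3 r4)
  have h6 : (tors2 (-qI c / 3) (-qJ c / 27)).card •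
      ((be B c ε s P - be B c ε s⁻¹ P) +
        (be B c ε s Q - be B c ε s⁻¹ Q)) =
      (tors2 (-qI c / 3) (-qJ c / 27)).card • (be B c ε s P +
        be B c ε s Q) + (ns B c ε s R + ns B c ε s S) -
      ((tors2 (-qI c / 3) (-qJ c / 27)).card • (be B c ε s⁻¹ P +
        be B c ε s⁻¹ Q) + (ns B c ε s⁻¹ R + ns B c ε s⁻¹ S)) -
      (ns B c ε s R - ns B c ε s⁻¹ R +
        (ns B c ε s S - ns B c ε s⁻¹ S)) := by
    rw [smul_add, smul_add, smul_add, smul_sub, smul_sub]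
    abel
  rw [h6]
  exact r5

/-- **The difference.** -/
theorem TQ.diff (T : TQ c s ε) (hB : Star c s B 𝓡)
    (hJ : ∀ P : (Wq c).Point, ¬ InF (cl0 {s}) P →
      ns B c ε s P + ns B c ε s⁻¹ (-P) ∈ 𝓡)
    {P : (Wq c).Point} (hP : ¬ InF (cl0 {s}) P) :
    (8 : ℤ) • (be B c ε s P - be B c ε s⁻¹ P) ∈ 𝓡 := by
  classical
  set κ := cl0 ({s} : Set N) with hκ
  have hκc : Closed κ := closed_cl0 _
  have a0 : -qI c / 3 ∈ κ := T.amem
  have b0 : -qJ c / 27 ∈ κ := T.bmem
  obtain ⟨x, y, h, hPx⟩ : ∃ x y, ∃ h, P = Point.some x y h := by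
    rcases P with (_ | ⟨x, y, h⟩)
    · exact absurd (inF_zero _) hP
    · exact ⟨x, y, h, rfl⟩
  have hx : x ∉ κ := by
    rwa [hPx, inF_iff hκc a0 b0] at hP
  obtain ⟨x', hx'⟩ := exists_notMem1 T.deg s x
  obtain ⟨y', h', Q, hQ⟩ := exists_pt T.disc x'
  have gQ : ¬ InF κ Q := by
    rw [hQ, inF_iff hκc a0 b0]
    exact fun h0 => hx' (le_clo _ _ h0)
  obtain ⟨h'', hQn⟩ := neg_some' h'
  have r1 := T.two_points hB hJ hx hx' ⟨y, h, hPx⟩ ⟨y', h', hQ⟩
  have r2 := T.two_points hB hJ hx hx' ⟨y, h, hPx⟩ ⟨-y', h'', (congrArg Neg.neg hQ).trans hQn⟩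
  have q1 := T.rel_neg hB (e := s) (Or.inl rfl) gQ
  have q2 := T.rel_neg hB (e := s⁻¹) (Or.inr rfl) gQ
  obtain ⟨n, hn⟩ := card_tors2 (a := -qI c / 3) (b := -qJ c / 27)
  have hle := card_tors2_le (a := -qI c / 3) (b := -qJ c / 27)
  rw [hn] at r1 r2 hle
  have hn2 : n ≤ 2 := by
    by_contra h0
    have h3 : 2 ^ 3 ≤ 2 ^ n := Nat.pow_le_pow_right (by norm_num) (by omega)
    omega
  have r3 := sub_mem (add_mem r1 r2) (AddSubgroup.nsmul_mem _ (sub_mem q1 q2) (2 ^ n))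
  have r4 := AddSubgroup.nsmul_mem _ r3 (2 ^ (2 - n))
  have h6 : 2 ^ (2 - n) • (2 ^ n • ((be B c ε s P - be B c ε s⁻¹ P) +
        (be B c ε s Q - be B c ε s⁻¹ Q)) +
      2 ^ n • ((be B c ε s P - be B c ε s⁻¹ P) +
        (be B c ε s (-Q) - be B c ε s⁻¹ (-Q))) -
      2 ^ n • (be B c ε s Q + be B c ε s (-Q) -
        (be B c ε s⁻¹ Q + be B c ε s⁻¹ (-Q)))) =
      (2 ^ (2 - n) * 2 ^ n) • ((be B c ε s P - be B c ε s⁻¹ P) +
        (be B c ε s P - be B c ε s⁻¹ P)) := by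
    rw [mul_smul, ← smul_add, ← smul_sub]
    congr 2
    abel
  rw [h6, ← pow_add, Nat.sub_add_cancel hn2, ← two_nsmul, ← mul_smul] at r4
  exact_mod_cast r4

end

section

variable {N : Type} [Field N] [Algebra ℂ N] [CharZero N] [IsAlgClosed N] [DecidableEq N]

/-- The surface of the twisted quartics is rational: the fields generated by a generic point and
two more variables are purely transcendental. -/
def Rat4 (s : N) (d : Fin 5 → N) : Prop :=
  ∀ x y t₁ t₂ : N, x ∉ cl0 {s} → t₁ ∉ clo (cl0 {s}) {x} → t₂ ∉ clo (clo (cl0 {s}) {x}) {t₁} →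
    y ^ 2 = qv d x → IsRational (IntermediateField.adjoin ℂ ({lv s, x, y, t₁, t₂} : Set N))

/-- The field of definition of a point of the twisted jacobian. -/
theorem exists_twist_field (h4 : Algebra.trdeg ℂ N = 4) {s : N} {c d : Fin 5 → N}
    (hd4 : Rat4 s d) (H : J.Twist s c d) {P : (Wq c).Point} (hP : ¬ InF (cl0 {s}) P) :
    ∃ L : IntermediateField ℂ N, IsRational L ∧ Algebra.IsAlgebraic L N ∧
      ∀ g : N ≃ₐ[ℂ] N, (∀ x ∈ L, g x = x) → ∃ hg : g s = s ∨ g s = s⁻¹,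
        ∃ T : (Wq c).Point, (2 : ℕ) • T = 0 ∧
          ((g s = s ∧ gfun (J.rh g) (J.fix_ab (J.rh g) (H.fixc g hg)) P = P + T) ∨
            (g s = s⁻¹ ∧ gfun (J.rh g) (J.fix_ab (J.rh g) (H.fixc g hg)) P = -P + T)) := by
  have hκ := closed_cl0 ({s} : Set N)
  have hdd := H.discd
  have hs0 := H.s_ne
  obtain ⟨had, hbd⟩ := H.qId_mem
  obtain ⟨ε, hε⟩ := J.exists_root hdd
  have hεm := H.root_mem hε
  have hP' := H.tp_notMem le_rfl hP
  have hfin : Fin' _ ε (H.tp P) := J.fin_of_notMem hκ H.memd had hbd hεm hP'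
  have hXm : aX _ ε (H.tp P) ∉ cl0 {s} := fun h0 =>
    hP' (J.inF_of_aX hκ H.memd had hbd hdd hε hεm hfin h0)
  obtain ⟨t₁, ht₁⟩ := exists_notMem1 h4 s (aX _ ε (H.tp P))
  obtain ⟨t₂, ht₂⟩ := exists_notMem2 h4 s (aX _ ε (H.tp P)) t₁
  have hrat := hd4 _ _ t₁ t₂ hXm ht₁ ht₂ (hfin.eqn hε)
  refine ⟨_, hrat, ⟨fun z => mem_cl0.1 ?_⟩, fun g hg => ?_⟩
  · exact full h4 H.tr hXm ht₁ ht₂ (closed_cl0 _)
      (J.s_mem_of_lv (closed_cl0 _) hs0 (subset_cl0 _ (by simp)))
      (subset_cl0 _ (by simp)) (subset_cl0 _ (by simp)) (subset_cl0 _ (by simp)) z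
  · have hgl : g (lv s) = lv s := hg _ (IntermediateField.subset_adjoin _ _ (by simp))
    have hgs := J.lv_fix hs0 g hgl
    have hgX := hg _ (IntermediateField.subset_adjoin ℂ
      ({lv s, aX _ ε (H.tp P), aY _ ε (H.tp P), t₁, t₂} : Set N)
      (show aX _ ε (H.tp P) ∈ _ by simp))
    have hgY := hg _ (IntermediateField.subset_adjoin ℂ
      ({lv s, aX _ ε (H.tp P), aY _ ε (H.tp P), t₁, t₂} : Set N)
      (show aY _ ε (H.tp P) ∈ _ by simp))
    exact ⟨hgs, H.jone hε hP g hgs hgX hgY⟩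

/-- translations of the points of order two -/
noncomputable def t2perm {a b : N} (γ : (wc a b).toAffine.Point ≃ (wc a b).toAffine.Point)
    (hγ : ∀ t, (2 : ℕ) • t = 0 ↔ (2 : ℕ) • γ t = 0) :
    Equiv.Perm {t // t ∈ tors2 a b} :=
  Equiv.subtypeEquiv γ fun t => by rw [mem_tors2, mem_tors2, hγ]

variable {A : Type} [AddCommGroup A]
variable {c d : Fin 5 → N} {B : N → N → N → A} {𝓡 : AddSubgroup A} {s ε : N}

/-- **(J)** -/
theorem TQ.jac_rel (T : TQ c s ε) (hB : Star c s B 𝓡) (hd4 : Rat4 s d) (H : J.Twist s c d)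
    {P : (Wq c).Point} (hP : ¬ InF (cl0 {s}) P) :
    ns B c ε s P + ns B c ε s⁻¹ (-P) ∈ 𝓡 := by
  obtain ⟨L, hL, hLa, hfix⟩ := exists_twist_field T.deg hd4 H hP
  -- the family
  let ι := {t // t ∈ tors2 (-qI c / 3) (-qJ c / 27)} × Bool
  let Q : ι → (Wq c).Point := fun p => if p.2 then -(P + p.1.1) else P + p.1.1
  let e : ι → N := fun p => if p.2 then s⁻¹ else s
  have hgP : ∀ p : ι, ¬ InF (cl0 {s}) (Q p) := by
    rintro ⟨⟨t, ht⟩, b⟩
    have h1 := gen_add2 (closed_cl0 _) T.amem T.bmem hP (mem_tors2.1 ht)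
    rcases b with _ | _
    · exact h1
    · exact gen_negP h1
  have hsum : ns B c ε s P + ns B c ε s⁻¹ (-P) =
      ∑ p : ι, B (e p) (aX c ε (Q p)) (aY c ε (Q p)) := by
    rw [Fintype.sum_prod_type]
    simp only [Fintype.sum_bool]
    rw [Finset.sum_add_distrib, add_comm]
    congr 1
    · unfold ns
      rw [← Finset.sum_coe_sort]
      refine Finset.sum_congr rfl fun t _ => ?_
      have h1 : -P + t.1 = -(P + t.1) := by
        rw [neg_add, neg_mem_tors2 (mem_tors2.1 t.2)]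
      rw [h1]
      rfl
    · unfold ns
      rw [← Finset.sum_coe_sort]
      rfl
  rw [hsum]
  refine hB.fintype L hL hLa e _ _ (fun p => ⟨?_, ?_, ?_⟩) fun g hg => ?_
  · rcases p with ⟨t, b⟩
    rcases b with _ | _
    · exact Or.inl rfl
    · exact Or.inr rfl
  · exact aX_notMem T.disc T.memc (closed_cl0 _) T.emem T.root (hgP p)
  · exact Fin'.eqn T.root (gen_fin T.memc (closed_cl0 _) T.emem (hgP p))
  · obtain ⟨hgs, τ, hτ, hcase⟩ := hfix g hg
    obtain ⟨u, hu, hact⟩ := T.pt_act g hgs (H.fixc g hgs)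
    have hgpt : ∀ Q : (Wq c).Point, gfun (J.rh g) (J.fix_ab (J.rh g) (H.fixc g hgs)) Q =
        gpt g (H.fixc g hgs) Q := fun Q => rfl
    rw [hgpt] at hcase
    -- the permutation of the points of order two
    have hbij : Function.Bijective (fun t : {t // t ∈ tors2 (-qI c / 3) (-qJ c / 27)} =>
        (⟨τ + gpt g (H.fixc g hgs) t.1 + u, by
          rw [mem_tors2, nsmul_add, nsmul_add, hτ, hu,
            gpt_two g (H.fixc g hgs) (mem_tors2.1 t.2), add_zero, add_zero]⟩ :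
          {t // t ∈ tors2 (-qI c / 3) (-qJ c / 27)})) := by
      rw [← Finite.injective_iff_bijective]
      intro t t' h
      have h1 := congrArg Subtype.val h
      exact Subtype.ext (gpt_injective g (H.fixc g hgs)
        (add_left_cancel (add_right_cancel h1)))
    let σ₀ := Equiv.ofBijective _ hbij
    have hσ₀ : ∀ t, (σ₀ t).1 = τ + gpt g (H.fixc g hgs) t.1 + u := fun t => rfl
    have hn2 : ∀ {t : (Wq c).Point}, (2 : ℕ) • t = 0 → -t = t := fun ht => neg_mem_tors2 ht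
    have hng : ∀ t : {t // t ∈ tors2 (-qI c / 3) (-qJ c / 27)},
        -gpt g (H.fixc g hgs) t.1 = gpt g (H.fixc g hgs) t.1 := fun t =>
      hn2 (gpt_two g (H.fixc g hgs) (mem_tors2.1 t.2))
    rcases hcase with ⟨h1, h2⟩ | ⟨h1, h2⟩
    · refine ⟨Equiv.prodCongr σ₀ (Equiv.refl _), ?_⟩
      rintro ⟨t, b⟩
      obtain ⟨k1, k2⟩ := hact _ (hgP (t, b))
      have k3 : gpt g (H.fixc g hgs) (Q (t, b)) + u = Q (σ₀ t, b) := by
        rcases b with _ | _
        · change gpt g (H.fixc g hgs) (P + t.1) + u = P + (σ₀ t).1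
          rw [gpt_add, h2, hσ₀]
          abel
        · change gpt g (H.fixc g hgs) (-(P + t.1)) + u = -(P + (σ₀ t).1)
          rw [gpt_neg, gpt_add, h2, hσ₀, neg_add, neg_add, neg_add, neg_add, neg_add, hn2 hu,
            hn2 hτ, hng]
          abel
      rw [k1, k2, k3]
      refine ⟨?_, rfl, rfl⟩
      rcases b with _ | _
      · exact h1
      · exact (map_inv₀ g s).trans (congrArg _ h1)
    · refine ⟨Equiv.prodCongr σ₀ Equiv.boolNot, ?_⟩
      rintro ⟨t, b⟩
      obtain ⟨k1, k2⟩ := hact _ (hgP (t, b))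
      have k3 : gpt g (H.fixc g hgs) (Q (t, b)) + u = Q (σ₀ t, !b) := by
        rcases b with _ | _
        · change gpt g (H.fixc g hgs) (P + t.1) + u = -(P + (σ₀ t).1)
          rw [gpt_add, h2, hσ₀, neg_add, neg_add, neg_add, hn2 hu, hn2 hτ, hng]
          abel
        · change gpt g (H.fixc g hgs) (-(P + t.1)) + u = P + (σ₀ t).1
          rw [gpt_neg, gpt_add, h2, hσ₀, neg_add, neg_add, neg_neg, hn2 hτ, hng]
          abel
      rw [k1, k2, k3]
      refine ⟨?_, rfl, rfl⟩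
      rcases b with _ | _
      · exact h1
      · exact (map_inv₀ g s).trans ((congrArg _ h1).trans (inv_inv s))

end

section

variable {A N : Type} [AddCommGroup A] [Field N] [Algebra ℂ N] [IsAlgClosed N]

/-- **[T8]** The difference of the cycles at `s` and at `s⁻¹`. -/
theorem tside_star (h4 : Algebra.trdeg ℂ N = 4) {s : N} {c d : Fin 5 → N}
    {B : N → N → N → A} {𝓡 : AddSubgroup A} (hB : Star c s B 𝓡) (hd4 : Rat4 s d)
    (hs : Transcendental ℂ s) (memc : ∀ i, c i ∈ cl0 {s}) (memd : ∀ i, d i ∈ cl0 {s})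
    (fixc : ∀ g : N ≃ₐ[ℂ] N, g s = s ∨ g s = s⁻¹ → ∀ i, g (c i) = c i)
    (fixd : ∀ g : N ≃ₐ[ℂ] N, g s = s ∨ g s = s⁻¹ → ∀ i, g (d i) = d i)
    (disc : 4 * qI c ^ 3 ≠ qJ c ^ 2)
    (hI : qI c = (s - s⁻¹) ^ 4 * qI d) (hJ : qJ c = (s - s⁻¹) ^ 6 * qJ d)
    {X Y : N} (hX : X ∉ cl0 ({s} : Set N)) (hY : Y ^ 2 = qv c X) :
    (8 : ℤ) • (B s X Y - B s⁻¹ X Y) ∈ 𝓡 := by
  classical
  have : CharZero N := charZero_of_injective_algebraMap (algebraMap ℂ N).injective
  have H : J.Twist s c d := ⟨hs, memc, memd, fixc, fixd, disc, hI, hJ⟩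
  obtain ⟨ε, hε⟩ : ∃ ε : N, qv c ε = 0 := q_root c disc
  have T : TQ c s ε := ⟨h4, hs, memc, fixc, disc, hε⟩
  have hne : X ≠ ε := fun h => hX (by rw [h]; exact T.emem)
  obtain ⟨P, hfin, hPX, hPY⟩ := exists_fin T.disc T.root hY hne
  have hP : ¬ InF (cl0 {s}) P := by
    rw [← aX_mem_iff T.disc T.memc (closed_cl0 _) T.emem T.root hfin, hPX]
    exact hX
  have h1 := T.diff hB (fun P hP => T.jac_rel hB hd4 H hP) hP
  unfold be at h1
  rwa [hPX, hPY] at h1

/-- The family `dq D` satisfies `Rat4` if its `j`-invariant is not constant. -/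
theorem rat4_dq (h4 : Algebra.trdeg ℂ N = 4) {D : Fin 5 → Fin 3 → ℂ}
    (hj : ∀ α β : ℂ, (α ≠ 0 ∨ β ≠ 0) →
      C α * qI (H160.dq (fun i j => (C (D i j) : ℂ[X])) X) ^ 3 ≠
        C β * qJ (H160.dq (fun i j => (C (D i j) : ℂ[X])) X) ^ 2) {s : N}
    (hs : Transcendental ℂ s) :
    Rat4 s (H160.dq (fun i j => algebraMap ℂ N (D i j)) (lv s)) := by
  classical
  have : CharZero N := charZero_of_injective_algebraMap (algebraMap ℂ N).injective
  intro x y t₁ t₂ hx ht₁ ht₂ hy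
  exact (J.jtwo h4 hj hs hx ht₁ ht₂ hy).1

/-- **[T8]** for a `(4, 2)`-form -/
theorem tside8 (h4 : Algebra.trdeg ℂ N = 4) {s : N} {c : Fin 5 → N}
    {B : N → N → N → A} {𝓡 : AddSubgroup A} (hB : Star c s B 𝓡)
    {D : Fin 5 → Fin 3 → ℂ}
    (hD : Rat4 s (H160.dq (fun i j => algebraMap ℂ N (D i j)) (lv s)))
    (hs : Transcendental ℂ s) (memc : ∀ i, c i ∈ cl0 {s})
    (fixc : ∀ g : N ≃ₐ[ℂ] N, g s = s ∨ g s = s⁻¹ → ∀ i, g (c i) = c i)
    (disc : 4 * qI c ^ 3 ≠ qJ c ^ 2)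
    (hI : qI c = (s - s⁻¹) ^ 4 * qI (H160.dq (fun i j => algebraMap ℂ N (D i j)) (lv s)))
    (hJ : qJ c = (s - s⁻¹) ^ 6 * qJ (H160.dq (fun i j => algebraMap ℂ N (D i j)) (lv s)))
    {X Y : N} (hX : X ∉ cl0 ({s} : Set N)) (hY : Y ^ 2 = qv c X) :
    (8 : ℤ) • (B s X Y - B s⁻¹ X Y) ∈ 𝓡 := by
  have : CharZero N := charZero_of_injective_algebraMap (algebraMap ℂ N).injective
  have hs0 : s ≠ 0 := by
    rintro rfl
    exact hs isAlgebraic_zero
  refine tside_star h4 hB hD hs memc (J.dq_mem D (J.lv_mem (subset_cl0 _ rfl))) fixc ?_ disc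
    hI hJ hX hY
  intro g hg i
  have hl : g (lv s) = lv s := by
    have h1 := map_lv g.toAlgHom s
    change g (lv s) = lv (g s) at h1
    rw [h1]
    rcases hg with h | h
    · rw [h]
    · rw [h, lv_inv hs0]
  have h3 := J.map_dq (J.rh g) (fun i j => algebraMap ℂ N (D i j)) (lv s) i
  change g _ = H160.dq (fun i j => g (algebraMap ℂ N (D i j))) (g (lv s)) i at h3
  rw [h3, hl]
  simp only [AlgEquiv.commutes]

end

end Vale.Agent.P297.H637
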