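import Vale.Agent.P297.H637.ZSum
import Vale.Agent.P297.H521.TwoRoots
import Vale.Agent.P297.H521.RulC
import Vale.Agent.P297.H212.Camp.Deform

/-!
Block D in the form needed for the linking.
-/

set_option linter.unusedSectionVars false
set_option linter.unusedSimpArgs false
set_option linter.style.haveILetI false

namespace Vale.Agent.P297.H637

open Matrix IntermediateField Polynomial
open Vale.Agent.P297.C8 Vale.Agent.P297.H72 Vale.Agent.P297.H600
open Vale.Agent.P297 Vale.Agent.P297.Gen Vale.Agent.P297.Z3 Vale.Agent.P297.G4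
open Vale.Agent.P297.H729 Vale.Agent.P297.H839

section

variable {N : Type} [Field N] [Algebra ℂ N] [IsAlgClosed N] {Q : Web} {x y w : N}
  {z r : Fin 4 → N}

theorem M33_ne (h33 : ∃ i, Q i 3 3 ≠ 0) (hxy : AlgebraicIndependent ℂ ![x, y]) :
    MM Q x y 3 3 ≠ 0 := by
  haveI : CharZero N := charZero_of_injective_algebraMap (algebraMap ℂ N).injective
  obtain ⟨hx, hy⟩ := H55.T8.pair0.1 hxy
  have hx0 : x ≠ 0 := by
    rintro rfl
    exact hx isAlgebraic_zero
  have hy0 : y ≠ 0 := by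
    rintro rfl
    exact hy (zero_mem _)
  have hinj : Function.Injective (algebraMap ℂ N) := (algebraMap ℂ N).injective
  obtain ⟨q, hq⟩ : ∃ q : Fin 4 → N, q = fun i => algebraMap ℂ N (Q i 3 3) := ⟨_, rfl⟩
  have mq : ∀ i, q i ∈ cl0 ({x} : Set N) := fun i => by
    rw [hq]
    exact (cl0 ({x} : Set N)).algebraMap_mem _
  have mx : x ∈ cl0 ({x} : Set N) := subset_cl0 _ rfl
  have m2 : (2 : N) ∈ cl0 ({x} : Set N) := by
    have := (cl0 ({x} : Set N)).algebraMap_mem (2 : ℂ)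
    rwa [map_ofNat] at this
  intro h0
  have h1 : MM Q x y 3 3 = q 0 + (x + x⁻¹) / 2 * q 1 + (y + y⁻¹) / 2 * q 2 +
      (x * y + (x * y)⁻¹) / 2 * q 3 := by
    rw [MM, Fin.sum_univ_four, hq]
    simp only [lam, cons_val_zero, cons_val_one, cons_val_two, head_cons, tail_cons, cons_val,
      one_mul]
  have h2 : (q 2 + x⁻¹ * q 3) + (2 * q 0 + (x + x⁻¹) * q 1) * y + (q 2 + x * q 3) * y ^ 2 = 0 := by
    have h3 : (MM Q x y 3 3) * (2 * y) = 0 := by rw [h0, zero_mul]
    rw [h1] at h3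
    have hyy : y * y⁻¹ = 1 := mul_inv_cancel₀ hy0
    rw [mul_inv] at h3
    linear_combination h3 - (q 2 + x⁻¹ * q 3) * hyy
  by_cases hne : ∃ i, (![q 2 + x⁻¹ * q 3, 2 * q 0 + (x + x⁻¹) * q 1, q 2 + x * q 3, 0, 0] :
      Fin 5 → N) i ≠ 0
  · apply hy
    refine G4.root_mem (closed_cl0 _) ?_ hne ?_
    · intro i
      fin_cases i
      · exact add_mem (mq 2) (mul_mem (inv_mem mx) (mq 3))
      · exact add_mem (mul_mem m2 (mq 0)) (mul_mem (add_mem mx (inv_mem mx)) (mq 1))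
      · exact add_mem (mq 2) (mul_mem mx (mq 3))
      · exact zero_mem _
      · exact zero_mem _
    · unfold qv
      simp only [cons_val_zero, cons_val_one, cons_val_two, head_cons, tail_cons, cons_val]
      linear_combination h2
  · push Not at hne
    have e0 : q 2 + x⁻¹ * q 3 = 0 := hne 0
    have e1 : 2 * q 0 + (x + x⁻¹) * q 1 = 0 := hne 1
    have e2 : q 2 + x * q 3 = 0 := hne 2
    have hxx : x * x⁻¹ = 1 := mul_inv_cancel₀ hx0
    -- the coefficients are complex numbers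
    have key : ∀ a b c : ℂ, algebraMap ℂ N a + algebraMap ℂ N b * x + algebraMap ℂ N c * x ^ 2 = 0 →
        a = 0 ∧ b = 0 ∧ c = 0 := by
      intro a b c habc
      have h3 : aeval x (C a + C b * X + C c * X ^ 2 : ℂ[X]) = 0 := by
        simp only [map_add, map_mul, map_pow, aeval_C, aeval_X]
        exact habc
      have h4 := (transcendental_iff.1 hx) _ h3
      refine ⟨?_, ?_, ?_⟩
      · have := congrArg (fun p => coeff p 0) h4
        simpa using this
      · have := congrArg (fun p => coeff p 1) h4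
        simpa [coeff_X, coeff_C] using this
      · have := congrArg (fun p => coeff p 2) h4
        simpa [coeff_X, coeff_C] using this
    have k1 := key (-(Q 2 3 3)) (-(Q 3 3 3)) 0 (by
      have h5 : algebraMap ℂ N (Q 2 3 3) = q 2 := by rw [hq]
      have h6 : algebraMap ℂ N (Q 3 3 3) = q 3 := by rw [hq]
      rw [map_neg, map_neg, map_zero, h5, h6]
      linear_combination -e2)
    have k2 := key (Q 1 3 3) (2 * Q 0 3 3) (Q 1 3 3) (by
      have h5 : algebraMap ℂ N (Q 0 3 3) = q 0 := by rw [hq]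
      have h6 : algebraMap ℂ N (Q 1 3 3) = q 1 := by rw [hq]
      rw [map_mul, map_ofNat, h5, h6]
      linear_combination x * e1 - q 1 * hxx)
    obtain ⟨i, hi⟩ := h33
    apply hi
    fin_cases i
    · have := k2.2.1
      exact (mul_eq_zero.1 this).resolve_left two_ne_zero
    · exact k2.1
    · exact neg_eq_zero.1 k1.1
    · exact neg_eq_zero.1 k1.2.1

/-- An isotropic plane belongs to one of the rulings. -/
theorem exists_ruling {k : Type} [Field k] {M : Matrix (Fin 4) (Fin 4) k} (hM : M.IsSymm)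
    {z r : Fin 4 → k} (z0 : z 0 = 1) (r0 : r 0 = 0) (hr : r ≠ 0)
    (zz : z ⬝ᵥ M.mulVec z = 0) (zr : z ⬝ᵥ M.mulVec r = 0) (rr : r ⬝ᵥ M.mulVec r = 0) :
    ∃ w : k, w ^ 2 = M.det ∧ Rul M w z r := by
  obtain ⟨p, hp⟩ : ∃ p, p = M.mulVec z := ⟨_, rfl⟩
  obtain ⟨q, hq⟩ : ∃ q, q = M.mulVec r := ⟨_, rfl⟩
  have zr2 : r ⬝ᵥ M.mulVec z = 0 := by
    rw [← zr, dotProduct_comm, dot_symm hM, dotProduct_comm]
  have e1 : p 0 + (z 1 * p 1 + z 2 * p 2 + z 3 * p 3) = 0 := by
    rw [← hp, dotProduct, Fin.sum_univ_four, z0] at zz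
    linear_combination zz
  have e2 : r 1 * p 1 + r 2 * p 2 + r 3 * p 3 = 0 := by
    rw [← hp, dotProduct, Fin.sum_univ_four, r0] at zr2
    linear_combination zr2
  have e3 : q 0 + (z 1 * q 1 + z 2 * q 2 + z 3 * q 3) = 0 := by
    rw [← hq, dotProduct, Fin.sum_univ_four, z0] at zr
    linear_combination zr
  have e4 : r 1 * q 1 + r 2 * q 2 + r 3 * q 3 = 0 := by
    rw [← hq, dotProduct, Fin.sum_univ_four, r0] at rr
    linear_combination rr
  have hne : r 1 ≠ 0 ∨ r 2 ≠ 0 ∨ r 3 ≠ 0 := by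
    by_contra hcon
    push Not at hcon
    apply hr
    funext i
    fin_cases i
    · exact r0
    · exact hcon.1
    · exact hcon.2.1
    · exact hcon.2.2
  obtain ⟨w, w1, w2, w3⟩ : ∃ w : k, p 2 * q 3 - p 3 * q 2 = w * r 1 ∧
      p 3 * q 1 - p 1 * q 3 = w * r 2 ∧ p 1 * q 2 - p 2 * q 1 = w * r 3 := by
    rcases hne with h | h | h
    · refine ⟨(p 2 * q 3 - p 3 * q 2) / r 1, ?_, ?_, ?_⟩
      · field_simp
      · field_simp
        linear_combination p 3 * e4 - q 3 * e2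
      · field_simp
        linear_combination q 2 * e2 - p 2 * e4
    · refine ⟨(p 3 * q 1 - p 1 * q 3) / r 2, ?_, ?_, ?_⟩
      · field_simp
        linear_combination q 3 * e2 - p 3 * e4
      · field_simp
      · field_simp
        linear_combination p 1 * e4 - q 1 * e2
    · refine ⟨(p 1 * q 2 - p 2 * q 1) / r 3, ?_, ?_, ?_⟩
      · field_simp
        linear_combination p 2 * e4 - q 2 * e2
      · field_simp
        linear_combination q 1 * e2 - p 1 * e4
      · field_simp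
  have hR : Rul M w z r := by
    rw [rul_iff, ← hp, ← hq, z0, r0]
    have p0 : p 0 = -(z 1 * p 1 + z 2 * p 2 + z 3 * p 3) := by linear_combination e1
    have q0 : q 0 = -(z 1 * q 1 + z 2 * q 2 + z 3 * q 3) := by linear_combination e3
    rw [p0, q0]
    refine ⟨?_, ?_, ?_, ?_, ?_, ?_⟩
    · linear_combination z 2 * w3 - z 3 * w2
    · linear_combination z 3 * w1 - z 1 * w3
    · linear_combination z 1 * w2 - z 2 * w1
    · linear_combination w3
    · linear_combination -w2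
    · linear_combination w1
  refine ⟨w, ?_, hR⟩
  have h1 : c2 M (wd z r) = w • st6 (wd z r) := by
    rw [← wd_mulVec, ← ws_eq]
    exact hR
  have h2 := c2_transpose M (wd z r)
  rw [hM.eq, h1, st6_smul, st6_st6, c2_smul, h1, smul_smul, ← sub_eq_zero, ← sub_smul] at h2
  have h3 : st6 (wd z r) ≠ 0 := by
    intro h0
    rw [← ws_eq] at h0
    have k3 : z 0 * r 3 - z 3 * r 0 = 0 := congrFun h0 3
    have k4 : z 2 * r 0 - z 0 * r 2 = 0 := congrFun h0 4
    have k5 : z 0 * r 1 - z 1 * r 0 = 0 := congrFun h0 5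
    rw [z0, r0] at k3 k4 k5
    rcases hne with h | h | h
    · exact h (by linear_combination k5)
    · exact h (by linear_combination -k4)
    · exact h (by linear_combination k3)
  have h4 := (smul_eq_zero.1 h2).resolve_right h3
  linear_combination h4

/-- A point of the quadric with coordinates of transcendence degree four. -/
theorem genZ_of_all (h4 : Algebra.trdeg ℂ N = 4) (h33 : ∃ i, Q i 3 3 ≠ 0) {j k : Fin 4}
    (z0 : z 0 = 1) (zz : z ⬝ᵥ (MM Q x y).mulVec z = 0)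
    (hall : ∀ t : N, t ∈ cl0 {x, y, z j, z k}) : GenZ x y (MM Q x y) z := by
  haveI : CharZero N := charZero_of_injective_algebraMap (algebraMap ℂ N).injective
  have hr : Set.range (![x, y, z j, z k] : Fin 4 → N) = {x, y, z j, z k} := by
    ext t
    simp only [Set.mem_range, Set.mem_insert_iff, Set.mem_singleton_iff]
    constructor
    · rintro ⟨i, rfl⟩
      fin_cases i
      · exact Or.inl rfl
      · exact Or.inr (Or.inl rfl)
      · exact Or.inr (Or.inr (Or.inl rfl))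
      · exact Or.inr (Or.inr (Or.inr rfl))
    · rintro (rfl | rfl | rfl | rfl)
      · exact ⟨0, rfl⟩
      · exact ⟨1, rfl⟩
      · exact ⟨2, rfl⟩
      · exact ⟨3, rfl⟩
  have h1 : AlgebraicIndependent ℂ ![x, y, z j, z k] := ind_of_all h4 fun t => by
    rw [hr]
    exact hall t
  have hxy : AlgebraicIndependent ℂ ![x, y] := by
    have h2 := h1.comp (![0, 1] : Fin 2 → Fin 4) (by decide)
    have h3 : (![x, y, z j, z k] ∘ (![0, 1] : Fin 2 → Fin 4)) = ![x, y] := by
      funext i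
      fin_cases i <;> rfl
    rwa [h3] at h2
  refine ⟨z0, zz, ind_of_all h4 fun t => ?_⟩
  have m : ∀ i, (![x, y, z 1, z 2] : Fin 4 → N) i ∈
      cl0 (Set.range (![x, y, z 1, z 2] : Fin 4 → N)) := fun i => subset_cl0 _ ⟨i, rfl⟩
  have m0 : x ∈ cl0 (Set.range (![x, y, z 1, z 2] : Fin 4 → N)) := m 0
  have m1 : y ∈ cl0 (Set.range (![x, y, z 1, z 2] : Fin 4 → N)) := m 1
  have m2 : z 1 ∈ cl0 (Set.range (![x, y, z 1, z 2] : Fin 4 → N)) := m 2
  have m3 : z 2 ∈ cl0 (Set.range (![x, y, z 1, z 2] : Fin 4 → N)) := m 3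
  have hM : ∀ a b, MM Q x y a b ∈ cl0 (Set.range (![x, y, z 1, z 2] : Fin 4 → N)) :=
    MM_mem m0 m1
  have h3 : z 3 ∈ cl0 (Set.range (![x, y, z 1, z 2] : Fin 4 → N)) := by
    have h5 := zz
    simp only [dotProduct, mulVec, Fin.sum_univ_four, z0] at h5
    refine G4.root_mem (closed_cl0 _) (c := ![MM Q x y 0 0 + MM Q x y 0 1 * z 1 +
      MM Q x y 0 2 * z 2 + z 1 * (MM Q x y 1 0 + MM Q x y 1 1 * z 1 + MM Q x y 1 2 * z 2) +
      z 2 * (MM Q x y 2 0 + MM Q x y 2 1 * z 1 + MM Q x y 2 2 * z 2),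
      MM Q x y 0 3 + z 1 * MM Q x y 1 3 + z 2 * MM Q x y 2 3 + MM Q x y 3 0 +
      MM Q x y 3 1 * z 1 + MM Q x y 3 2 * z 2, MM Q x y 3 3, 0, 0]) ?_
      ⟨2, M33_ne h33 hxy⟩ ?_
    · intro i
      fin_cases i
      · exact add_mem (add_mem (add_mem (add_mem (hM _ _) (mul_mem (hM _ _) m2))
          (mul_mem (hM _ _) m3)) (mul_mem m2 (add_mem (add_mem (hM _ _) (mul_mem (hM _ _) m2))
          (mul_mem (hM _ _) m3)))) (mul_mem m3 (add_mem (add_mem (hM _ _) (mul_mem (hM _ _) m2))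
          (mul_mem (hM _ _) m3)))
      · exact add_mem (add_mem (add_mem (add_mem (add_mem (hM _ _) (mul_mem m2 (hM _ _)))
          (mul_mem m3 (hM _ _))) (hM _ _)) (mul_mem (hM _ _) m2)) (mul_mem (hM _ _) m3)
      · exact hM _ _
      · exact zero_mem _
      · exact zero_mem _
    · unfold qv
      simp only [cons_val_zero, cons_val_one, cons_val_two, head_cons, tail_cons, cons_val]
      linear_combination h5
  have h5 : ∀ i, z i ∈ cl0 (Set.range (![x, y, z 1, z 2] : Fin 4 → N)) := by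
    intro i
    fin_cases i
    · change z 0 ∈ _
      rw [z0]
      exact one_mem _
    · exact m2
    · exact m3
    · exact h3
  refine cl0_le (closed_cl0 _) ?_ (hall t)
  rintro _ (rfl | rfl | rfl | rfl)
  · exact m0
  · exact m1
  · exact h5 _
  · exact h5 _

variable {K K₁ : Type} [Field K] [Algebra ℂ K] [Field K₁] [Algebra ℂ K₁]

theorem eval_qm_fL (Q : Web) {x y : N} (hx : x ≠ 0) (hy : y ≠ 0) {z r : Fin 4 → N}
    (hiso : ∀ t : N, MB Q x y (z + t • r) (z + t • r) = 0) :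
    H212.Camp.qm Q (mv x y) z r * H212.Camp.qm Q (H212.Camp.mop (mv x y)) z r =
      C (y⁻¹ * x) * fL Q z r := by
  apply Polynomial.funext
  intro t
  have h1 := H212.Camp.cm_mul (mv x y) (qq Q (z + t • r))
  rw [H212.Camp.dt_lm_mv hx hy, hiso t, mul_zero, mul_zero, add_zero] at h1
  rw [eval_mul, eval_mul, eval_C, H212.Camp.eval_qm, H212.Camp.eval_qm, h1, eval_fL]
  have h2 : (fun j => z j + t * r j) = z + t • r := rfl
  rw [h2]
  simp only [mv, cons_val_zero, cons_val_one, cons_val_two, head_cons, tail_cons, cons_val,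
    mul_one]

variable (hQ : ∀ i, (Q i).IsSymm) (hfin : ∀ o : Fin 4 → ℂ, qq Q o = 0 → o = 0)
  (hirr : Irreducible (octic Q)) (h4 : Algebra.trdeg ℂ N = 4)

include hQ hfin hirr h4

/-- The cycle of a generic line is a sum over the roots. -/
theorem GQ.psi_eq (h : GQ Q x y w z) {c : Fin 4 → K₁} (r0 : r 0 = 0) (hr : r ≠ 0)
    (hR : Rul (MM Q x y) w z r) :
    R1.Psi Q c x y w z = H212.Camp.RS c z r (H212.Camp.qm Q (mv x y) z r) := by
  classical
  haveI : CharZero N := charZero_of_injective_algebraMap (algebraMap ℂ N).injective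
  have hx := h.x_ne
  have hy := h.y_ne
  have hline := Rul.line two_ne_zero (MM_isSymm hQ x y) h.det_ne h.ne h.gen.one r0 hr hR
  have hpt : ∀ t : N, (z + t • r) 0 = 1 ∧ Rul (MM Q x y) w z (z + t • r) := fun t =>
    h.pt_line hQ hfin hirr h4 r0 hr hR t
  have hiso : ∀ t : N, MB Q x y (z + t • r) (z + t • r) = 0 := by
    intro t
    rw [← MM_mulVec]
    have h5 := h.iso_right hQ (hpt t).2
    rw [dotProduct_comm] at h5
    exact h5
  have hprod := eval_qm_fL Q hx hy hiso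
  have hf0 := h.fL_ne hQ hfin hirr h4 r0 hr hR
  have hc0 : (C (y⁻¹ * x) : N[X]) ≠ 0 := C_ne_zero.2 (mul_ne_zero (inv_ne_zero hy) hx)
  have hF0 : H212.Camp.qm Q (mv x y) z r ≠ 0 := by
    intro h0
    rw [h0, zero_mul] at hprod
    exact mul_ne_zero hc0 hf0 hprod.symm
  have hnd : (H212.Camp.qm Q (mv x y) z r).roots.Nodup := by
    refine Multiset.nodup_of_le ?_ (h.nodup hQ hfin hirr h4 r0 hr hR)
    have h5 : (H212.Camp.qm Q (mv x y) z r).roots ≤ (C (y⁻¹ * x) * fL Q z r).roots := by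
      rw [← hprod]
      exact Polynomial.roots.le_of_dvd (by rw [hprod]; exact mul_ne_zero hc0 hf0)
        (Dvd.intro _ rfl)
    rwa [roots_C_mul _ (mul_ne_zero (inv_ne_zero hy) hx)] at h5
  have hinj : Function.Injective (fun t : N => z + t • r) := by
    intro t t' htt
    obtain ⟨k, hk⟩ : ∃ k, r k ≠ 0 := by
      by_contra hcon
      push Not at hcon
      exact hr (funext hcon)
    have h1 : z k + t * r k = z k + t' * r k := congrFun htt k
    exact mul_right_cancel₀ hk (add_left_cancel h1)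
  have hset : R1.PtSet Q x y w z = (fun t : N => z + t • r) ''
      ((H212.Camp.qm Q (mv x y) z r).roots.toFinset : Set N) := by
    ext o
    constructor
    · rintro ⟨e1, e2, e3, e4⟩
      obtain ⟨t, ht⟩ := (hline o).1 e4
      rw [e1, one_smul] at ht
      refine ⟨t, ?_, ht.symm⟩
      rw [Finset.mem_coe, Multiset.mem_toFinset, mem_roots hF0, IsRoot, H212.Camp.eval_qm, ← ht,
        H212.Camp.cm_eq]
      exact e3
    · rintro ⟨t, ht, rfl⟩
      rw [Finset.mem_coe, Multiset.mem_toFinset, mem_roots hF0, IsRoot, H212.Camp.eval_qm] at ht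
      obtain ⟨e1, e2⟩ := hpt t
      refine ⟨e1, H212.Camp.st_of_cm hx hy ht (hiso t), ?_, e2⟩
      rw [← H212.Camp.cm_eq]
      exact ht
  unfold R1.Psi H212.Camp.RS
  rw [hset, finsum_mem_image hinj.injOn, finsum_mem_coe_finset]
  have h6 : (H212.Camp.qm Q (mv x y) z r).roots =
      (H212.Camp.qm Q (mv x y) z r).roots.toFinset.val := by
    rw [Multiset.toFinset_val, Multiset.dedup_eq_self.2 hnd]
  conv_rhs => rw [h6]
  rfl

/-- **Block D**, final form. -/
theorem blockD_RS {p q : ℂ[X]} {P : Fin 5 → ℂ[X]} {TS TX : N → N → N} {TY : N → N → N → N}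
    (hp : p.natDegree ≤ 4) (hq : q.natDegree ≤ 6) (hdisc : 4 * p ^ 3 ≠ q ^ 2)
    (hnt : ∀ α β a b : ℂ, ¬ (p = C α * (C a * X + C b) ^ 4 ∧ q = C β * (C a * X + C b) ^ 6))
    (hI : qI P = (X * (X - 4)) ^ 2 * p) (hJ : qJ P = (X * (X - 4)) ^ 3 * q)
    (tw : Twin Q P TS TX TY) {c : Fin 4 → K₁} (hc : C8.IsFF Q c) (ι : K →ₐ[ℂ] K₁) {m : ℤ}
    (h33 : ∃ i, Q i 3 3 ≠ 0)
    (hH : ∀ {x y w : N} {z : Fin 4 → N} {x' y' w' : N}, GQ Q x y w z →
      AlgebraicIndependent ℂ ![x', y'] → w' ^ 2 = (MM Q x' y').det → TS x' y' = TS x y →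
      TX x' y' = TX x y → TY x' y' w' = TY x y w → ∃ z', GQ Q x' y' w' z' ∧
        resD ι (R1.Psi Q c x' y' w' z') = resD ι (R1.Psi Q c x y w z))
    {x y : N} {z r : Fin 4 → N} {j k : Fin 4} (z0 : z 0 = 1) (r0 : r 0 = 0) (hr : r ≠ 0)
    (zz : MB Q x y z z = 0) (zr : MB Q x y z r = 0) (rr : MB Q x y r r = 0)
    (hall : ∀ t : N, t ∈ cl0 {x, y, z j, z k}) :
    (128 : ℤ) • resD ι (H212.Camp.RS c z r (H212.Camp.qm Q (mv x y) z r)) ∈
      H72.Rel m K N := by
  have zz' : z ⬝ᵥ (MM Q x y).mulVec z = 0 := (MM_mulVec Q x y z z).trans zz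
  have zr' : z ⬝ᵥ (MM Q x y).mulVec r = 0 := (MM_mulVec Q x y z r).trans zr
  have rr' : r ⬝ᵥ (MM Q x y).mulVec r = 0 := (MM_mulVec Q x y r r).trans rr
  have hgen := genZ_of_all h4 h33 z0 zz' hall
  obtain ⟨w, hw, hR⟩ := exists_ruling (MM_isSymm hQ x y) z0 r0 hr zz' zr' rr'
  have hw0 : w ≠ 0 := by
    intro h0
    have h1 := (tw.gen hgen.xy hw).Y_ne hdisc hI hJ
    rw [h0, tw.zero] at h1
    exact h1 rfl
  have h : GQ Q x y w z := ⟨hgen, hw, hw0⟩
  rw [← h.psi_eq hQ hfin hirr h4 r0 hr hR]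
  exact blockD_aux hQ hfin hirr h4 hp hq hdisc hnt hI hJ tw hc ι
    (fun hxy hdet μ₁ μ₂ h1 h2 => two_roots hQ h33 hxy hdet h1 h2) hH h

end

end Vale.Agent.P297.H637
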