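import Vale.Agent.P297.H637.LineRat
import Vale.Agent.P297.H521.RulConst
import Vale.Agent.P297.H777.Dbl
import Vale.Agent.P297.H55.T8F

/-!
The points of the octic on a generic line of a ruling of a generic quadric of the web are generic
points of the octic.
-/

set_option linter.unusedSectionVars false
set_option linter.unusedSimpArgs false
set_option linter.style.haveILetI false

namespace Vale.Agent.P297.H637

open Matrix IntermediateField Polynomial
open Vale.Agent.P297.C8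
open Vale.Agent.P297 Vale.Agent.P297.Gen Vale.Agent.P297.Z3 Vale.Agent.P297.G4

section

variable {N : Type} [Field N] [Algebra ℂ N] {Q : Web} {x y w : N} {z u : Fin 4 → N}

/-- The quadrics have no common zeros over any field. -/
theorem qq_ne (hfin : ∀ o : Fin 4 → ℂ, qq Q o = 0 → o = 0) (hu : u ≠ 0) : qq Q u ≠ 0 := by
  intro h0
  obtain ⟨k, hk⟩ : ∃ k, u k ≠ 0 := by
    by_contra hcon
    push Not at hcon
    exact hu (funext hcon)
  have h1 : qq Q ((u k)⁻¹ • u) = 0 := by rw [qq_smul, h0, smul_zero]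
  obtain ⟨o, ho, ho'⟩ := H777.no_zero_ext (ι := Fin 4) (κ := Fin 4)
    (fun i => qq Q (MvPolynomial.X : Fin 4 → MvPolynomial (Fin 4) ℂ) i) ((u k)⁻¹ • u) (by
      intro i
      rw [map_qq]
      simp only [MvPolynomial.aeval_X]
      exact congrFun h1 i)
  have h2 : qq Q o = 0 := by
    funext i
    have h3 := ho i
    rw [map_qq] at h3
    simp only [MvPolynomial.aeval_X] at h3
    exact h3
  have h3 := hfin o h2
  have h4 := ho' (MvPolynomial.X k - 1) (by
    rw [map_sub, map_one, MvPolynomial.aeval_X]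
    change (u k)⁻¹ * u k - 1 = 0
    rw [inv_mul_cancel₀ hk, sub_self])
  rw [map_sub, map_one, MvPolynomial.aeval_X, h3] at h4
  simp at h4

theorem MM_mem {F : IntermediateField ℂ N} (hx : x ∈ F) (hy : y ∈ F) (i j : Fin 4) :
    MM Q x y i j ∈ F := by
  have h2 : (2 : N) ∈ F := by
    have := F.algebraMap_mem (2 : ℂ)
    rwa [map_ofNat] at this
  refine sum_mem fun k _ => mul_mem ?_ (F.algebraMap_mem _)
  fin_cases k
  · exact one_mem _
  · exact div_mem (add_mem hx (inv_mem hx)) h2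
  · exact div_mem (add_mem hy (inv_mem hy)) h2
  · exact div_mem (add_mem (mul_mem hx hy) (inv_mem (mul_mem hx hy))) h2

theorem det_mem {F : IntermediateField ℂ N} (hx : x ∈ F) (hy : y ∈ F) :
    (MM Q x y).det ∈ F := by
  rw [Matrix.det_apply]
  exact sum_mem fun σ _ => zsmul_mem (prod_mem fun i _ => MM_mem hx hy _ _) _

variable [IsAlgClosed N]

theorem sq_mem {F : IntermediateField ℂ N} (hF : Closed F) {a b : N} (h : a ^ 2 = b)
    (hb : b ∈ F) : a ∈ F := by
  apply hF
  refine ⟨X ^ 2 - C ⟨b, hb⟩, (monic_X_pow_sub_C _ two_ne_zero).ne_zero, ?_⟩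
  rw [map_sub, map_pow, aeval_X, aeval_C, h]
  exact sub_self b

/-- A point of the Steiner surface comes from a point of the plane. -/
theorem exists_v {F : IntermediateField ℂ N} (hF : Closed F) {q : Fin 4 → N}
    (hq : ∀ i, q i ∈ F) (hst : st q = 0) (hq0 : q ≠ 0) :
    ∃ v : Fin 3 → N, (∀ i, v i ∈ F) ∧ v ≠ 0 ∧ ∃ c : N, c ≠ 0 ∧ ee v = c • q := by
  haveI : CharZero N := charZero_of_injective_algebraMap (algebraMap ℂ N).injective
  have m2 : (2 : N) ∈ F := by
    have := F.algebraMap_mem (2 : ℂ)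
    rwa [map_ofNat] at this
  by_cases h123 : q 1 * q 2 * q 3 = 0
  · have h1 : (q 2 * q 3) ^ 2 + (q 1 * q 3) ^ 2 + (q 1 * q 2) ^ 2 = 0 := by
      simp only [st] at hst
      linear_combination hst + 2 * q 0 * h123
    have hcase : (q 1 = 0 ∧ q 2 = 0) ∨ (q 1 = 0 ∧ q 3 = 0) ∨ (q 2 = 0 ∧ q 3 = 0) := by
      rcases mul_eq_zero.1 h123 with h2 | h2
      · rcases mul_eq_zero.1 h2 with h3 | h3
        · rw [h3] at h1
          have h4 : (q 2 * q 3) ^ 2 = 0 := by linear_combination h1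
          rcases mul_eq_zero.1 (pow_eq_zero_iff two_ne_zero |>.1 h4) with h5 | h5
          · exact Or.inl ⟨h3, h5⟩
          · exact Or.inr (Or.inl ⟨h3, h5⟩)
        · rw [h3] at h1
          have h4 : (q 1 * q 3) ^ 2 = 0 := by linear_combination h1
          rcases mul_eq_zero.1 (pow_eq_zero_iff two_ne_zero |>.1 h4) with h5 | h5
          · exact Or.inl ⟨h5, h3⟩
          · exact Or.inr (Or.inr ⟨h3, h5⟩)
      · rw [h2] at h1
        have h4 : (q 1 * q 2) ^ 2 = 0 := by linear_combination h1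
        rcases mul_eq_zero.1 (pow_eq_zero_iff two_ne_zero |>.1 h4) with h5 | h5
        · exact Or.inr (Or.inl ⟨h5, h2⟩)
        · exact Or.inr (Or.inr ⟨h5, h2⟩)
    have key : ∀ s : N, s ∈ F → ∃ a b : N, a ∈ F ∧ b ∈ F ∧ a ^ 2 + b ^ 2 = q 0 ∧
        2 * (a * b) = s := by
      intro s hs
      obtain ⟨α, hα⟩ := IsAlgClosed.exists_pow_nat_eq (q 0 + s) (n := 2) two_pos
      obtain ⟨β, hβ⟩ := IsAlgClosed.exists_pow_nat_eq (q 0 - s) (n := 2) two_pos
      have mα : α ∈ F := sq_mem hF hα (add_mem (hq 0) hs)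
      have mβ : β ∈ F := sq_mem hF hβ (sub_mem (hq 0) hs)
      refine ⟨(α + β) / 2, (α - β) / 2, div_mem (add_mem mα mβ) m2,
        div_mem (sub_mem mα mβ) m2, ?_, ?_⟩
      · linear_combination (1 / 2 : N) * hα + (1 / 2 : N) * hβ
      · linear_combination (1 / 2 : N) * hα - (1 / 2 : N) * hβ
    have fin : ∀ v : Fin 3 → N, (∀ i, v i ∈ F) → ee v = q →
        ∃ v : Fin 3 → N, (∀ i, v i ∈ F) ∧ v ≠ 0 ∧ ∃ c : N, c ≠ 0 ∧ ee v = c • q := by
      intro v hv he
      refine ⟨v, hv, ?_, 1, one_ne_zero, by rw [he, one_smul]⟩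
      rintro rfl
      apply hq0
      rw [← he]
      funext i
      fin_cases i <;> simp
    rcases hcase with ⟨e1, e2⟩ | ⟨e1, e2⟩ | ⟨e1, e2⟩
    · obtain ⟨a, b, ha, hb, h3, h4⟩ := key (q 3) (hq 3)
      refine fin ![a, b, 0] ?_ ?_
      · intro i
        fin_cases i
        · exact ha
        · exact hb
        · exact zero_mem _
      · funext i
        fin_cases i
        · simp [h3]
        · simp [e1]
        · simp [e2]
        · simp [h4]
    · obtain ⟨a, b, ha, hb, h3, h4⟩ := key (q 2) (hq 2)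
      refine fin ![a, 0, b] ?_ ?_
      · intro i
        fin_cases i
        · exact ha
        · exact zero_mem _
        · exact hb
      · funext i
        fin_cases i
        · simp [h3]
        · simp [e1]
        · simp [h4]
        · simp [e2]
    · obtain ⟨a, b, ha, hb, h3, h4⟩ := key (q 1) (hq 1)
      refine fin ![0, a, b] ?_ ?_
      · intro i
        fin_cases i
        · exact zero_mem _
        · exact ha
        · exact hb
      · funext i
        fin_cases i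
        · simp [h3]
        · simp [h4]
        · simp [e1]
        · simp [e2]
  · refine ⟨vy q, ?_, ?_, 2 * (q 1 * q 2 * q 3), mul_ne_zero two_ne_zero h123, ee_vy hst⟩
    · intro i
      fin_cases i
      · exact mul_mem (hq 2) (hq 3)
      · exact mul_mem (hq 1) (hq 3)
      · exact mul_mem (hq 1) (hq 2)
    · intro h0
      have h1 := congrFun h0 0
      simp only [vy_zero, Pi.zero_apply] at h1
      apply h123
      rw [mul_assoc, h1, mul_zero]

/-- A generic isotropic vector of a generic quadric of the web. -/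
structure GQ (Q : Web) (x y w : N) (z : Fin 4 → N) : Prop where
  gen : GenZ x y (MM Q x y) z
  det : w ^ 2 = (MM Q x y).det
  ne : w ≠ 0

theorem GQ.det_ne (h : GQ Q x y w z) : (MM Q x y).det ≠ 0 := by
  rw [← h.det]
  exact pow_ne_zero 2 h.ne

theorem GQ.iso (h : GQ Q x y w z) : ((MM Q x y) *ᵥ z) ⬝ᵥ z = 0 := by
  rw [dotProduct_comm]
  exact h.gen.iso

theorem GQ.no3 (h4 : Algebra.trdeg ℂ N = 4) (h : GQ Q x y w z) (a b c : N)
    (hx : x ∈ cl0 {a, b, c}) (hy : y ∈ cl0 {a, b, c}) (hz : ∀ i, z i ∈ cl0 {a, b, c}) :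
    False := by
  obtain ⟨t, ht⟩ := exists_notMem3 h4 a b c
  apply ht
  refine cl0_le (closed_cl0 _) ?_ (all_of_ind h4 h.gen.ind t)
  rintro _ ⟨i, rfl⟩
  fin_cases i
  · exact hx
  · exact hy
  · exact hz 1
  · exact hz 2

theorem GQ.x_ne (h : GQ Q x y w z) : x ≠ 0 := by
  rintro rfl
  exact h.gen.ind.transcendental 0 isAlgebraic_zero

theorem GQ.y_ne (h : GQ Q x y w z) : y ≠ 0 := by
  rintro rfl
  exact h.gen.ind.transcendental 1 isAlgebraic_zero

theorem w_mem {F : IntermediateField ℂ N} (hF : Closed F) (hx : x ∈ F) (hy : y ∈ F)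
    (hw : w ^ 2 = (MM Q x y).det) : w ∈ F := sq_mem hF hw (det_mem hx hy)

variable (hQ : ∀ i, (Q i).IsSymm) (hfin : ∀ o : Fin 4 → ℂ, qq Q o = 0 → o = 0)

include hQ

/-- A line of the ruling through a generic point is not rational over `cl0 {a, b} ∋ x, y`. -/
theorem GQ.not_rational (h4 : Algebra.trdeg ℂ N = 4) (h : GQ Q x y w z) {a b : N}
    (hx : x ∈ cl0 {a, b}) (hy : y ∈ cl0 {a, b}) (hu : ∀ i, u i ∈ cl0 {a, b}) (hu0 : u ≠ 0)
    (hR : Rul (MM Q x y) w z u) : False := by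
  haveI : CharZero N := charZero_of_injective_algebraMap (algebraMap ℂ N).injective
  obtain ⟨t, ht⟩ := hR.symm.mem_cl0 (MM_isSymm hQ x y) h.det_ne h.ne (MM_mem hx hy)
    (w_mem (closed_cl0 _) hx hy h.det) hu hu0 h.gen.one
  have hle : cl0 ({a, b} : Set N) ≤ cl0 {a, b, t} := by
    refine cl0_le (closed_cl0 _) ?_
    rintro _ (rfl | rfl)
    · exact subset_cl0 _ (by simp)
    · exact subset_cl0 _ (by simp)
  refine h.no3 h4 a b t (hle hx) (hle hy) fun i => ?_
  have h1 := ht i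
  have h2 : ({a, b} ∪ {t} : Set N) = {a, b, t} := by
    ext s
    simp only [Set.mem_union, Set.mem_insert_iff, Set.mem_singleton_iff]
    tauto
  rwa [h2] at h1

theorem GQ.iso_right (h : GQ Q x y w z) (hR : Rul (MM Q x y) w z u) :
    ((MM Q x y) *ᵥ u) ⬝ᵥ u = 0 := by
  by_cases hi : LinearIndependent N ![z, u]
  · exact (hR.iso (MM_isSymm hQ x y) h.det_ne hi).2.2
  · rw [LinearIndependent.pair_iff] at hi
    push Not at hi
    obtain ⟨s, t, hst, hne⟩ := hi
    have ht : t ≠ 0 := by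
      rintro rfl
      rw [zero_smul, add_zero] at hst
      have h0 := congrFun hst 0
      simp only [Pi.smul_apply, smul_eq_mul, h.gen.one, mul_one, Pi.zero_apply] at h0
      exact hne h0 rfl
    have hu : u = (-(t⁻¹ * s)) • z := by
      have h1 : t⁻¹ • (s • z + t • u) = 0 := by rw [hst, smul_zero]
      rw [smul_add, smul_smul, smul_smul, inv_mul_cancel₀ ht, one_smul] at h1
      rw [neg_smul]
      exact eq_neg_of_add_eq_zero_right h1
    rw [hu, mulVec_smul, smul_dotProduct, dotProduct_smul, h.iso, smul_zero, smul_zero]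

include hfin

/-- **Key lemma.** -/
theorem GQ.key (h4 : Algebra.trdeg ℂ N = 4) (h : GQ Q x y w z) (hu0 : u ≠ 0)
    (hR : Rul (MM Q x y) w z u) (hst : st (qq Q u) = 0) (θ : N) (hu : ∀ i, u i ∈ cl0 {θ}) :
    False := by
  haveI : CharZero N := charZero_of_injective_algebraMap (algebraMap ℂ N).injective
  have hq : ∀ i, qq Q u i ∈ cl0 ({θ} : Set N) := by
    intro i
    rw [qq_apply]
    exact sum_mem fun a _ => sum_mem fun b _ => mul_mem
      ((cl0 ({θ} : Set N)).algebraMap_mem _)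
      (mul_mem (hu a) (hu b))
  obtain ⟨v, hv, hv0, c, hc, hvc⟩ := exists_v (closed_cl0 _) hq hst (qq_ne hfin hu0)
  have hx := h.x_ne
  have hy := h.y_ne
  have h1 : MB Q x y u u = 0 := by
    rw [← MM_mulVec]
    have h2 := h.iso_right hQ hR
    rw [dotProduct_comm] at h2
    exact h2
  have h2 : (∑ i, mv x y i * v i) * (∑ i, mv x⁻¹ y⁻¹ i * v i) = 0 := by
    rw [← lam_ee hx hy, hvc]
    simp only [Pi.smul_apply, smul_eq_mul]
    have h3 : ∑ i, lam x y i * (c * qq Q u i) = c * MB Q x y u u := by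
      rw [MB, Finset.mul_sum]
      exact Finset.sum_congr rfl fun i _ => by
        change _ = c * (lam x y i * qq Q u i)
        ring
    rw [h3, h1, mul_zero]
  -- the common part
  have key : ∀ x' y' : N, x' ≠ 0 → y' ≠ 0 → (∑ i, mv x' y' i * v i) = 0 →
      ∃ η, x' ∈ cl0 {θ, η} ∧ y' ∈ cl0 {θ, η} := by
    intro x' y' hx' hy' h3
    simp only [Fin.sum_univ_three, mv, cons_val_zero, cons_val_one, cons_val_two, head_cons,
      tail_cons, cons_val, one_mul] at h3
    have hv' : ∀ η i, v i ∈ cl0 ({θ, η} : Set N) := fun η i =>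
      cl0_le (closed_cl0 _) (Set.singleton_subset_iff.2 (subset_cl0 _ (by simp))) (hv i)
    by_cases hv1 : v 1 = 0
    · rw [hv1, mul_zero, add_zero] at h3
      refine ⟨x', subset_cl0 _ (by simp), ?_⟩
      have hv00 : v 0 ≠ 0 := by
        intro h5
        rw [h5, mul_zero, zero_add] at h3
        apply hv0
        funext i
        fin_cases i
        · exact h5
        · exact hv1
        · exact h3
      have h6 : y'⁻¹ = -v 2 / v 0 := by
        rw [eq_div_iff hv00]
        linear_combination h3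
      have h7 : y'⁻¹ ∈ cl0 ({θ, x'} : Set N) := by
        rw [h6]
        exact div_mem (neg_mem (hv' _ 2)) (hv' _ 0)
      have h8 := inv_mem h7
      rwa [inv_inv] at h8
    · refine ⟨y', ?_, subset_cl0 _ (by simp)⟩
      have h6 : x' = -(v 2 + y'⁻¹ * v 0) / v 1 := by
        rw [eq_div_iff hv1]
        linear_combination h3
      rw [h6]
      exact div_mem (neg_mem (add_mem (hv' _ 2) (mul_mem
        (inv_mem (subset_cl0 _ (by simp))) (hv' _ 0)))) (hv' _ 1)
  obtain ⟨η, h5, h6⟩ : ∃ η, x ∈ cl0 {θ, η} ∧ y ∈ cl0 {θ, η} := by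
    rcases mul_eq_zero.1 h2 with h3 | h3
    · exact key x y hx hy h3
    · obtain ⟨η, h5, h6⟩ := key x⁻¹ y⁻¹ (inv_ne_zero hx) (inv_ne_zero hy) h3
      refine ⟨η, ?_, ?_⟩
      · have := inv_mem h5
        rwa [inv_inv] at this
      · have := inv_mem h6
        rwa [inv_inv] at this
  exact h.not_rational hQ h4 h5 h6 (fun i => cl0_le (closed_cl0 _)
    (Set.singleton_subset_iff.2 (subset_cl0 _ (by simp))) (hu i)) hu0 hR

/-- The points of the octic on the line are generic points of the octic. -/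
theorem GQ.genW (hirr : Irreducible (octic Q)) (h4 : Algebra.trdeg ℂ N = 4)
    (h : GQ Q x y w z) (hu0 : u ≠ 0) (hR : Rul (MM Q x y) w z u) (hst : st (qq Q u) = 0) :
    GenW Q u := by
  haveI : CharZero N := charZero_of_injective_algebraMap (algebraMap ℂ N).injective
  obtain ⟨k, hk⟩ : ∃ k, u k ≠ 0 := by
    by_contra hcon
    push Not at hcon
    exact hu0 (funext hcon)
  have hne : ∀ θ, ∃ i, u i / u k ∉ cl0 ({θ} : Set N) := by
    intro θ
    by_contra hcon
    push Not at hcon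
    refine h.key hQ hfin h4 (u := (u k)⁻¹ • u) ?_ (hR.smul _) ?_ θ fun i => ?_
    · intro h0
      exact hu0 ((smul_eq_zero.1 h0).resolve_left (inv_ne_zero hk))
    · rw [qq_smul, st_smul, hst, mul_zero]
    · have := hcon i
      rw [div_eq_inv_mul] at this
      exact this
  obtain ⟨i, hi⟩ := hne 0
  obtain ⟨j, hj⟩ := hne (u i / u k)
  have htr : Transcendental ℂ (u i / u k) := by
    intro h0
    apply hi
    apply closed_cl0
    exact h0.tower_top _
  refine GenW.of_ratios hirr hst k ![u i / u k, u j / u k] (H55.T8.pair0.2 ⟨htr, hj⟩) ?_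
  intro l
  fin_cases l
  · exact subset_adjoin _ _ ⟨i, rfl⟩
  · exact subset_adjoin _ _ ⟨j, rfl⟩

omit hQ in
/-- A point of the octic whose ratios in the plane are rational is rational. -/
theorem rational_of_ratio {F : IntermediateField ℂ N} (hF : Closed F) {u : Fin 4 → N}
    (hu1 : u 0 = 1) (hst : st (qq Q u) = 0)
    (hq : ∀ i, qq Q u i ≠ 0) (m0 : vy (qq Q u) 0 / vy (qq Q u) 2 ∈ F)
    (m1 : vy (qq Q u) 1 / vy (qq Q u) 2 ∈ F) (i : Fin 4) : u i ∈ F := by
  haveI : CharZero N := charZero_of_injective_algebraMap (algebraMap ℂ N).injective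
  have m2 : (2 : N) ∈ F := by
    have := F.algebraMap_mem (2 : ℂ)
    rwa [map_ofNat] at this
  obtain ⟨q, hqdef⟩ : ∃ q, q = qq Q u := ⟨_, rfl⟩
  rw [← hqdef] at hst hq m0 m1
  have hv2 : vy q 2 ≠ 0 := mul_ne_zero (hq 1) (hq 2)
  obtain ⟨v', hv'def⟩ : ∃ v', v' = (vy q 2)⁻¹ • vy q := ⟨_, rfl⟩
  have hv' : ∀ i, v' i ∈ F := by
    intro i
    rw [hv'def, Pi.smul_apply, smul_eq_mul, ← div_eq_inv_mul]
    fin_cases i
    · exact m0
    · exact m1
    · change vy q 2 / vy q 2 ∈ F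
      rw [div_self hv2]
      exact one_mem _
  obtain ⟨κ, hκ⟩ : ∃ κ, κ = ((vy q 2)⁻¹) ^ 2 * (2 * (q 1 * q 2 * q 3)) := ⟨_, rfl⟩
  have hee : ee v' = κ • q := by
    rw [hv'def, ee_smul, ee_vy hst, smul_smul, hκ]
  have hκ0 : κ ≠ 0 := by
    rw [hκ]
    exact mul_ne_zero (pow_ne_zero 2 (inv_ne_zero hv2))
      (mul_ne_zero two_ne_zero (mul_ne_zero (mul_ne_zero (hq 1) (hq 2)) (hq 3)))
  obtain ⟨s, hs⟩ := IsAlgClosed.exists_pow_nat_eq κ (n := 2) two_pos
  have hs0 : s ≠ 0 := by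
    rintro rfl
    apply hκ0
    rw [← hs]
    ring
  have hqs : qq Q (s • u) = ee v' := by rw [qq_smul, hs, hee, hqdef]
  have hsub : Algebra.adjoin ℂ (Set.range (ee v')) ≤ F.toSubalgebra := by
    refine Algebra.adjoin_le ?_
    rintro _ ⟨j, rfl⟩
    change ee v' j ∈ F
    fin_cases j
    · simp only [Fin.zero_eta, ee_zero]
      exact add_mem (add_mem (pow_mem (hv' 0) 2) (pow_mem (hv' 1) 2)) (pow_mem (hv' 2) 2)
    · simp only [Fin.mk_one, ee_one]
      exact mul_mem m2 (mul_mem (hv' 1) (hv' 2))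
    · simp only [Fin.reduceFinMk, ee_two]
      exact mul_mem m2 (mul_mem (hv' 0) (hv' 2))
    · simp only [Fin.reduceFinMk, ee_three]
      exact mul_mem m2 (mul_mem (hv' 0) (hv' 1))
  have hmem : ∀ i, (s • u) i ∈ F := by
    intro i
    have h1 := web_integral hfin (s • u) i
    rw [hqs] at h1
    apply hF
    obtain ⟨p, hp0, hp⟩ := h1.isAlgebraic
    refine isAlgebraic_of_coeff (p := p.map (algebraMap _ N)) ?_ ?_ ?_
    · intro n
      rw [coeff_map]
      exact hsub (p.coeff n).2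
    · exact (Polynomial.map_ne_zero_iff Subtype.val_injective).2 hp0
    · rw [Polynomial.eval_map]
      exact hp
  have hms : s ∈ F := by
    have h1 := hmem 0
    rwa [Pi.smul_apply, smul_eq_mul, hu1, mul_one] at h1
  have h1 := mul_mem (inv_mem hms) (hmem i)
  rwa [Pi.smul_apply, smul_eq_mul, inv_mul_cancel_left₀ hs0] at h1

omit hQ hfin in
theorem xy_ne (h : AlgebraicIndependent ℂ ![x, y]) : y⁻¹ * x⁻¹ - x * y ≠ 0 := by
  obtain ⟨hx, hy⟩ := H55.T8.pair0.1 h
  have mx : x ∈ cl0 ({x} : Set N) := subset_cl0 _ (Set.mem_singleton x)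
  have hx0 : x ≠ 0 := by
    rintro rfl
    exact hx isAlgebraic_zero
  have hy0 : y ≠ 0 := by
    rintro rfl
    exact hy (zero_mem _)
  intro h0
  apply hy
  have h2 : y ^ 2 = (x⁻¹) ^ 2 := by
    have h3 : (y⁻¹ * x⁻¹ - x * y) * (y * x⁻¹) = 0 := by rw [h0, zero_mul]
    have h4 : (y⁻¹ * x⁻¹ - x * y) * (y * x⁻¹) =
        (y⁻¹ * y) * (x⁻¹) ^ 2 - (x * x⁻¹) * y ^ 2 := by ring
    rw [h4, inv_mul_cancel₀ hy0, mul_inv_cancel₀ hx0] at h3
    linear_combination -h3
  exact sq_mem (closed_cl0 _) h2 (pow_mem (inv_mem mx) 2)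

omit hQ hfin in
theorem ratio_of {x y v0 v1 v2 : N} (hx : x ≠ 0) (hy : y ≠ 0) (hd : y⁻¹ * x⁻¹ - x * y ≠ 0)
    (hv2 : v2 ≠ 0) (e1 : y⁻¹ * v0 + x * v1 + v2 = 0) (e2 : y * v0 + x⁻¹ * v1 + v2 = 0) :
    v0 / v2 = (x - x⁻¹) / (y⁻¹ * x⁻¹ - x * y) ∧ v1 / v2 = (y - y⁻¹) / (y⁻¹ * x⁻¹ - x * y) := by
  have hxx : x * x⁻¹ = 1 := mul_inv_cancel₀ hx
  have hyy : y * y⁻¹ = 1 := mul_inv_cancel₀ hy
  constructor
  · rw [div_eq_div_iff hv2 hd]
    linear_combination x⁻¹ * e1 - x * e2
  · rw [div_eq_div_iff hv2 hd]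
    linear_combination -y * e1 + y⁻¹ * e2

/-- A point of the octic on the line is not over both lines. -/
theorem GQ.not_both (hirr : Irreducible (octic Q)) (h4 : Algebra.trdeg ℂ N = 4)
    (h : GQ Q x y w z) (hu1 : u 0 = 1) (hR : Rul (MM Q x y) w z u) (hst : st (qq Q u) = 0)
    (e1 : (∑ i, mv x y i * vy (qq Q u) i) = 0) (e2 : (∑ i, mv x⁻¹ y⁻¹ i * vy (qq Q u) i) = 0) :
    False := by
  have hu0 : u ≠ 0 := by
    rintro rfl
    exact zero_ne_one hu1
  have hg := h.genW hQ hfin hirr h4 hu0 hR hst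
  have mx : x ∈ cl0 ({x, y} : Set N) := subset_cl0 _ (by simp)
  have my : y ∈ cl0 ({x, y} : Set N) := subset_cl0 _ (by simp)
  have hd := xy_ne h.gen.xy
  simp only [Fin.sum_univ_three, mv, cons_val_zero, cons_val_one, cons_val_two, head_cons,
    tail_cons, cons_val, one_mul, inv_inv] at e1 e2
  obtain ⟨f0, f1⟩ := ratio_of h.x_ne h.y_ne hd (hg.vy_ne hQ hfin hirr 2) e1 e2
  have md : y⁻¹ * x⁻¹ - x * y ∈ cl0 ({x, y} : Set N) :=
    sub_mem (mul_mem (inv_mem my) (inv_mem mx)) (mul_mem mx my)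
  refine h.not_rational hQ h4 mx my (fun i => rational_of_ratio hfin (closed_cl0 _) hu1 hst
    (hg.qq_ne hQ hfin hirr) ?_ ?_ i) hu0 hR
  · rw [f0]
    exact div_mem (sub_mem mx (inv_mem mx)) md
  · rw [f1]
    exact div_mem (sub_mem my (inv_mem my)) md

end

end Vale.Agent.P297.H637
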