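import Vale.Agent.P297.H637.BL2

/-!
Scaled expansions of polynomials at a root of their reduction; reduction of natural expressions.
-/

set_option linter.unusedSectionVars false
set_option linter.style.haveILetI false

open Polynomial

namespace Vale.Agent.P297.H637

open Vale.Agent.P297 Vale.Agent.P297.H72

section jet

variable {N N₁ : Type} [Field N] [Field N₁] [Algebra N N₁] {P : Plc N N₁}

theorem val_of_pow {ε : N₁} {e : ℕ} (h : P.Val (ε ^ e) 0) : P.Val ε 0 := by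
  by_cases h0 : ε = 0
  · rw [h0]
    exact P.val_zero
  rcases P.val_or ε with ⟨a, ha⟩ | h1
  · have h2 := (ha.pow e).unique h
    have h3 : a = 0 := eq_zero_of_pow_eq_zero h2
    rwa [h3] at ha
  · exfalso
    have h2 := h.mul (h1.pow e)
    rw [← mul_pow, mul_inv_cancel₀ h0, one_pow, zero_mul] at h2
    exact one_ne_zero (P.val_one.unique h2)

/-- Roots of an infinitesimal. -/
theorem exists_root_pow [IsAlgClosed N₁] {l : N₁} (hl : P.Val l 0) (hl0 : l ≠ 0) {e : ℕ}
    (he : 0 < e) : ∃ ε : N₁, ε ^ e = l ∧ ε ≠ 0 ∧ P.Val ε 0 := by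
  obtain ⟨ε, hε⟩ := IsAlgClosed.exists_pow_nat_eq l he
  refine ⟨ε, hε, ?_, val_of_pow (by rw [hε]; exact hl)⟩
  rintro rfl
  apply hl0
  rw [← hε, zero_pow he.ne']

/-- The scaled coordinate line. -/
theorem pval_line (c : N) {ε : N₁} (hε : P.Val ε 0) :
    PVal P (C (algebraMap N N₁ c) + C ε * X) (C c) := by
  have h1 := (PVal.C (P.val_const c)).add ((PVal.C hε).mul PVal.X)
  rwa [C_0, zero_mul, add_zero] at h1

/-- **The scaled expansion** of a polynomial infinitely near to a polynomial with the root `c` of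
multiplicity at least `e`, where the scale `ε` satisfies `ε ^ e = l`. -/
theorem jet_comp {A R : N₁[X]} {A₀ R₀ Q : N[X]} {l ε : N₁} {c : N} {e : ℕ}
    (hA : A = A₀.map (algebraMap N N₁) + C l * R) (hR : PVal P R R₀)
    (hQ : A₀ = (X - C c) ^ e * Q) (hε : ε ^ e = l) (hε0 : P.Val ε 0) :
    ∃ B : N₁[X], A.comp (C (algebraMap N N₁ c) + C ε * X) = C l * B ∧
      PVal P B (C (Q.eval c) * X ^ e + C (R₀.eval c)) := by
  refine ⟨X ^ e * (Q.map (algebraMap N N₁)).comp (C (algebraMap N N₁ c) + C ε * X) +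
    R.comp (C (algebraMap N N₁ c) + C ε * X), ?_, ?_⟩
  · rw [hA, hQ, add_comp, mul_comp, C_comp, Polynomial.map_mul, Polynomial.map_pow,
      Polynomial.map_sub, map_X, map_C, mul_comp, pow_comp, sub_comp, X_comp, C_comp,
      add_sub_cancel_left, mul_pow, ← C_pow, hε]
    ring
  · have h1 := (PVal.map (P := P) Q).comp (pval_line c hε0)
    rw [comp_C] at h1
    have h2 := hR.comp (pval_line c hε0)
    rw [comp_C] at h2
    have h3 := ((PVal.X (P := P)).pow e).mul h1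
    rw [mul_comm] at h3
    have h4 := h3.add h2
    rw [mul_comm (X ^ e) (C (eval c Q))] at h4
    rw [mul_comm (X ^ e : N₁[X])]
    exact h4

end jet

section sub

variable {N N₁ : Type} [Field N] [Algebra ℂ N] [Field N₁] [Algebra ℂ N₁] [Algebra N N₁]
  [IsScalarTower ℂ N N₁]

/-- The pairs (polynomial, its reduction). -/
def PSub (P : Plc N N₁) : Subalgebra ℂ (N₁[X] × N[X]) where
  carrier := {F | PVal P F.1 F.2}
  mul_mem' := fun h h' => PVal.mul h h'
  one_mem' := PVal.one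
  add_mem' := fun h h' => PVal.add h h'
  zero_mem' := by
    have h := PVal.C (P := P) P.val_zero
    rw [C_0, C_0] at h
    exact h
  algebraMap_mem' := by
    intro r
    change PVal P (algebraMap ℂ N₁[X] r) (algebraMap ℂ N[X] r)
    rw [Polynomial.algebraMap_apply, Polynomial.algebraMap_apply,
      IsScalarTower.algebraMap_apply ℂ N N₁]
    exact PVal.C (P.val_const _)

/-- The pairs (element, its value). -/
def VSub (P : Plc N N₁) : Subalgebra ℂ (N₁ × N) where
  carrier := {F | P.Val F.1 F.2}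
  mul_mem' := fun h h' => h.mul h'
  one_mem' := P.val_one
  add_mem' := fun h h' => h.add h'
  zero_mem' := P.val_zero
  algebraMap_mem' := by
    intro r
    change P.Val (algebraMap ℂ N₁ r) (algebraMap ℂ N r)
    rw [IsScalarTower.algebraMap_apply ℂ N N₁]
    exact P.val_const _

variable {P : Plc N N₁}

/-- **Reduction of natural expressions** (polynomials). -/
theorem PVal.natural {k : ℕ} (Φ : ∀ (R : Type) [CommRing R] [Algebra ℂ R], (Fin k → R) → R)
    (hΦ : ∀ (R R' : Type) [CommRing R] [Algebra ℂ R] [CommRing R'] [Algebra ℂ R']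
      (f : R →ₐ[ℂ] R') (g : Fin k → R), f (Φ R g) = Φ R' (fun i => f (g i)))
    {g : Fin k → N₁[X]} {g₀ : Fin k → N[X]} (h : ∀ i, PVal P (g i) (g₀ i)) :
    PVal P (Φ N₁[X] g) (Φ N[X] g₀) := by
  let S := PSub P
  let G : Fin k → S := fun i => ⟨(g i, g₀ i), h i⟩
  let f1 : S →ₐ[ℂ] N₁[X] := (AlgHom.fst ℂ N₁[X] N[X]).comp S.val
  let f2 : S →ₐ[ℂ] N[X] := (AlgHom.snd ℂ N₁[X] N[X]).comp S.val
  have h1 : f1 (Φ S G) = Φ N₁[X] g := hΦ S N₁[X] f1 G
  have h2 : f2 (Φ S G) = Φ N[X] g₀ := hΦ S N[X] f2 G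
  have h3 : PVal P (f1 (Φ S G)) (f2 (Φ S G)) := (Φ S G).2
  rwa [h1, h2] at h3

/-- **Reduction of natural expressions** (elements). -/
theorem val_natural {k : ℕ} (Φ : ∀ (R : Type) [CommRing R] [Algebra ℂ R], (Fin k → R) → R)
    (hΦ : ∀ (R R' : Type) [CommRing R] [Algebra ℂ R] [CommRing R'] [Algebra ℂ R']
      (f : R →ₐ[ℂ] R') (g : Fin k → R), f (Φ R g) = Φ R' (fun i => f (g i)))
    {g : Fin k → N₁} {g₀ : Fin k → N} (h : ∀ i, P.Val (g i) (g₀ i)) :
    P.Val (Φ N₁ g) (Φ N g₀) := by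
  let S := VSub P
  let G : Fin k → S := fun i => ⟨(g i, g₀ i), h i⟩
  let f1 : S →ₐ[ℂ] N₁ := (AlgHom.fst ℂ N₁ N).comp S.val
  let f2 : S →ₐ[ℂ] N := (AlgHom.snd ℂ N₁ N).comp S.val
  have h1 : f1 (Φ S G) = Φ N₁ g := hΦ S N₁ f1 G
  have h2 : f2 (Φ S G) = Φ N g₀ := hΦ S N f2 G
  have h3 : P.Val (f1 (Φ S G)) (f2 (Φ S G)) := (Φ S G).2
  rwa [h1, h2] at h3

end sub

end Vale.Agent.P297.H637
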