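import Vale.Agent.P297.H637.Lines
import Vale.Agent.P297.H424.G4.TrA

/-!
Rationality of the lines of a ruling.
-/

set_option linter.unusedSectionVars false
set_option linter.unusedSimpArgs false

namespace Vale.Agent.P297.H637

open Matrix IntermediateField
open Vale.Agent.P297.C8
open Vale.Agent.P297 Vale.Agent.P297.Gen Vale.Agent.P297.Z3 Vale.Agent.P297.G4

section field

variable {k : Type} [Field k] {M : Matrix (Fin 4) (Fin 4) k} {w : k} {z u u' D : Fin 4 → k}

/-- A relation between three dependent vectors, the first two of which are independent. -/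
theorem exists_comb_of {a b c : Fin 4 → k} (hab : LinearIndependent k ![a, b])
    (h : ¬ LinearIndependent k ![a, b, c]) : ∃ α β : k, c = α • a + β • b := by
  obtain ⟨g, hg, i, hi⟩ := Fintype.not_linearIndependent_iff.1 h
  rw [Fin.sum_univ_three] at hg
  simp only [cons_val_zero, cons_val_one, cons_val_two, head_cons, tail_cons, cons_val] at hg
  have h2 : g 2 ≠ 0 := by
    intro h0
    rw [h0, zero_smul, add_zero] at hg
    obtain ⟨h3, h4⟩ := LinearIndependent.pair_iff.1 hab _ _ hg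
    fin_cases i
    · exact hi h3
    · exact hi h4
    · exact hi h0
  refine ⟨-(g 2)⁻¹ * g 0, -(g 2)⁻¹ * g 1, ?_⟩
  have h3 : (g 2)⁻¹ • (g 0 • a + g 1 • b + g 2 • c) = 0 := by rw [hg, smul_zero]
  rw [smul_add, smul_add, smul_smul, smul_smul, smul_smul, inv_mul_cancel₀ h2, one_smul] at h3
  rw [← sub_eq_zero, ← h3]
  module

theorem indep_of_zero (hz : z 0 = 1) (hD0 : D 0 = 0) (hD : D ≠ 0) :
    LinearIndependent k ![z, D] := by
  rw [LinearIndependent.pair_iff]
  intro s t h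
  have h0 := congrFun h 0
  simp only [Pi.add_apply, Pi.smul_apply, smul_eq_mul, hz, hD0, mul_one, mul_zero, add_zero,
    Pi.zero_apply] at h0
  refine ⟨h0, ?_⟩
  rw [h0, zero_smul, zero_add] at h
  exact (smul_eq_zero.1 h).resolve_right hD

/-- The points of the line. -/
theorem _root_.Vale.Agent.P297.C8.Rul.line (h2 : (2 : k) ≠ 0) (hM : M.IsSymm) (hdet : M.det ≠ 0) (hw : w ≠ 0)
    (hz : z 0 = 1) (hD0 : D 0 = 0) (hD : D ≠ 0) (h : Rul M w z D) (u : Fin 4 → k) :
    Rul M w z u ↔ ∃ t : k, u = u 0 • z + t • D := by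
  constructor
  · intro hu
    have h3 := Rul.dim2 h2 hM hdet hw h hu
    obtain ⟨α, β, hc⟩ := exists_comb_of (indep_of_zero hz hD0 hD) h3
    refine ⟨β, ?_⟩
    have h4 := congrFun hc 0
    simp only [Pi.add_apply, Pi.smul_apply, smul_eq_mul, hz, hD0, mul_one, mul_zero,
      add_zero] at h4
    rw [h4]
    exact hc
  · rintro ⟨t, ht⟩
    rw [ht]
    exact (Rul.self M w z).comb h _ _

end field

section retr

variable {N : Type} [Field N] [Algebra ℂ N]

/-- A linear retraction onto a subfield. -/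
theorem exists_retr (F : IntermediateField ℂ N) : ∃ P : N →+ N, (∀ c ∈ F, P c = c) ∧
    (∀ c ∈ F, ∀ v, P (c * v) = c * P v) ∧ ∀ v, P v ∈ F := by
  obtain ⟨g, hg⟩ := LinearMap.exists_leftInverse_of_injective (Algebra.linearMap F N)
    (LinearMap.ker_eq_bot.2 (algebraMap F N).injective)
  have hg' : ∀ c : F, g (algebraMap F N c) = c := fun c => LinearMap.congr_fun hg c
  refine ⟨(Algebra.linearMap F N).toAddMonoidHom.comp g.toAddMonoidHom, ?_, ?_, ?_⟩
  · intro c hc
    change algebraMap F N (g (algebraMap F N ⟨c, hc⟩)) = c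
    rw [hg']
    rfl
  · intro c hc v
    change algebraMap F N (g (c * v)) = c * algebraMap F N (g v)
    have h1 : c * v = (⟨c, hc⟩ : F) • v := rfl
    rw [h1, map_smul, smul_eq_mul, map_mul]
    rfl
  · intro v
    exact (g v).2

variable {F : IntermediateField ℂ N} {M : Matrix (Fin 4) (Fin 4) N} {w : N} {u z : Fin 4 → N}

theorem mulVec_mem (hM : ∀ i j, M i j ∈ F) (hu : ∀ i, u i ∈ F) (i : Fin 4) :
    (M *ᵥ u) i ∈ F := by
  simp only [mulVec, dotProduct]
  exact sum_mem fun j _ => mul_mem (hM i j) (hu j)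

theorem _root_.Vale.Agent.P297.C8.Rul.retr (hM : ∀ i j, M i j ∈ F) (hw : w ∈ F) (hu : ∀ i, u i ∈ F) (h : Rul M w u z)
    {P : N →+ N} (hP : ∀ c ∈ F, ∀ v, P (c * v) = c * P v) : Rul M w u (fun i => P (z i)) := by
  have h1 : ∀ j, P ((M *ᵥ z) j) = (M *ᵥ fun i => P (z i)) j := by
    intro j
    simp only [mulVec, dotProduct, map_sum]
    exact Finset.sum_congr rfl fun i _ => hP _ (hM j i) _
  have h2 : ∀ a b, P ((M *ᵥ u) a * (M *ᵥ z) b) = (M *ᵥ u) a * (M *ᵥ fun i => P (z i)) b := by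
    intro a b
    rw [hP _ (mulVec_mem hM hu a), h1]
  have h3 : ∀ a b, P ((M *ᵥ z) b * (M *ᵥ u) a) = (M *ᵥ fun i => P (z i)) b * (M *ᵥ u) a := by
    intro a b
    rw [mul_comm, h2, mul_comm]
  have h4 : ∀ a b, P (u a * z b) = u a * P (z b) := fun a b => hP _ (hu a) _
  have h5 : ∀ a b, P (z b * u a) = P (z b) * u a := fun a b => by
    rw [mul_comm, h4, mul_comm]
  have h6 : wd (M *ᵥ u) (M *ᵥ fun i => P (z i)) = fun i => P (wd (M *ᵥ u) (M *ᵥ z) i) := by
    funext i
    fin_cases i <;> simp only [wd, Fin.zero_eta, Fin.mk_one, Fin.reduceFinMk, cons_val_zero,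
      cons_val_one, cons_val_two, head_cons, tail_cons, cons_val, map_sub, h2, mul_comm] <;>
      simp only [mul_comm _ ((M *ᵥ u) _), h2]
  have h7 : w • ws u (fun i => P (z i)) = fun i => P ((w • ws u z) i) := by
    funext i
    simp only [Pi.smul_apply, smul_eq_mul]
    rw [hP w hw]
    congr 1
    fin_cases i <;> simp only [ws, Fin.zero_eta, Fin.mk_one, Fin.reduceFinMk, cons_val_zero,
      cons_val_one, cons_val_two, head_cons, tail_cons, cons_val, map_sub, map_neg, h4, h5]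
  unfold Rul
  rw [h6, h7]
  funext i
  rw [h]

/-- A line through a rational point is rational. -/
theorem _root_.Vale.Agent.P297.C8.Rul.rational [CharZero N] (hMs : M.IsSymm) (hdet : M.det ≠ 0) (hw0 : w ≠ 0)
    (hM : ∀ i j, M i j ∈ F) (hw : w ∈ F) (hu : ∀ i, u i ∈ F) (hu0 : u ≠ 0) (h : Rul M w u z) :
    ∃ r : Fin 4 → N, (∀ i, r i ∈ F) ∧ ∃ a b : N, z = a • u + b • r := by
  obtain ⟨k, hk⟩ : ∃ k, u k ≠ 0 := by
    by_contra hcon
    push Not at hcon
    exact hu0 (funext hcon)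
  let z' : Fin 4 → N := z - (z k / u k) • u
  have hz'k : z' k = 0 := by
    change z k - z k / u k * u k = 0
    rw [div_mul_cancel₀ _ hk, sub_self]
  have hz' : Rul M w u z' := h.sub ((Rul.self M w u).smul _)
  have hzz : z = (z k / u k) • u + z' := by
    change z = (z k / u k) • u + (z - (z k / u k) • u)
    abel
  by_cases h0 : z' = 0
  · refine ⟨0, fun i => zero_mem _, z k / u k, 0, ?_⟩
    rw [smul_zero, add_zero]
    rw [h0, add_zero] at hzz
    exact hzz
  obtain ⟨l, hl⟩ : ∃ l, z' l ≠ 0 := by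
    by_contra hcon
    push Not at hcon
    exact h0 (funext hcon)
  let r : Fin 4 → N := (z' l)⁻¹ • z'
  have hrl : r l = 1 := inv_mul_cancel₀ hl
  have hrk : r k = 0 := by
    change (z' l)⁻¹ * z' k = 0
    rw [hz'k, mul_zero]
  have hr : Rul M w u r := hz'.smul _
  obtain ⟨P, hP1, hP2, hP3⟩ := exists_retr F
  have hPr := hr.retr hM hw hu hP2
  have hPl : P (r l) = 1 := by rw [hrl, hP1 1 (one_mem F)]
  have hPk : P (r k) = 0 := by rw [hrk, map_zero]
  have hur : LinearIndependent N ![u, r] := by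
    rw [LinearIndependent.pair_iff]
    intro s t hst
    have h1 := congrFun hst k
    simp only [Pi.add_apply, Pi.smul_apply, smul_eq_mul, hrk, mul_zero, add_zero,
      Pi.zero_apply] at h1
    have h2 : s = 0 := (mul_eq_zero.1 h1).resolve_right hk
    have h3 := congrFun hst l
    simp only [Pi.add_apply, Pi.smul_apply, smul_eq_mul, hrl, mul_one, h2, zero_mul, zero_add,
      Pi.zero_apply] at h3
    exact ⟨h2, h3⟩
  obtain ⟨α, β, hc⟩ := exists_comb_of hur (Rul.dim2 two_ne_zero hMs hdet hw0 hr hPr)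
  have h1 := congrFun hc k
  simp only [Pi.add_apply, Pi.smul_apply, smul_eq_mul, hrk, mul_zero, add_zero, map_zero] at h1
  have h2 : α = 0 := (mul_eq_zero.1 h1.symm).resolve_right hk
  have h3 := congrFun hc l
  rw [hPl] at h3
  simp only [Pi.add_apply, Pi.smul_apply, smul_eq_mul, hrl, mul_one, h2, zero_mul,
    zero_add] at h3
  rw [h2, ← h3, zero_smul, zero_add, one_smul] at hc
  refine ⟨r, fun i => ?_, z k / u k, z' l, ?_⟩
  · have h4 : P (r i) = r i := congrFun hc i
    rw [← h4]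
    exact hP3 _
  · have h4 : z' l • r = z' := by
      change z' l • ((z' l)⁻¹ • z') = z'
      rw [smul_smul, mul_inv_cancel₀ hl, one_smul]
    rw [h4]
    exact hzz

/-- The points of a line through a rational point. -/
theorem _root_.Vale.Agent.P297.C8.Rul.param [CharZero N] (hMs : M.IsSymm) (hdet : M.det ≠ 0) (hw0 : w ≠ 0)
    (hM : ∀ i j, M i j ∈ F) (hw : w ∈ F) (hu : ∀ i, u i ∈ F) (hu0 : u ≠ 0) (h : Rul M w u z)
    (hz : z 0 = 1) : ∃ p r : Fin 4 → N, (∀ i, p i ∈ F) ∧ (∀ i, r i ∈ F) ∧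
      ∃ t : N, z = p + t • r := by
  obtain ⟨r, hr, a, b, hab⟩ := h.rational hMs hdet hw0 hM hw hu hu0
  have h0 := congrFun hab 0
  simp only [Pi.add_apply, Pi.smul_apply, smul_eq_mul, hz] at h0
  by_cases hr0 : r 0 = 0
  · rw [hr0, mul_zero, add_zero] at h0
    have h1 : u 0 ≠ 0 := by
      intro h1
      rw [h1, mul_zero] at h0
      exact one_ne_zero h0
    have h2 : a = (u 0)⁻¹ := eq_inv_of_mul_eq_one_left h0.symm
    refine ⟨a • u, r, fun i => ?_, hr, b, hab⟩
    rw [h2]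
    exact mul_mem (inv_mem (hu 0)) (hu i)
  · refine ⟨(r 0)⁻¹ • r, u - (u 0 / r 0) • r, fun i => mul_mem (inv_mem (hr 0)) (hr i),
      fun i => sub_mem (hu i) (mul_mem (div_mem (hu 0) (hr 0)) (hr i)), a, ?_⟩
    have h1 : b = (r 0)⁻¹ - a * (u 0 / r 0) := by
      field_simp
      linear_combination -h0
    rw [hab, h1]
    module

/-- A vector on a line through a point rational over `cl0 S` is rational over one more
element. -/
theorem _root_.Vale.Agent.P297.C8.Rul.mem_cl0 [IsAlgClosed N] [CharZero N] (hMs : M.IsSymm) (hdet : M.det ≠ 0)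
    (hw0 : w ≠ 0) {S : Set N} (hM : ∀ i j, M i j ∈ cl0 S) (hw : w ∈ cl0 S)
    (hu : ∀ i, u i ∈ cl0 S) (hu0 : u ≠ 0) (h : Rul M w u z) (hz : z 0 = 1) :
    ∃ t : N, ∀ i, z i ∈ cl0 (S ∪ {t}) := by
  obtain ⟨p, r, hp, hr, t, ht⟩ := h.param hMs hdet hw0 hM hw hu hu0 hz
  refine ⟨t, fun i => ?_⟩
  have h1 : cl0 S ≤ cl0 (S ∪ {t}) :=
    cl0_le (closed_cl0 _) ((Set.subset_union_left).trans (subset_cl0 _))
  rw [ht]
  exact add_mem (h1 (hp i)) (mul_mem (subset_cl0 _ (Or.inr rfl)) (h1 (hr i)))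

end retr

end Vale.Agent.P297.H637
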