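import Vale.Agent.P297.H521.Rul

/-!
Lines of a ruling of a quadric surface in coordinates.
-/

set_option linter.unusedSectionVars false
set_option linter.unusedSimpArgs false

namespace Vale.Agent.P297.H637

open Matrix
open Vale.Agent.P297.C8

section ring

variable {R : Type} [CommRing R]

/-- the determinant -/
def d4 (z u d e : Fin 4 → R) : R :=
  (z 0 * u 1 - z 1 * u 0) * (d 2 * e 3 - d 3 * e 2) -
    (z 0 * u 2 - z 2 * u 0) * (d 1 * e 3 - d 3 * e 1) +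
    (z 0 * u 3 - z 3 * u 0) * (d 1 * e 2 - d 2 * e 1) +
    (z 1 * u 2 - z 2 * u 1) * (d 0 * e 3 - d 3 * e 0) -
    (z 1 * u 3 - z 3 * u 1) * (d 0 * e 2 - d 2 * e 0) +
    (z 2 * u 3 - z 3 * u 2) * (d 0 * e 1 - d 1 * e 0)

theorem d4_eq_det (z u d e : Fin 4 → R) : d4 z u d e = Matrix.det (Matrix.of ![z, u, d, e]) := by
  simp [Matrix.det_succ_row_zero, Fin.sum_univ_succ, Fin.succAbove, d4]
  ring

theorem wd_dot (p q d e : Fin 4 → R) :
    (p ⬝ᵥ d) * (q ⬝ᵥ e) - (p ⬝ᵥ e) * (q ⬝ᵥ d) = ∑ i, wd p q i * wd d e i := by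
  simp [Fin.sum_univ_succ, wd, dotProduct]
  ring

theorem ws_wd (z u d e : Fin 4 → R) : ∑ i, ws z u i * wd d e i = d4 z u d e := by
  simp [Fin.sum_univ_succ, wd, ws, d4]
  ring

variable {M : Matrix (Fin 4) (Fin 4) R} {w : R} {z u u' : Fin 4 → R}

theorem _root_.Vale.Agent.P297.C8.Rul.det_form (h : Rul M w z u) (d e : Fin 4 → R) :
    ((M *ᵥ z) ⬝ᵥ d) * ((M *ᵥ u) ⬝ᵥ e) - ((M *ᵥ z) ⬝ᵥ e) * ((M *ᵥ u) ⬝ᵥ d) = w * d4 z u d e := by
  rw [wd_dot, h, ← ws_wd, Finset.mul_sum]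
  refine Finset.sum_congr rfl fun i _ => ?_
  simp only [Pi.smul_apply, smul_eq_mul]
  ring

theorem _root_.Vale.Agent.P297.C8.Rul.comb (h : Rul M w z u) (h' : Rul M w z u') (a b : R) :
    Rul M w z (a • u + b • u') := (h.smul a).add (h'.smul b)

theorem _root_.Vale.Agent.P297.C8.Rul.sub (h : Rul M w z u) (h' : Rul M w z u') :
    Rul M w z (u - u') := by
  have h1 := h.comb h' 1 (-1)
  have h2 : (1 : R) • u + (-1 : R) • u' = u - u' := by
    rw [one_smul, neg_smul, one_smul, sub_eq_add_neg]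
  rwa [h2] at h1

end ring

section field

variable {k : Type} [Field k] {M : Matrix (Fin 4) (Fin 4) k} {w : k} {z u u' : Fin 4 → k}

theorem eq_zero_of_dot {v : Fin 4 → k} (h : ∀ e : Fin 4 → k, v ⬝ᵥ e = 0) : v = 0 := by
  funext i
  have h1 := h (Pi.single i 1)
  simpa using h1

theorem dot_symm (hM : M.IsSymm) (z u : Fin 4 → k) : (M *ᵥ z) ⬝ᵥ u = (M *ᵥ u) ⬝ᵥ z := by
  rw [dotProduct_comm, dotProduct_mulVec, ← mulVec_transpose, hM.eq]

/-- isotropy -/
theorem _root_.Vale.Agent.P297.C8.Rul.iso (_ : M.IsSymm) (hdet : M.det ≠ 0) (h : Rul M w z u)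
    (hi : LinearIndependent k ![z, u]) :
    (M *ᵥ z) ⬝ᵥ z = 0 ∧ (M *ᵥ z) ⬝ᵥ u = 0 ∧ (M *ᵥ u) ⬝ᵥ u = 0 := by
  rw [LinearIndependent.pair_iff] at hi
  have h1 : ∀ e, ((((M *ᵥ z) ⬝ᵥ z) • (M *ᵥ u)) - (((M *ᵥ u) ⬝ᵥ z) • (M *ᵥ z))) ⬝ᵥ e = 0 := by
    intro e
    have h2 := h.det_form z e
    have h3 : d4 z u z e = 0 := by
      unfold d4
      ring
    rw [h3, mul_zero] at h2
    rw [sub_dotProduct, smul_dotProduct, smul_dotProduct, smul_eq_mul, smul_eq_mul]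
    linear_combination h2
  have h2 : ∀ e, ((((M *ᵥ z) ⬝ᵥ u) • (M *ᵥ u)) - (((M *ᵥ u) ⬝ᵥ u) • (M *ᵥ z))) ⬝ᵥ e = 0 := by
    intro e
    have h2 := h.det_form u e
    have h3 : d4 z u u e = 0 := by
      unfold d4
      ring
    rw [h3, mul_zero] at h2
    rw [sub_dotProduct, smul_dotProduct, smul_dotProduct, smul_eq_mul, smul_eq_mul]
    linear_combination h2
  have h3 := eq_zero_of_dot h1
  have h4 := eq_zero_of_dot h2
  rw [← mulVec_smul, ← mulVec_smul, ← mulVec_sub] at h3 h4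
  have h5 := Matrix.eq_zero_of_mulVec_eq_zero hdet h3
  have h6 := Matrix.eq_zero_of_mulVec_eq_zero hdet h4
  have h7 := hi (-((M *ᵥ u) ⬝ᵥ z)) ((M *ᵥ z) ⬝ᵥ z) (by
    rw [neg_smul, add_comm, ← sub_eq_add_neg]
    exact h5)
  have h8 := hi (-((M *ᵥ u) ⬝ᵥ u)) ((M *ᵥ z) ⬝ᵥ u) (by
    rw [neg_smul, add_comm, ← sub_eq_add_neg]
    exact h6)
  exact ⟨h7.2, h8.2, neg_eq_zero.1 h8.1⟩

theorem exists_det_ne {v : Fin 3 → Fin 4 → k} (h : LinearIndependent k v) :
    ∃ e : Fin 4 → k, d4 (v 0) (v 1) (v 2) e ≠ 0 := by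
  have h1 : Submodule.span k (Set.range v) ≠ ⊤ := by
    intro h2
    have h3 := finrank_range_le_card (R := k) v
    rw [Set.finrank, h2, finrank_top, Module.finrank_fin_fun, Fintype.card_fin] at h3
    omega
  obtain ⟨e, he⟩ := SetLike.exists_not_mem_of_ne_top _ h1 rfl
  refine ⟨e, ?_⟩
  have h2 : LinearIndependent k (Fin.snoc v e : Fin 4 → Fin 4 → k) :=
    LinearIndependent.finSnoc h he
  rw [d4_eq_det]
  have h3 : (Fin.snoc v e : Fin 4 → Fin 4 → k) = (Matrix.of ![v 0, v 1, v 2, e]) := by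
    funext i
    fin_cases i <;> rfl
  rw [h3] at h2
  have h4 := Matrix.linearIndependent_rows_iff_isUnit.1 h2
  exact ((Matrix.isUnit_iff_isUnit_det _).1 h4).ne_zero

/-- The vectors on the line form a plane. -/
theorem _root_.Vale.Agent.P297.C8.Rul.dim2 (h2 : (2 : k) ≠ 0) (hM : M.IsSymm) (hdet : M.det ≠ 0) (hw : w ≠ 0)
    (h : Rul M w z u) (h' : Rul M w z u') : ¬ LinearIndependent k ![z, u, u'] := by
  intro hi
  have hi1 : LinearIndependent k ![z, u] := by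
    have := hi.comp ![0, 1] (by decide)
    convert this using 1
    funext i
    fin_cases i <;> rfl
  have hi2 : LinearIndependent k ![z, u'] := by
    have := hi.comp ![0, 2] (by decide)
    convert this using 1
    funext i
    fin_cases i <;> rfl
  obtain ⟨a1, a2, a3⟩ := h.iso hM hdet hi1
  obtain ⟨b1, b2, b3⟩ := h'.iso hM hdet hi2
  have e1 : ∀ e, -(((M *ᵥ z) ⬝ᵥ e) * ((M *ᵥ u) ⬝ᵥ u')) = w * d4 z u u' e := by
    intro e
    have h3 := h.det_form u' e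
    rw [b2] at h3
    linear_combination h3
  have e2 : ∀ e, -(((M *ᵥ z) ⬝ᵥ e) * ((M *ᵥ u) ⬝ᵥ u')) = -(w * d4 z u u' e) := by
    intro e
    have h3 := h'.det_form u e
    rw [a2, dot_symm hM u' u] at h3
    have h4 : d4 z u' u e = -d4 z u u' e := by
      unfold d4
      ring
    rw [h4] at h3
    linear_combination h3
  obtain ⟨e, he⟩ := exists_det_ne hi
  change d4 z u u' e ≠ 0 at he
  have h3 := (e1 e).symm.trans (e2 e)
  have h5 : 2 * (w * d4 z u u' e) = 0 := by linear_combination h3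
  exact mul_ne_zero h2 (mul_ne_zero hw he) h5

theorem det_aux {p q r s t v a1 a2 a3 z1 z2 z3 m00 m01 m02 m03 : k} {w : k}
    (h1 : a1 = m01 + (p * z1 + q * z2 + r * z3)) (h2 : a2 = m02 + (q * z1 + s * z2 + t * z3))
    (h3 : a3 = m03 + (r * z1 + t * z2 + v * z3))
    (h0 : m00 + m01 * z1 + m02 * z2 + m03 * z3 = -(a1 * z1 + a2 * z2 + a3 * z3))
    (hdet : w ^ 2 = Matrix.det !![m00, m01, m02, m03; m01, p, q, r; m02, q, s, t; m03, r, t, v]) :
    Matrix.det !![a2 * r - a3 * q - w, a2 * t - a3 * s, a2 * v - a3 * t;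
      a3 * p - a1 * r, a3 * q - a1 * t - w, a3 * r - a1 * v;
      a1 * q - a2 * p, a1 * s - a2 * q, a1 * t - a2 * r - w] = 0 := by
  have e1 : m01 = a1 - (p * z1 + q * z2 + r * z3) := by rw [h1]; ring
  have e2 : m02 = a2 - (q * z1 + s * z2 + t * z3) := by rw [h2]; ring
  have e3 : m03 = a3 - (r * z1 + t * z2 + v * z3) := by rw [h3]; ring
  have e0 : m00 = -(a1 * z1 + a2 * z2 + a3 * z3) - (m01 * z1 + m02 * z2 + m03 * z3) := by
    linear_combination h0
  rw [e1, e2, e3] at e0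
  clear h0 h1 h2 h3
  subst e1 e2 e3 e0
  simp [Matrix.det_succ_row_zero, Fin.sum_univ_succ, Fin.succAbove] at hdet
  rw [Matrix.det_fin_three]
  simp only [Matrix.of_apply, Matrix.cons_val', Matrix.cons_val_zero, Matrix.cons_val_one,
    Matrix.cons_val_two, Matrix.head_cons, Matrix.tail_cons, Matrix.cons_val_fin_one,
    Matrix.head_fin_const, Matrix.cons_val]
  linear_combination (-w) * hdet

/-- The direction of the line through an isotropic vector. -/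
theorem exists_dir (hM : M.IsSymm) (hdet : w ^ 2 = M.det) (hw : w ≠ 0) (hz1 : z 0 = 1)
    (hz : (M *ᵥ z) ⬝ᵥ z = 0) : ∃ D : Fin 4 → k, D 0 = 0 ∧ D ≠ 0 ∧ Rul M w z D := by
  have hs : ∀ i j, M j i = M i j := fun i j => hM.apply i j
  have hMe : M = !![M 0 0, M 0 1, M 0 2, M 0 3; M 0 1, M 1 1, M 1 2, M 1 3;
      M 0 2, M 1 2, M 2 2, M 2 3; M 0 3, M 1 3, M 2 3, M 3 3] := by
    funext i j
    fin_cases i <;> fin_cases j <;> simp [hs 0 1, hs 0 2, hs 0 3, hs 1 2, hs 1 3, hs 2 3]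
  have ha : ∀ i, (M *ᵥ z) i = M i 0 + (M i 1 * z 1 + M i 2 * z 2 + M i 3 * z 3) := by
    intro i
    simp only [mulVec, dotProduct, Fin.sum_univ_four, hz1]
    ring
  set a : Fin 4 → k := M *ᵥ z with hadef
  have h1 : a 1 = M 0 1 + (M 1 1 * z 1 + M 1 2 * z 2 + M 1 3 * z 3) := by rw [ha, hs 0 1]
  have h2 : a 2 = M 0 2 + (M 1 2 * z 1 + M 2 2 * z 2 + M 2 3 * z 3) := by
    rw [ha, hs 0 2, hs 1 2]
  have h3 : a 3 = M 0 3 + (M 1 3 * z 1 + M 2 3 * z 2 + M 3 3 * z 3) := by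
    rw [ha, hs 0 3, hs 1 3, hs 2 3]
  have h00 : a 0 = -(a 1 * z 1 + a 2 * z 2 + a 3 * z 3) := by
    simp only [dotProduct, Fin.sum_univ_four, hz1] at hz
    linear_combination hz
  have h0 : M 0 0 + M 0 1 * z 1 + M 0 2 * z 2 + M 0 3 * z 3 =
      -(a 1 * z 1 + a 2 * z 2 + a 3 * z 3) := by
    rw [← h00, ha]
    ring
  have hdet' : w ^ 2 = Matrix.det !![M 0 0, M 0 1, M 0 2, M 0 3; M 0 1, M 1 1, M 1 2, M 1 3;
      M 0 2, M 1 2, M 2 2, M 2 3; M 0 3, M 1 3, M 2 3, M 3 3] := by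
    rw [← hMe]
    exact hdet
  have h4 := det_aux h1 h2 h3 h0 hdet'
  obtain ⟨v, hv0, hv⟩ := Matrix.exists_mulVec_eq_zero_iff.2 h4
  have e1 := congrFun hv 0
  have e2 := congrFun hv 1
  have e3 := congrFun hv 2
  simp [mulVec, dotProduct, Fin.sum_univ_three] at e1 e2 e3
  refine ⟨![0, v 0, v 1, v 2], rfl, ?_, ?_⟩
  · intro h
    apply hv0
    funext i
    fin_cases i
    · exact congrFun h 1
    · exact congrFun h 2
    · exact congrFun h 3
  · have hq : ∀ i, (M *ᵥ ![0, v 0, v 1, v 2]) i = M i 1 * v 0 + M i 2 * v 1 + M i 3 * v 2 := by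
      intro i
      simp only [mulVec, dotProduct, Fin.sum_univ_four]
      simp
    set q : Fin 4 → k := M *ᵥ ![0, v 0, v 1, v 2] with hqdef
    have q0 : q 0 = M 0 1 * v 0 + M 0 2 * v 1 + M 0 3 * v 2 := hq 0
    have q1 : q 1 = M 1 1 * v 0 + M 1 2 * v 1 + M 1 3 * v 2 := hq 1
    have q2 : q 2 = M 1 2 * v 0 + M 2 2 * v 1 + M 2 3 * v 2 := by rw [hq, hs 1 2]
    have q3 : q 3 = M 1 3 * v 0 + M 2 3 * v 1 + M 3 3 * v 2 := by rw [hq, hs 1 3, hs 2 3]
    have f1 : a 2 * q 3 - a 3 * q 2 = w * v 0 := by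
      rw [q2, q3]
      linear_combination e1
    have f2 : a 3 * q 1 - a 1 * q 3 = w * v 1 := by
      rw [q1, q3]
      linear_combination e2
    have f3 : a 1 * q 2 - a 2 * q 1 = w * v 2 := by
      rw [q1, q2]
      linear_combination e3
    have g1 : a 1 * v 0 + a 2 * v 1 + a 3 * v 2 = 0 := by
      refine (mul_eq_zero.1 ?_).resolve_left hw
      linear_combination -(a 1) * f1 - (a 2) * f2 - (a 3) * f3
    have g2 : q 0 = -(z 1 * q 1 + z 2 * q 2 + z 3 * q 3) := by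
      rw [q0, q1, q2, q3]
      linear_combination g1 - v 0 * h1 - v 1 * h2 - v 2 * h3
    unfold Rul
    rw [← hadef, ← hqdef]
    funext i
    fin_cases i
    · simp [wd, ws]
      rw [h00, g2]
      linear_combination z 2 * f3 - z 3 * f2
    · simp [wd, ws]
      rw [h00, g2]
      linear_combination z 3 * f1 - z 1 * f3
    · simp [wd, ws]
      rw [h00, g2]
      linear_combination z 1 * f2 - z 2 * f1
    · simp [wd, ws, hz1]
      linear_combination f3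
    · simp [wd, ws, hz1]
      linear_combination -f2
    · simp [wd, ws, hz1]
      linear_combination f1

end field

end Vale.Agent.P297.H637
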