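import Vale.Agent.P297.H637.Form
import Vale.Agent.P297.H637.MSpec
import Vale.Agent.P297.H279.Fam
import Vale.Agent.P297.H278.SixGen
import Vale.Agent.P297.H521.Z3Spec

/-!
The degeneration of the family of the sections of the members of the pencil to a chord and three
rational curves.
-/

set_option linter.unusedSectionVars false
set_option linter.style.haveILetI false
set_option linter.unusedSimpArgs false

open Polynomial

namespace Vale.Agent.P297.H637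

open Vale.Agent.P297 Vale.Agent.P297.H72 Vale.Agent.P297.H279 Vale.Agent.P297.Gen
open Vale.Agent.P297.H777

/-- The form of degree six. -/
noncomputable def SF (P : H288.Par) : SForm 3 where
  Φ := fun _ _ _ p t g => phiH P (p 0) (p 1) (p 2) t (g 0) (g 1) (g 2) (g 3)
  nat := fun _ _ _ _ _ _ f p t g => map_phiH P f (p 0) (p 1) (p 2) t (g 0) (g 1) (g 2) (g 3)
  hom := fun _ _ _ p t g l => phiH_smul P (p 0) (p 1) (p 2) t (g 0) (g 1) (g 2) (g 3) l

section letters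

variable {N : Type} [Field N] [Algebra ℂ N] {P : H288.Par}

theorem eS_eq_ES (δ b d a τ : N) : H288.eS P δ (b - δ) (d - δ) a τ = ES P δ a b d τ := by
  unfold H288.eS ES H288.kk2 H288.kk0 H288.kk1 H288.zz
  ring

theorem crd_eq_chart (δ b d a τ : N) : H288.crd δ (b - δ) (d - δ) a τ = chart δ a b d τ := by
  funext j
  unfold H288.crd chart
  fin_cases j
  · change b - δ + (d - δ) + 3 * δ = b + d + δ
    ring
  · change a + (d - δ) = a + d - δ
    ring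
  · change b - δ + a / τ = b + a / τ - δ
    ring
  · rfl

/-- The numbers `n` at a zero of the denominator. -/
noncomputable def nn (P : H288.Par) (δ q : N) (r : Fin 3 → N) (β : N) : Fin 3 → N :=
  ![-(q ^ 2 * ((β - r 1) * (β - r 2))) / ((1 + q) * (β - r 0)),
    -(e2 P δ β) / (q * (1 + q) * ((β - r 0) * (β - r 1))),
    (1 + q) ^ 2 * (β - r 0) ^ 2 / (q * (β - r 2))]

theorem nn_zero (δ q : N) (r : Fin 3 → N) (β : N) :
    nn P δ q r β 0 = -(q ^ 2 * ((β - r 1) * (β - r 2))) / ((1 + q) * (β - r 0)) := rfl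

theorem nn_one (δ q : N) (r : Fin 3 → N) (β : N) :
    nn P δ q r β 1 = -(e2 P δ β) / (q * (1 + q) * ((β - r 0) * (β - r 1))) := rfl

theorem nn_two (δ q : N) (r : Fin 3 → N) (β : N) :
    nn P δ q r β 2 = (1 + q) ^ 2 * (β - r 0) ^ 2 / (q * (β - r 2)) := rfl

/-- The equations of the plane cubic at a common zero of the denominator and the numerator. -/
theorem lab_nn {δ q β : N} {v r : Fin 3 → N} (hq : q ≠ 0) (hq1 : 1 + q ≠ 0)
    (he0 : ∀ X : N, e0 P δ X = (X - v 0) * (X - v 1) * (X - v 2)) (h0 : β ≠ r 0) (h1 : β ≠ r 1)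
    (h2 : β ≠ r 2) (hA : fA P ![δ, v 0, v 1, v 2] ![q, r 0, r 1, r 2] β = 0)
    (hB : fB P ![δ, v 0, v 1, v 2] ![q, r 0, r 1, r 2] β = 0) :
    H288.Lab P δ (β - δ) (fun i => v i - δ) (nn P δ q r β) := by
  have e0' := sub_ne_zero.2 h0
  have e1' := sub_ne_zero.2 h1
  have e2' := sub_ne_zero.2 h2
  change -(q ^ 3 * ((β - r 1) ^ 2 * (β - r 2) ^ 2)) - e2 P δ β * (β - r 2) +
    (1 + q) ^ 3 * ((β - r 0) ^ 3 * (β - r 1)) -
      3 * (β + 1) * (q * (1 + q) * ((β - r 0) * (β - r 1) * (β - r 2))) = 0 at hA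
  change -(v 0 * (q ^ 3 * ((β - r 1) ^ 2 * (β - r 2) ^ 2))) - v 1 * (e2 P δ β * (β - r 2)) +
    v 2 * ((1 + q) ^ 3 * ((β - r 0) ^ 3 * (β - r 1))) +
      (3 * β + H279.mu P δ) * (q * (1 + q) * ((β - r 0) * (β - r 1) * (β - r 2))) = 0 at hB
  have c0 := he0 0
  have c1 := he0 1
  have c2 := he0 (-1)
  have hsum : nn P δ q r β 0 + nn P δ q r β 1 + nn P δ q r β 2 = 3 * (β + 1) := by
    rw [nn_zero, nn_one, nn_two]
    field_simp
    linear_combination hA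
  have hsum2 : v 0 * nn P δ q r β 0 + v 1 * nn P δ q r β 1 + v 2 * nn P δ q r β 2 =
      -(3 * β + H279.mu P δ) := by
    rw [nn_zero, nn_one, nn_two]
    field_simp
    linear_combination hB
  have hprod : nn P δ q r β 0 * nn P δ q r β 1 * nn P δ q r β 2 = e2 P δ β := by
    rw [nn_zero, nn_one, nn_two]
    field_simp
  have s1 : v 0 + v 1 + v 2 = 0 := by
    haveI := H288.charZeroC N
    have h3 : (2 : N) ≠ 0 := two_ne_zero
    unfold e0 at c0 c1 c2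
    have : 2 * (v 0 + v 1 + v 2) = 0 := by linear_combination c1 + c2 - 2 * c0
    exact (mul_eq_zero.1 this).resolve_left h3
  have s3 : v 0 * v 1 * v 2 = m2 P δ := by
    unfold e0 at c0
    linear_combination c0
  have s2 : v 0 * v 1 + v 1 * v 2 + v 2 * v 0 = -m4 P δ := by
    unfold e0 at c1
    linear_combination -c1 + s3 + s1
  constructor
  · change v 0 - δ + (v 1 - δ) + (v 2 - δ) = -(3 * δ)
    linear_combination s1
  · change (v 0 - δ) * (v 1 - δ) + (v 1 - δ) * (v 2 - δ) + (v 2 - δ) * (v 0 - δ) = _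
    unfold m4 at s2
    linear_combination s2 - 2 * δ * s1
  · change (v 0 - δ) * (v 1 - δ) * (v 2 - δ) = _
    unfold m2 at s3
    unfold m4 at s2
    linear_combination s3 - δ * s2 + δ ^ 2 * s1
  · rw [hsum]
    ring
  · change (v 0 - δ) * nn P δ q r β 0 + (v 1 - δ) * nn P δ q r β 1 +
      (v 2 - δ) * nn P δ q r β 2 = _
    unfold H279.mu m3 m4 at hsum2
    unfold H288.mu
    linear_combination hsum2 - δ * hsum
  · rw [hprod, e2_eq]
    rfl

/-- The curve over the centre: the coordinate `a`. -/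
theorem la_centre {δ q β d ζ0 ζ2 ζ3 : N} {v r : Fin 3 → N} (hq : q ≠ 0) (hq1 : 1 + q ≠ 0)
    (h0 : β ≠ r 0) (h1 : β ≠ r 1) (h2 : β ≠ r 2) (hζ0 : ζ0 ≠ 0)
    (hr1 : (β - r 1) * ζ2 = (d - v 1) * ζ0) (hr2 : (β - r 2) * ζ3 = (d - v 2) * ζ0) :
    -((1 + q) * (β - r 0) * (ζ2 * ζ3)) / (q ^ 2 * ζ0 ^ 2) =
      H288.la (fun i => v i - δ) (nn P δ q r β) (d - δ) := by
  have e0' := sub_ne_zero.2 h0
  have e1' := sub_ne_zero.2 h1
  have e2' := sub_ne_zero.2 h2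
  have d1 : d - v 1 = (β - r 1) * ζ2 / ζ0 := by
    rw [eq_div_iff hζ0, hr1]
  have d2 : d - v 2 = (β - r 2) * ζ3 / ζ0 := by
    rw [eq_div_iff hζ0, hr2]
  unfold H288.la
  rw [nn_zero, sub_sub_sub_cancel_right, sub_sub_sub_cancel_right, d1, d2]
  field_simp

/-- The curve over the centre: the coordinate `τ`. -/
theorem lt_centre {δ q β d ζ0 ζ2 ζ3 : N} {v r : Fin 3 → N} (hq : q ≠ 0) (hq1 : 1 + q ≠ 0)
    (h0 : β ≠ r 0) (h1 : β ≠ r 1) (h2 : β ≠ r 2) (hζ0 : ζ0 ≠ 0)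
    (hr1 : (β - r 1) * ζ2 = (d - v 1) * ζ0) (hr2 : (β - r 2) * ζ3 = (d - v 2) * ζ0) :
    ζ2 ^ 2 * ζ3 / (q ^ 3 * ζ0 ^ 3) =
      H288.lt (fun i => v i - δ) (nn P δ q r β) (d - δ) := by
  have e0' := sub_ne_zero.2 h0
  have e1' := sub_ne_zero.2 h1
  have e2' := sub_ne_zero.2 h2
  have d1 : d - v 1 = (β - r 1) * ζ2 / ζ0 := by
    rw [eq_div_iff hζ0, hr1]
  have d2 : d - v 2 = (β - r 2) * ζ3 / ζ0 := by
    rw [eq_div_iff hζ0, hr2]
  unfold H288.lt
  rw [nn_zero, nn_two, sub_sub_sub_cancel_right, sub_sub_sub_cancel_right, d1, d2]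
  field_simp

theorem nn_zero_ne {δ q β : N} {r : Fin 3 → N} (hq : q ≠ 0) (hq1 : 1 + q ≠ 0)
    (h0 : β ≠ r 0) (h1 : β ≠ r 1) (h2 : β ≠ r 2) : nn P δ q r β 0 ≠ 0 := by
  rw [nn_zero]
  exact div_ne_zero (neg_ne_zero.2 (mul_ne_zero (pow_ne_zero 2 hq)
    (mul_ne_zero (sub_ne_zero.2 h1) (sub_ne_zero.2 h2)))) (mul_ne_zero hq1 (sub_ne_zero.2 h0))

theorem nn_two_ne {δ q β : N} {r : Fin 3 → N} (hq : q ≠ 0) (hq1 : 1 + q ≠ 0)
    (h0 : β ≠ r 0) (h2 : β ≠ r 2) : nn P δ q r β 2 ≠ 0 := by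
  rw [nn_two]
  exact div_ne_zero (mul_ne_zero (pow_ne_zero 2 hq1) (pow_ne_zero 2 (sub_ne_zero.2 h0)))
    (mul_ne_zero hq (sub_ne_zero.2 h2))

/-- The polynomial of degree six over a centre. -/
noncomputable def QQ (P : H288.Par) (δ q : N) (v r : Fin 3 → N) (β : N) : N[X] :=
  (H288.P6 P δ (β - δ) (fun i => v i - δ) (nn P δ q r β)).comp (X - C δ)

/-- The constant factor over a centre. -/
noncomputable def ck (P : H288.Par) (δ q : N) (r : Fin 3 → N) (β : N) : N :=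
  q ^ 6 / (nn P δ q r β 0 ^ 4 * nn P δ q r β 2 ^ 2)

/-- **The form at a centre.** -/
theorem phiH_centre {δ q β : N} {v r : Fin 3 → N} (hq : q ≠ 0) (hq1 : 1 + q ≠ 0)
    (h0 : β ≠ r 0) (h1 : β ≠ r 1) (h2 : β ≠ r 2) {ζ0 ζ1 ζ2 ζ3 : N} (hζ0 : ζ0 ≠ 0)
    (hr1 : (β - r 1) * ζ2 = ζ1 - v 1 * ζ0) (hr2 : (β - r 2) * ζ3 = ζ1 - v 2 * ζ0) :
    phiH P δ q (r 0) β ζ0 ζ1 ζ2 ζ3 =
      ζ0 ^ 6 * (ck P δ q r β * (QQ P δ q v r β).eval (ζ1 / ζ0)) := by
  have hr1' : (β - r 1) * ζ2 = (ζ1 / ζ0 - v 1) * ζ0 := by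
    rw [hr1, sub_mul, div_mul_cancel₀ _ hζ0]
  have hr2' : (β - r 2) * ζ3 = (ζ1 / ζ0 - v 2) * ζ0 := by
    rw [hr2, sub_mul, div_mul_cancel₀ _ hζ0]
  have n0 := nn_zero_ne (P := P) (δ := δ) hq hq1 h0 h1 h2
  have n2 := nn_two_ne (P := P) (δ := δ) hq hq1 h0 h2
  rw [phiH_eq P hζ0 hq, la_centre (P := P) (δ := δ) hq hq1 h0 h1 h2 hζ0 hr1' hr2',
    lt_centre (P := P) (δ := δ) hq hq1 h0 h1 h2 hζ0 hr1' hr2', ← eS_eq_ES]
  unfold QQ ck
  rw [eval_comp, eval_sub, eval_X, eval_C, H288.P6_eval, H288.p6_eq n0 n2]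
  field_simp

theorem QQ_natDegree {δ q β : N} {v r : Fin 3 → N}
    (h : (H288.P6 P δ (β - δ) (fun i => v i - δ) (nn P δ q r β)).natDegree = 6) :
    (QQ P δ q v r β).natDegree = 6 := by
  unfold QQ
  rw [natDegree_comp, h, natDegree_X_sub_C]

/-- The cycle of the six points over a centre. -/
theorem QQ_roots {α : Type} [AddCommMonoid α] {δ q β : N} {v r : Fin 3 → N} (f : N → α) :
    ((QQ P δ q v r β).roots.map fun d => f (d - δ)).sum =
      ((H288.P6 P δ (β - δ) (fun i => v i - δ) (nn P δ q r β)).roots.map f).sum := by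
  have h := (H288.P6 P δ (β - δ) (fun i => v i - δ) (nn P δ q r β)).roots_comp_C_mul_X_add_C
    (a := 1) (b := -δ) isUnit_one
  have h1 : (C 1 * X + C (-δ) : N[X]) = X - C δ := by
    rw [C_1, C_neg]
    ring
  rw [h1] at h
  unfold QQ
  rw [h, Multiset.map_map]
  congr 1
  refine Multiset.map_congr rfl fun t _ => ?_
  simp

end letters

end Vale.Agent.P297.H637
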